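import Vale.Agent.P281Z.U1.All
import Vale.Agent.P281Z.Gl.All
import Vale.Agent.P281Z.St.All
import Vale.Agent.P281Z.Bs.Ext1

/-!
# P281Z, block U1: the theorem
-/

namespace Vale.Agent.P281Z.U1

theorem u1 : U1 := u1_all Gt.rsR Gt.genR (St.start_of Gt.genR) Bs.ext1

end Vale.Agent.P281Z.U1
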