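import Vale.Agent.P281Z.U1.Defs

/-!
# P281Z, block U1: the Jacobian determinants along a test map (DETT)
-/

open scoped Manifold ContDiff Topology
open Set Filter Matrix
open Vale.Agent.P272.K Vale.Agent.P285.H281.FD
open Vale.Agent.P277Z (Hol jd)
open Vale.Agent.P277Z.Slc (dd)
open Vale.Agent.P281Z.Gt

set_option linter.unusedSectionVars false

noncomputable section

namespace Vale.Agent.P281Z.U1

namespace Dt

section alg

variable {p d N K n a : ℕ}

theorem detR_right (σ : Fin p ⊕ Fin d ≃ Fin N) (T : Matrix (Fin p) (Fin N) ℂ)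
    (R : Matrix (Fin d) (Fin N) ℂ) (A : Matrix (Fin d) (Fin p) ℂ) (B : Matrix (Fin d) (Fin d) ℂ) :
    detR σ T (A * T + B * R) = B.det * detR σ T R := by
  have h : fromRows T (A * T + B * R) =
      (fromBlocks 1 0 A B : Matrix (Fin p ⊕ Fin d) (Fin p ⊕ Fin d) ℂ) * fromRows T R := by
    simp [fromBlocks_mul_fromRows]
  rw [detR, detR, h, submatrix_mul _ _ _ σ.symm _ σ.symm.bijective, det_mul,
    det_submatrix_equiv_self, det_fromBlocks_zero₁₂, det_one, one_mul]

theorem exists_AB (σ : Fin p ⊕ Fin d ≃ Fin N) {T : Matrix (Fin p) (Fin N) ℂ}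
    {R : Matrix (Fin d) (Fin N) ℂ} (h : detR σ T R ≠ 0) (R' : Matrix (Fin d) (Fin N) ℂ) :
    ∃ (A : Matrix (Fin d) (Fin p) ℂ) (B : Matrix (Fin d) (Fin d) ℂ), R' = A * T + B * R := by
  set M := (fromRows T R).submatrix σ.symm id
  refine ⟨(R' * M⁻¹).submatrix id (σ ∘ .inl), (R' * M⁻¹).submatrix id (σ ∘ .inr), ?_⟩
  conv_lhs => rw [← nonsing_inv_mul_cancel_right M R' (isUnit_iff_ne_zero.2 h)]
  ext i b
  rw [mul_apply, ← σ.sum_comp, Fintype.sum_sum_type]
  simp [M, mul_apply]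

/-- the rows of all the blocks -/
def blk (R : Fin n → Matrix (Fin a) (Fin K) ℂ) : Matrix (Fin (n * a)) (Fin K) ℂ :=
  of fun k => R (finProdFinEquiv.symm k).1 (finProdFinEquiv.symm k).2

theorem ind (σ : Fin p ⊕ Fin (n * a) ≃ Fin K) (σ' : Fin p ⊕ Fin a ≃ Fin N)
    {T : Matrix (Fin p) (Fin K) ℂ} {X : Fin n → Matrix (Fin N) (Fin K) ℂ}
    {Γ : Fin n → Matrix (Fin p) (Fin N) ℂ} {W : Fin n → Matrix (Fin a) (Fin N) ℂ}
    (h1 : ∀ j, Γ j * X j = T) (h2 : ∀ j, detR σ' (Γ j) (W j) ≠ 0)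
    (W' : Fin n → Matrix (Fin a) (Fin N) ℂ) :
    detR σ T (blk fun j => W' j * X j) * ∏ j, detR σ' (Γ j) (W j) =
      detR σ T (blk fun j => W j * X j) * ∏ j, detR σ' (Γ j) (W' j) := by
  choose A B h using fun j => exists_AB σ' (h2 j) (W' j)
  set ε : Fin (n * a) ≃ Fin a × Fin n := finProdFinEquiv.symm.trans (Equiv.prodComm _ _)
  have e : (blk fun j => W' j * X j) =
      blk A * T + (blockDiagonal B).submatrix ε ε * blk fun j => W j * X j := by
    ext k b
    have e1 : ∀ j, W' j * X j = A j * T + B j * (W j * X j) := fun j => by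
      rw [h j, Matrix.add_mul, Matrix.mul_assoc, h1, Matrix.mul_assoc]
    rw [Matrix.add_apply, mul_apply (M := (blockDiagonal B).submatrix ε ε), ← ε.symm.sum_comp,
      Fintype.sum_prod_type]
    simp [blk, e1, ε, blockDiagonal_apply, mul_apply (M := A _), mul_apply (M := B _),
      mul_apply (N := T), -finProdFinEquiv_symm_apply]
  rw [e, detR_right, det_submatrix_equiv_self, det_blockDiagonal]
  simp only [h, detR_right, Finset.prod_mul_distrib]
  ring

end alg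

variable {n p d : ℕ} {X Y : Type} [TopologicalSpace X] [ChartedSpace (Cm n) X]
  [TopologicalSpace Y] [ChartedSpace (Cm p) Y] {ι : Type} {x : X} {e e₁ : Chart n X}
  {e' : Chart p Y} {f : X → Y}

/-- the matrix of the gradients -/
def gm (g : ι → X → ℂ) (e : Chart n X) (x : X) : Matrix ι (Fin n) ℂ :=
  of fun i b => dd (g i) e x (Pi.single b 1)

theorem jd_gm {g : Fin n → X → ℂ} (hg : ∀ i, Hol n (g i) x) (he : At e x) :
    jd g e x = (gm g e x).det := by
  rw [jd, ← LinearMap.det_toMatrix', fderiv_pi fun i => (hg i e he).differentiableAt]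
  congr 1

theorem jd_app {X : Type} [TopologicalSpace X] [ChartedSpace (Cm (p + d)) X] {x : X}
    {e : Chart (p + d) X} {g : Fin p → X → ℂ} {g' : Fin d → X → ℂ}
    (hg : ∀ i, Hol (p + d) (g i) x) (hg' : ∀ i, Hol (p + d) (g' i) x) (he : At e x) :
    jd (Fin.append g g') e x = detR finSumFinEquiv (gm g e x) (gm g' e x) := by
  rw [jd_gm (Fin.addCases (by simpa using hg) (by simpa using hg')) he, detR]
  congr 1
  ext i b
  refine Fin.addCases (fun i => ?_) (fun i => ?_) i <;> simp [gm]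

variable [IsManifold 𝓘(ℂ, Cm n) ω X] [IsManifold 𝓘(ℂ, Cm p) ω Y]

theorem hol_jd {g : Fin n → X → ℂ} (hg : ∀ i, Hol n (g i) x) (he : At e x) :
    Hol n (jd g e) x := by
  refine (hol_det (M := gm g e) fun i b => P277Z.hol_comp he
    (((ContinuousLinearMap.apply ℂ ℂ (Pi.single b 1 : Cm n)).analyticAt _).fun_comp
      (hg i e he).fderiv)).congr ?_
  filter_upwards [eventually_all.2 fun i => (hg i).near, at_near he] with y k1 k2
    using (jd_gm k1 k2).symm

theorem gm_comp {g : ι → Y → ℂ} (hg : ∀ i, Hol p (g i) (f x)) (hf : HolA n p f x) (he : At e x)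
    (he' : At e' (f x)) : gm (fun i y => g i (f y)) e x = gm g e' (f x) * dfM f e e' x := by
  ext i b
  rw [gm, of_apply, dd_comp (hg i) hf he he', ContinuousLinearMap.comp_apply,
    ← Finset.univ_sum_single (df f e e' x _), map_sum, mul_apply]
  refine Finset.sum_congr rfl fun c _ => ?_
  rw [dfM_apply, gm, of_apply, mul_comm, ← smul_eq_mul, ← map_smul, ← Pi.single_smul, smul_eq_mul,
    mul_one]

theorem gm_chart (hf : HolA n p f x) (he : At e x) (he' : At e' (f x)) :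
    gm (fun c y => e' (f y) c) e x = dfM f e e' x := by
  ext c b
  rw [dfM_apply, df_apply hf he he']
  rfl

theorem jd_chg {g : Fin n → X → ℂ} (hg : ∀ i, Hol n (g i) x) (he : At e x) (he₁ : At e₁ x) :
    jd g e x = jd g e₁ x * (jacM e e₁ x).det := by
  rw [jd_gm hg he, jd_gm hg he₁, ← det_mul, ← dfM_id he he₁,
    ← gm_comp (f := fun x => x) hg (holM_id.at x) he he₁]

end Dt

open Dt Su

section tm

variable {p a n : ℕ} {D : Su p a} {T : Type} [TopologicalSpace T]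
  [ChartedSpace (Cm (p + n * a)) T] [IsManifold 𝓘(ℂ, Cm (p + n * a)) ω T] {γ : T → Pt D.toFb n}
  {t : T} {E : Chart (p + n * a) T} {e' : Chart p D.Y.X} {e : Fin n → Chart (p + a) D.X.X}
  {w w' : Fin n → Fin a → D.X.X → ℂ}

theorem Dt.cow_eq (e' : Chart p D.Y.X) (w : Fin n → Fin a → D.X.X → ℂ) (γ : T → Pt D.toFb n) :
    (fun i s => cow e' w (γ s) i) = Fin.append (fun c s => e' (γ s).1 c) fun k s =>
      w (finProdFinEquiv.symm k).1 (finProdFinEquiv.symm k).2
        ((γ s).2 (finProdFinEquiv.symm k).1) := by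
  funext i s
  refine Fin.addCases (fun i => ?_) (fun i => ?_) i <;> simp [cow]

theorem Dt.hol_cow (h : Tm (p + n * a) γ t) (he' : At e' (γ t).1)
    (hw : ∀ j i, Hol (p + a) (w j i) ((γ t).2 j)) (i : Fin (p + n * a)) :
    Hol (p + n * a) (fun s => cow e' w (γ s) i) t := by
  rw [congrFun (cow_eq e' w γ) i]
  refine Fin.addCases (fun i => ?_) (fun i => ?_) i
  · rw [Fin.append_left]
    exact h.b.hol (hol_chart he' i)
  · rw [Fin.append_right]
    exact (h.x _).hol (hw _ _)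

theorem Dt.jnw_eq (h : Tm (p + n * a) γ t) (hE : At E t) (he : Ats e' e (γ t))
    (hw : ∀ j i, Hol (p + a) (w j i) ((γ t).2 j)) :
    jnw e' w γ E t = detR finSumFinEquiv (dfM (fun s => (γ s).1) E e' t)
      (blk fun j => gm (w j) (e j) ((γ t).2 j) * dfM (fun s => (γ s).2 j) E (e j) t) := by
  rw [jnw, cow_eq, jd_app (fun i => h.b.hol (hol_chart he.1 i)) (fun _ => (h.x _).hol (hw _ _)) hE,
    gm_chart h.b hE he.1]
  simp only [fun j => (gm_comp (f := fun s => (γ s).2 j) (hw j) (h.x j) hE (he.2 j)).symm]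
  rfl

theorem Dt.jdw_eq (hD : D.Ok) {w : Fin a → D.X.X → ℂ} {x : D.X.X} {e : Chart (p + a) D.X.X}
    (hw : ∀ i, Hol (p + a) (w i) x) (he : At e x) (he' : At e' (D.f x)) :
    jdw (M := D.toFb) w e e' x = detR finSumFinEquiv (dfM D.f e e' x) (gm w e x) := by
  rw [jdw, jd_app (fun i => (hD.hol.at x).hol (hol_chart he' i)) hw he, gm_chart (hD.hol.at x) he he']

theorem Dt.eq (hD : D.Ok) (h : Tm (p + n * a) γ t) (hE : At E t) (he : Ats e' e (γ t))
    (hw : ∀ j, D.Fc (w j) ((γ t).2 j)) (hw' : ∀ j i, Hol (p + a) (w' j i) ((γ t).2 j)) :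
    jnw e' w γ E t / (∏ j, jdw (M := D.toFb) (w j) (e j) e' ((γ t).2 j)) *
      ∏ j, jdw (M := D.toFb) (w' j) (e j) e' ((γ t).2 j) = jnw e' w' γ E t := by
  have k : ∀ j, At e' (D.f ((γ t).2 j)) := fun j => (h.fp.self_of_nhds j).symm ▸ he.1
  have k1 := fun j => (hw j).2 _ _ (he.2 j) (k j)
  rw [div_mul_eq_mul_div, div_eq_iff (Finset.prod_ne_zero_iff.2 fun j _ => k1 j),
    jnw_eq h hE he hw', jnw_eq h hE he fun j => (hw j).1]
  simp only [fun j => jdw_eq hD (hw j).1 (he.2 j) (k j), fun j => jdw_eq hD (hw' j) (he.2 j) (k j)]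
    at k1 ⊢
  exact (ind _ _ (fun j => by
    rw [← dfM_comp (hD.hol.at _) (h.x j) hE (he.2 j) (k j),
      dfM_congr (h.fp.mono fun s hs => hs j) hE]) k1 _).symm

theorem Dt.near (h : Tm (p + n * a) γ t) : ∀ᶠ s in 𝓝 t, Tm (p + n * a) γ s := by
  filter_upwards [h.b.near, eventually_all.2 fun j => (h.x j).near, h.fp.eventually_nhds]
    with s k1 k2 k3 using ⟨k1, k2, k3⟩

end tm

/-- **DETT** -/
theorem dett_of (hX : DETX) (hW : HW) : DETT := by
  intro p a s D hD T _ _ _ γ t h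
  have X := hX p a D hD
  obtain ⟨-, c1, c2, -, -, c3⟩ := hW p a D hD
  have fc : ∀ t, Tm (p + (s + 1) * a) γ t → (γ t).1 ∉ D.Q → ∀ j,
      D.Fc (D.wc ((γ t).2 j)) ((γ t).2 j) := fun t h k j =>
    X.ex _ (c3 _ ((h.fp.self_of_nhds j).symm ▸ k))
  have at' : ∀ {e' : Chart p D.Y.X}, At e' (γ t).1 → ∀ j, At e' (D.f ((γ t).2 j)) :=
    fun k j => (h.fp.self_of_nhds j).symm ▸ k
  refine ⟨fun E e' w hE he' hw => hol_jd (hol_cow h he' hw) hE,
    fun E e' e w hE he hQ hw => Dt.eq hD h hE he (fc t h hQ) hw, fun E e' e hE he hQ => ?_,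
    fun E E₁ e' e₁' e e₁ hE hE₁ he he₁ hQ => ?_⟩
  · have k := fc t h hQ
    have k1 := fun j => (k j).2 _ _ (he.2 j) (at' he.1 j)
    refine ((hol_jd (hol_cow h he.1 fun j => (k j).1) hE).div (Hol.prod Finset.univ fun j _ =>
      (h.x j).hol (X.hol _ _ _ _ (k j).1 (he.2 j) (at' he.1 j)))
      (Finset.prod_ne_zero_iff.2 fun j _ => k1 j)).congr ?_
    filter_upwards [near h, at_near hE, h.b.cont.eventually (at_near he.1),
      eventually_all.2 fun j => (h.x j).cont.eventually (at_near (he.2 j)),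
      eventually_all.2 fun j => (h.x j).cont.eventually
        (X.fc _ _ _ _ (k j).1 (he.2 j) (at' he.1 j) (k1 j)),
      (c1.continuousAt.comp h.b.cont).eventually_ne (mt (c2 _).2.2.1 hQ)] with u a1 a2 a3 a4 a5 a6
    refine (div_eq_iff (Finset.prod_ne_zero_iff.2 fun j _ => (a5 j).2 _ _ (a4 j)
      ((a1.fp.self_of_nhds j).symm ▸ a3))).2 (Dt.eq hD a1 a2 ⟨a3, a4⟩
        (fc u a1 (mt (c2 _).2.2.2 a6)) fun j => (a5 j).1).symm
  · have k := fc t h hQ
    have k1 := Finset.prod_ne_zero_iff.2 fun j (_ : j ∈ Finset.univ) =>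
      (k j).2 _ _ (he.2 j) (at' he.1 j)
    have k2 := Finset.prod_ne_zero_iff.2 fun j (_ : j ∈ Finset.univ) =>
      (k j).2 _ _ (he₁.2 j) (at' he₁.1 j)
    have k3 := Finset.prod_congr rfl fun j (_ : j ∈ Finset.univ) =>
      X.chg _ _ _ _ _ _ (k j).1 (he.2 j) (he₁.2 j) (at' he.1 j) (at' he₁.1 j)
    simp only [h.fp.self_of_nhds _, Finset.prod_mul_distrib, Finset.prod_const, Finset.card_fin] at k3
    have k4 : jnw e₁' (fun j => D.wc ((γ t).2 j)) γ E t = _ :=
      jd_chg (hol_cow h he₁.1 fun j => (k j).1) hE hE₁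
    have k5 : jnw e₁' (fun j => D.wc ((γ t).2 j)) γ E t =
        (jacM e' e₁' (γ t).1).det * jnw e' (fun j => D.wc ((γ t).2 j)) γ E t := by
      rw [jnw_eq h hE he fun j => (k j).1, jnw_eq h hE ⟨he₁.1, he.2⟩ fun j => (k j).1,
        dfM_chg' h.b hE he.1 he₁.1, detR_left]
    rw [Su.cmp, Su.cmp, div_mul_eq_mul_div, ← mul_div_assoc, div_eq_div_iff k1 k2, mul_assoc, ← k3]
    unfold jnw at k4 k5 ⊢
    linear_combination (∏ j, jdw (M := D.toFb) (D.wc ((γ t).2 j)) (e j) e' ((γ t).2 j)) *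
      (jacM e' e₁' (γ t).1).det ^ s * (k4 - k5)

end Vale.Agent.P281Z.U1
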