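import Vale.Agent.P281Z.U1.Defs
import Vale.Agent.P281Z.Gl.Thn

/-!
# P281Z, block U1: the Jacobian determinants `jdw`
-/

open scoped Manifold ContDiff Topology
open Set Filter Function
open Vale.Agent.P272.K Vale.Agent.P285.H281.FD
open Vale.Agent.P277Z (Hol jd at_chart)
open Vale.Agent.P277Z.Slc (Ind)
open Vale.Agent.P281Z.Gt Vale.Agent.P281Z.Gt.Thn

set_option linter.unusedSectionVars false

noncomputable section

namespace Vale.Agent.P281Z.U1

namespace Detx

section gen

variable {n k : ℕ} {X : Type} [TopologicalSpace X] [ChartedSpace (Cm n) X]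

theorem at_refl (z : Cm k) : At (n := k) (.refl (Cm k)) z := at_chart z

/-- the Jacobian matrix of a family of functions -/
def dW (w : Fin k → X → ℂ) (e : Chart n X) (x : X) : Matrix (Fin k) (Fin n) ℂ :=
  dfM (fun y i => w i y) e (.refl (Cm k)) x

theorem jd_eq (g : Fin n → X → ℂ) (e : Chart n X) (x : X) : jd g e x = (dW g e x).det :=
  (LinearMap.det_toMatrix' _).symm

variable [IsManifold 𝓘(ℂ, Cm n) ω X] {x : X} {e e₁ : Chart n X} {w : Fin k → X → ℂ}

theorem dW_apply (h : ∀ i, Hol n (w i) x) (he : At e x) (i : Fin k) (b : Fin n) :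
    dW w e x i b = P277Z.Slc.dd (w i) e x (Pi.single b 1) :=
  (dfM_apply i b).trans (df_apply (holA_cm h) he (at_refl _) _ i)

theorem dW_chg (h : ∀ i, Hol n (w i) x) (he : At e x) (he₁ : At e₁ x) :
    dW w e x = dW w e₁ x * jacM e e₁ x := dfM_chg (holA_cm h) he₁ he (at_refl _)

theorem hol_jd {g : Fin n → X → ℂ} (h : ∀ i, Hol n (g i) x) (he : At e x) : Hol n (jd g e) x := by
  rw [show jd g e = _ from funext (jd_eq g e)]
  exact hol_det fun a b => hol_dfM (holA_cm h) he (at_refl _) a b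

theorem jac_ne (he : At e x) (he₁ : At e₁ x) : (jacM e e₁ x).det ≠ 0 := by
  rw [← dfM_id he he₁]
  exact (imm_iff_det (holM_id.at x) he he₁).1 (imm_id x)

end gen

variable {p a : ℕ} {M : Fb (p + a) p} {w : Fin a → M.X.X → ℂ} {x : M.X.X}
  {e e₁ : Chart (p + a) M.X.X} {e' e₁' : Chart p M.Y.X}

theorem hol_app (hf : HolA (p + a) p M.f x) (h : ∀ i, Hol (p + a) (w i) x) (he' : At e' (M.f x))
    (i : Fin (p + a)) : Hol (p + a) (Fin.append (fun c x => e' (M.f x) c) w i) x := by
  refine i.addCases (fun c => ?_) fun c => ?_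
  · rw [Fin.append_left]
    exact hf.hol (hol_chart he' c)
  · rw [Fin.append_right]
    exact h c

theorem jdw_eq (hf : HolA (p + a) p M.f x) (h : ∀ i, Hol (p + a) (w i) x) (he : At e x)
    (he' : At e' (M.f x)) :
    jdw w e e' x = detR finSumFinEquiv (dfM M.f e e' x) (dW w e x) := by
  rw [jdw, jd_eq, detR]
  refine congrArg Matrix.det (Matrix.ext fun i b => ?_)
  rw [dW_apply (hol_app hf h he') he, Matrix.submatrix_apply]
  refine i.addCases (fun c => ?_) fun c => ?_
  · rw [Fin.append_left, finSumFinEquiv_symm_apply_castAdd, Matrix.fromRows_apply_inl, dfM_apply,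
      df_apply hf he he', id]
  · rw [Fin.append_right, finSumFinEquiv_symm_apply_natAdd, Matrix.fromRows_apply_inr,
      dW_apply h he, id]

theorem chg (hf : HolA (p + a) p M.f x) (h : ∀ i, Hol (p + a) (w i) x) (he : At e x)
    (he₁ : At e₁ x) (he' : At e' (M.f x)) (he₁' : At e₁' (M.f x)) :
    jdw w e e' x * (jacM e' e₁' (M.f x)).det = (jacM e e₁ x).det * jdw w e₁ e₁' x := by
  rw [jdw_eq hf h he he', jdw_eq hf h he₁ he₁', dfM_chg hf he₁ he he', dW_chg h he he₁, detR_mul,
    dfM_chg' hf he₁ he' he₁', detR_left]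
  ring

theorem hol (hf : HolA (p + a) p M.f x) (h : ∀ i, Hol (p + a) (w i) x) (he : At e x)
    (he' : At e' (M.f x)) : Hol (p + a) (jdw w e e') x := hol_jd (hol_app hf h he') he

theorem ne_iff (hf : HolA (p + a) p M.f x) (h : ∀ i, Hol (p + a) (w i) x) (he : At e x)
    (he' : At e' (M.f x)) : jdw w e e' x ≠ 0 ↔
      Imm (p + a) (p + a) (fun y i => Fin.append (fun c x => e' (M.f x) c) w i y) x :=
  jd_ne (holA_cm (hol_app hf h he')) he

theorem ne_of_ne (hf : HolA (p + a) p M.f x) (h : ∀ i, Hol (p + a) (w i) x) (he : At e x)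
    (he₁ : At e₁ x) (he' : At e' (M.f x)) (he₁' : At e₁' (M.f x)) (h0 : jdw w e e' x ≠ 0) :
    jdw w e₁ e₁' x ≠ 0 :=
  right_ne_zero_of_mul (chg hf h he he₁ he' he₁' ▸ mul_ne_zero h0 (jac_ne he' he₁'))

/-- the missing coordinates -/
theorem ind (hf : HolA (p + a) p M.f x) {ι : Type} [Fintype ι] {ζ : ι → M.X.X → ℂ}
    (hi : Ind (p + a) (Sum.elim ζ fun (i : Fin p) z => e' (M.f z) i) x) (he : At e x)
    (he' : At e' (M.f x)) : ∃ (w : Fin a → M.X.X → ℂ) (τ : ι → Fin a),
      (∀ i, Hol (p + a) (w i) x) ∧ jdw w e e' x ≠ 0 ∧ Injective τ ∧ ∀ i, w (τ i) = ζ i := by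
  have hc := ind_le hi
  rw [Fintype.card_sum, Fintype.card_fin] at hc
  obtain ⟨Θ, h1, h2, -, h4⟩ := exists_co hi (d := a - Fintype.card ι)
    (by rw [Fintype.card_sum, Fintype.card_fin]; omega) univ_mem
  let σ : ι ⊕ Fin (a - Fintype.card ι) ≃ Fin a :=
    Fintype.equivFinOfCardEq (by rw [Fintype.card_sum, Fintype.card_fin]; omega)
  let w : Fin a → M.X.X → ℂ := fun j => Sum.elim ζ (fun k y => (Θ y).2 k) (σ.symm j)
  have hw : ∀ j, Hol (p + a) (w j) x := fun j => by
    obtain ⟨j, rfl⟩ := σ.surjective j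
    simp only [w, σ.symm_apply_apply]
    rcases j with j | j
    · exact hi.1 (.inl j)
    · exact ((h1.an x h2).cmp analyticAt_snd).hol j
  refine ⟨w, fun i => σ (.inl i), hw, (ne_iff hf hw he he').2 ?_,
    σ.injective.comp Sum.inl_injective, fun i => by simp only [w, σ.symm_apply_apply, Sum.elim_inl]⟩
  let L : Cm (p + a) → (ι ⊕ Fin p → ℂ) × Cm (a - Fintype.card ι) := fun v =>
    (Sum.elim (fun i => v (Fin.natAdd p (σ (.inl i)))) fun c => v (Fin.castAdd a c),
      fun k => v (Fin.natAdd p (σ (.inr k))))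
  have hL : ∀ v, AnV (p + a) L v := fun v =>
    (AnV.pi (Sum.rec (fun _ => hol_crd _ _) fun _ => hol_crd _ _)).prod
      (AnV.pi fun _ => hol_crd _ _)
  have e1 : ∀ y ∈ Θ.source, L (fun i => Fin.append (fun c x => e' (M.f x) c) w i y) = Θ y :=
    fun y hy => Prod.ext (by
      rw [h4 y hy]
      refine funext (Sum.rec (fun i => ?_) fun c => ?_)
      · simp only [L, w, Sum.elim_inl, Fin.append_right, σ.symm_apply_apply]
      · simp only [L, Sum.elim_inr, Fin.append_left])
      (funext fun k => by simp only [L, w, Sum.elim_inr, Fin.append_right, σ.symm_apply_apply])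
  refine Imm.of_comp (g := fun v => Θ.symm (L v)) (h1.holA (hL _) (e1 x h2 ▸ Θ.map_source h2))
    (holA_cm (hol_app hf hw he')) ((imm_id x).cng ?_)
  filter_upwards [Θ.open_source.mem_nhds h2] with y hy
  rw [e1 y hy, Θ.left_inv hy]

theorem sbm (hf : HolA (p + a) p M.f x) (h : ∀ i, Hol (p + a) (w i) x) (he : At e x)
    (he' : At e' (M.f x)) (h0 : jdw w e e' x ≠ 0) : Sbm (p + a) p M.f x := by
  have k := ((sbm_iff_ind (holA_cm (hol_app hf h he')) (at_refl _)).1
    (imm_iff_sbm.1 ((ne_iff hf h he he').1 h0))).comp (Fin.castAdd a) (Fin.castAdd_injective p a)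
  refine (sbm_iff_ind hf he').2 (ind_congr k fun c => .of_forall fun y => ?_)
  exact congrFun (Fin.append_left (fun c x => e' (M.f x) c) w c) y

end Detx

open Detx in
/-- **DETX** -/
theorem detx : DETX := fun p a D hD => by
  have hi : ∀ (ι : Type) [Fintype ι] (ζ : ι → D.X.X → ℂ) x (e' : Chart p D.Y.X), At e' (D.f x) →
      Ind (p + a) (Sum.elim ζ fun (i : Fin p) z => e' (D.f z) i) x →
      ∃ (w : Fin a → D.X.X → ℂ) (τ : ι → Fin a), D.Fc w x ∧ Injective τ ∧ ∀ i, w (τ i) = ζ i := by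
    intro ι _ ζ x e' he' h
    obtain ⟨w, τ, h1, h2, h3⟩ := ind (M := D.toFb) (hD.hol.at x) h (at_chart x) he'
    exact ⟨w, τ, ⟨h1, fun _ _ k k' => ne_of_ne (hD.hol.at x) h1 (at_chart x) k he' k' h2⟩, h3⟩
  refine ⟨fun x hs => ?_, fun w x h => sbm (hD.hol.at x) h.1 (at_chart x) (at_chart _)
    (h.2 _ _ (at_chart x) (at_chart _)), fun w x e e' h he he' h0 => ?_,
    fun w x e e' => hol (hD.hol.at x), fun w x e e₁ e' e₁' => chg (hD.hol.at x), hi⟩
  · have k := ((sbm_iff_ind (hD.hol.at x) (at_chart _)).1 hs).comp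
      (Equiv.emptySum Empty (Fin p)) (Equiv.injective _)
    obtain ⟨w, -, h, -⟩ := hi Empty (fun i => i.elim) x _ (at_chart _)
      (ind_congr k (Sum.rec (fun i => i.elim) fun _ => .of_forall fun _ => rfl))
    have h' : ∃ w, D.Fc w x := ⟨w, h⟩
    rw [Su.wc, dif_pos h']
    exact h'.choose_spec
  · filter_upwards [eventually_all.2 fun i => (h i).near, at_near he,
      hD.hol.cont.continuousAt.eventually (at_near he'),
      (hol (M := D.toFb) (hD.hol.at x) h he he').cont.eventually_ne h0] with y k1 k2 k3 k4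
    exact ⟨k1, fun _ _ l l' => ne_of_ne (hD.hol.at y) k1 k2 l k3 l' k4⟩

end Vale.Agent.P281Z.U1
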