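import Vale.Agent.P281Z.U1.Defs

/-!
# P281Z, block U1: the branch which is given by leaf coordinates
-/

open scoped Manifold ContDiff Topology
open Set Filter Metric
open Vale.Agent.P272.K
open Vale.Agent.P277Z (Hol jd at_chart)
open Vale.Agent.P281Z.Gt

noncomputable section

namespace Vale.Agent.P281Z.U1

open Su

namespace Brl

variable {p a m n : ℕ}

/-- concatenation -/
def ap (p m : ℕ) : (Cm p × Cm m) ≃L[ℂ] Cm (p + m) :=
  LinearEquiv.toContinuousLinearEquiv
    { Fin.appendEquiv p m with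
      map_add' := fun v w => funext fun i => by cases i using Fin.addCases <;> simp
      map_smul' := fun c v => funext fun i => by cases i using Fin.addCases <;> simp }

theorem ap_apply (v : Cm p × Cm m) : ap p m v = Fin.append v.1 v.2 := rfl

theorem ap_symm (t : Cm (p + m)) :
    (ap p m).symm t = (fun i => t (Fin.castAdd m i), fun i => t (Fin.natAdd p i)) := rfl

/-- `G` acts on the first coordinates -/
def fs (m : ℕ) (G : Cm p → Cm p) (t : Cm (p + m)) : Cm (p + m) :=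
  ap p m (G ((ap p m).symm t).1, ((ap p m).symm t).2)

theorem fs_der {G : Cm p → Cm p} {t : Cm (p + m)} (h : DifferentiableAt ℂ G ((ap p m).symm t).1) :
    DifferentiableAt ℂ (fs m G) t ∧
      (fderiv ℂ (fs m G) t).det = (fderiv ℂ G ((ap p m).symm t).1).det := by
  have k := (ap p m).hasFDerivAt.comp t ((h.hasFDerivAt.prodMap ((ap p m).symm t)
    (hasFDerivAt_id _)).comp t (ap p m).symm.hasFDerivAt)
  refine ⟨k.differentiableAt, (congrArg ContinuousLinearMap.det k.fderiv).trans ?_⟩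
  refine (LinearMap.det_conj (LinearMap.prodMap (fderiv ℂ G ((ap p m).symm t).1).toLinearMap
    LinearMap.id) (ap p m).toLinearEquiv).trans ?_
  rw [LinearMap.det_prodMap, LinearMap.det_id, mul_one]

theorem det_cmp {φ θ : Cm n → Cm n} {w : Cm n} (h : DifferentiableAt ℂ φ (θ w))
    (h' : DifferentiableAt ℂ θ w) : (fderiv ℂ (fun w => φ (θ w)) w).det =
      (fderiv ℂ φ (θ w)).det * (fderiv ℂ θ w).det := by
  rw [show fderiv ℂ (fun w => φ (θ w)) w = _ from (h.hasFDerivAt.comp w h'.hasFDerivAt).fderiv]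
  exact LinearMap.det_comp (fderiv ℂ φ (θ w) : Cm n →ₗ[ℂ] Cm n) (fderiv ℂ θ w : Cm n →ₗ[ℂ] Cm n)

theorem det_ne {L : Cm n →L[ℂ] Cm n} (h : Function.Surjective L) : L.det ≠ 0 :=
  (LinearEquiv.isUnit_det' (LinearEquiv.ofBijective L.toLinearMap
    ⟨LinearMap.injective_iff_surjective.2 h, h⟩)).ne_zero

theorem anV_self {E : Type} [NormedAddCommGroup E] [NormedSpace ℂ E] {F : Cm n → E} {t : Cm n}
    (h : AnalyticAt ℂ F t) : AnV n F t := fun e he => by
  rw [chartedSpaceSelf_atlas.1 he.1]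
  exact h

/-- the coordinates of the point number `j` -/
def cj (p a : ℕ) (j : Fin n) : Cm (p + n * a) →L[ℂ] Cm p × Cm a :=
  (ContinuousLinearMap.pi fun c => .proj (Fin.castAdd _ c)).prod
    (ContinuousLinearMap.pi fun i => .proj (Fin.natAdd p (finProdFinEquiv (j, i))))

/-- the diagonal -/
def δ (n : ℕ) (v : Cm p × Cm a) : Cm (p + n * a) :=
  Fin.append v.1 fun k => v.2 (finProdFinEquiv.symm k).2

theorem cj_apply (j : Fin n) (t : Cm (p + n * a)) : cj p a j t =
    (fun c => t (Fin.castAdd _ c), fun i => t (Fin.natAdd p (finProdFinEquiv (j, i)))) := rfl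

theorem cj_δ (j : Fin n) (v : Cm p × Cm a) : cj p a j (δ n v) = v := by
  simp only [cj_apply, δ, Fin.append_left, Fin.append_right, Equiv.symm_apply_apply]

theorem cj_rec (t : Cm (p + n * a)) :
    (fun k => (cj p a (finProdFinEquiv.symm k).1 t).2 (finProdFinEquiv.symm k).2) =
      fun k => t (Fin.natAdd p k) :=
  funext fun k => congrArg (fun k => t (Fin.natAdd p k)) (finProdFinEquiv.apply_symm_apply k)

variable {D : Su p a} {Θ : OpenPartialHomeomorph D.X.X (Cm p × Cm a)} {g : Cm p → D.Y.X}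
  {c : Cm p × Cm a} {r : ℝ} {s : ℕ} {t : Cm (p + (s + 1) * a)}

variable (Θ g) in
/-- the branch -/
def β (s : ℕ) (t : Cm (p + (s + 1) * a)) : Pt D.toFb (s + 1) :=
  (g (cj p a 0 t).1, fun j => Θ.symm (cj p a j t))

variable (Θ) in
/-- its inverse -/
def M (q : Pt D.toFb (s + 1)) : Cm (p + (s + 1) * a) := Fin.append (Θ (q.2 0)).1
  fun k => (Θ (q.2 (finProdFinEquiv.symm k).1)).2 (finProdFinEquiv.symm k).2

variable (c r) in
/-- its domain -/
def U (s : ℕ) : Set (Cm (p + (s + 1) * a)) := {t | ∀ j, cj p a j t ∈ ball c r}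

theorem U_open : IsOpen (U c r s) := by
  simp only [U, ofPred_forall]
  exact isOpen_iInter_of_finite fun j => isOpen_ball.preimage (cj p a j).continuous

variable (Θ g c r) in
/-- a box in the coordinates `Θ` -/
structure Bx : Prop where
  co : Co (p + a) Θ
  pos : 0 < r
  tgt : ∀ v ∈ ball c r, v ∈ Θ.target
  hol : ∀ v ∈ ball c r, HolA p p g v.1
  eq : ∀ v ∈ ball c r, D.f (Θ.symm v) = g v.1

theorem Bx.tm (h : Bx Θ g c r) (ht : t ∈ U c r s) : Tm (p + (s + 1) * a) (β Θ g s) t :=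
  ⟨HolA.cmp (f := fun t => (cj p a 0 t).1) (h.hol _ (ht 0))
      (contMDiffAt_iff_contDiffAt.2 (cj p a 0).contDiff.contDiffAt.fst),
    fun j => h.co.holA (anV_self ((cj p a j).analyticAt t)) (h.tgt _ (ht j)),
    mem_of_superset (U_open.mem_nhds ht) fun _ hu j => h.eq _ (hu j)⟩

theorem Bx.inv (h : Bx Θ g c r) (ht : t ∈ U c r s) (j : Fin (s + 1)) :
    Θ ((β Θ g s t).2 j) = cj p a j t := Θ.right_inv (h.tgt _ (ht j))

theorem Bx.left (h : Bx Θ g c r) (ht : t ∈ U c r s) : M Θ (β Θ g s t) = t := by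
  simp only [M, h.inv ht, cj_rec]
  exact Fin.append_castAdd_natAdd

theorem Bx.jn (h : Bx Θ g c r) (ht : t ∈ U c r s) {e' : Chart p D.Y.X}
    (hG : DifferentiableAt ℂ (fun z => e' (g z)) (cj p a 0 t).1) :
    jnw e' (fun _ i x => (Θ x).2 i) (β Θ g s) (.refl _) t =
      (fderiv ℂ (fun z => e' (g z)) (cj p a 0 t).1).det := by
  refine Eq.trans (congrArg ContinuousLinearMap.det (EventuallyEq.fderiv_eq ?_))
    (fs_der (m := (s + 1) * a) (t := t) hG).2
  filter_upwards [U_open.mem_nhds ht] with z hz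
  change cow e' _ (β Θ g s z) = _
  simp only [cow, h.inv hz, cj_rec]
  rfl

variable {K : ℕ} (P : D.Pw0 (s + 1) K)

theorem Bx.slice (h : Bx Θ g c r) {u : Cm p} {y : Fin (s + 1) → Cm a}
    (hy : ∀ j, (u, y j) ∈ ball c r) (hq : g u ∉ D.Q) :
    (g u, fun j => Θ.symm (u, y j)) ∈ range P.γ := by
  have e : ∀ z ∈ ball (fun _ : Fin (s + 1) => c.2) r, ∀ j, (u, z j) ∈ ball c r := fun z hz j =>
    max_lt ((le_max_left _ _).trans_lt (hy 0)) ((dist_pi_lt_iff h.pos).1 hz j)
  have k := h.eq _ (e _ (mem_ball_self h.pos) 0)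
  refine P.prop (Fin (s + 1) → Cm a) (fun z => (g u, fun j => Θ.symm (u, z j)))
    (ball (fun _ => c.2) r) (convex_ball _ r).isPreconnected
    (fun z hz => ContinuousAt.continuousWithinAt ?_)
    (fun z hz => ⟨fun j => h.eq _ (e z hz j), hq⟩) ⟨_, mem_ball_self h.pos, ?_⟩
    y ((dist_pi_lt_iff h.pos).2 fun j => (le_max_right _ _).trans_lt (hy j))
  · exact continuousAt_const.prodMk (continuousAt_pi.2 fun j => ContinuousAt.comp
      (f := fun z : Fin (s + 1) → Cm a => (u, z j))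
      (Θ.continuousAt_symm (h.tgt _ (e z hz j)))
      (continuousAt_const.prodMk (continuous_apply j).continuousAt))
  · simpa only [dg, k] using P.diag (Θ.symm (u, c.2)) (by rwa [k])

theorem Bx.rng (h : Bx Θ g c r) (ht : t ∈ U c r s) (hq : (β Θ g s t).1 ∉ D.Q) :
    β Θ g s t ∈ range P.γ :=
  h.slice P (u := (cj p a 0 t).1) (y := fun j => (cj p a j t).2) ht hq

theorem Bx.holM (h : Bx Θ g c r) {v : P.V.X} (hv : ∀ j, (P.γ v).2 j ∈ Θ.source)
    (i : Fin (p + (s + 1) * a)) : Hol K (fun v => M Θ (P.γ v) i) v := by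
  cases i using Fin.addCases <;> simp only [M, Fin.append_left, Fin.append_right]
  exacts [((P.tm v).x 0).hol (((h.co.an _ (hv 0)).cmp analyticAt_fst).hol _),
    ((P.tm v).x _).hol (((h.co.an _ (hv _)).cmp analyticAt_snd).hol _)]

theorem jd_eq (hΘ : Co (p + a) Θ) {x : D.X.X} (hx : x ∈ Θ.source)
    (hf : ∀ᶠ y in 𝓝 x, D.f y = g (Θ y).1) {e : Chart (p + a) D.X.X} {e' : Chart p D.Y.X}
    (he : At e x) (hG : DifferentiableAt ℂ (fun z => e' (g z)) (Θ x).1) :
    jdw (M := D.toFb) (fun i x => (Θ x).2 i) e e' x = (fderiv ℂ (fun z => e' (g z)) (Θ x).1).det *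
      (fderiv ℂ (fun z => ap p a (Θ (e.symm z))) (e x)).det := by
  have e1 : ((ap p a).symm (ap p a (Θ (e.symm (e x))))).1 = (Θ x).1 := by
    rw [he.left_inv, ContinuousLinearEquiv.symm_apply_apply]
  have k := fs_der (m := a) (G := fun z => e' (g z)) (by rwa [e1])
  rw [← e1, ← k.2, ← det_cmp (θ := fun z => ap p a (Θ (e.symm z))) k.1
    ((hΘ.an x hx).cmp ((ap p a).analyticAt _) e he).differentiableAt]
  refine congrArg ContinuousLinearMap.det (EventuallyEq.fderiv_eq ?_)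
  filter_upwards [at_ev he hf] with z hz
  funext i
  simp only [fs, ContinuousLinearEquiv.symm_apply_apply]
  rw [ap_apply, ← hz]
  cases i using Fin.addCases <;> simp only [Fin.append_left, Fin.append_right]

theorem jd_ne (hΘ : Co (p + a) Θ) {x : D.X.X} (hx : x ∈ Θ.source) {e : Chart (p + a) D.X.X}
    (he : At e x) : (fderiv ℂ (fun z => ap p a (Θ (e.symm z))) (e x)).det ≠ 0 := by
  refine det_ne (imm_iff_sbm.1 (Imm.of_comp (f := fun y => ap p a (Θ y))
    (g := fun t => Θ.symm ((ap p a).symm t))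
    (hΘ.holA (anV_self ((ap p a).symm.analyticAt _)) (by simpa using Θ.map_source hx))
    (holA_symm (e' := .refl _) ((hΘ.an x hx).cmp ((ap p a).analyticAt _)).hol
      (chart_mem_atlas _ 0) trivial) ((imm_id x).cng ?_)) e (.refl _) he (at_chart _))
  filter_upwards [Θ.eventually_left_inverse hx] with y hy
  rw [ContinuousLinearEquiv.symm_apply_apply, hy]

end Brl

open Brl

theorem brl_of (hW : HW) : BRL := by
  intro p a s D P x₀ hD ⟨Θ, g, hΘ, h0, hg, hf⟩
  obtain ⟨-, -, -, -, hN, hS⟩ := hW p a D hD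
  have := P.conn
  obtain ⟨r, hr, hb⟩ := Metric.eventually_nhds_iff_ball.1 (((Θ.tendsto_symm h0).eventually hf).and
    ((Θ.open_target.eventually_mem (Θ.map_source h0)).and
      (continuous_fst.continuousAt.eventually hg.near)))
  have h : Bx Θ g (Θ x₀) r := ⟨hΘ, hr, fun v hv => (hb v hv).2.1, fun v hv => (hb v hv).2.2,
    fun v hv => by rw [(hb v hv).1, Θ.right_inv (hb v hv).2.1]⟩
  have U0 : U (Θ x₀) r s ∈ 𝓝 (δ (s + 1) (Θ x₀)) := U_open.mem_nhds fun j => by
    rw [cj_δ]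
    exact mem_ball_self hr
  have hl : ∀ t ∈ U (Θ x₀) r s, (β Θ g s t).1 ∉ D.Q →
      P.γ (Function.invFun P.γ (β Θ g s t)) = β Θ g s t :=
    fun t ht hq => Function.invFun_eq (h.rng P ht hq)
  have cτ : ContinuousAt (fun x => δ (s + 1) (Θ x)) x₀ := continuousAt_pi.2 fun i => by
    have := Θ.continuousAt h0
    cases i using Fin.addCases <;> simp only [δ, Fin.append_left, Fin.append_right] <;> fun_prop
  have hτ : ∀ᶠ x in 𝓝 x₀, β Θ g s (δ (s + 1) (Θ x)) = dg (s + 1) x := by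
    filter_upwards [hf, Θ.eventually_left_inverse h0] with x k1 k2
    simp only [β, cj_δ, dg, k1, k2]
  refine ⟨β Θ g s, fun t => Function.invFun P.γ (β Θ g s t), fun x => δ (s + 1) (Θ x),
    fun i x => (Θ x).2 i, ⟨h.tm (mem_of_mem_nhds U0), cτ.tendsto.frequently
      (((hN.freq x₀).and_eventually hτ).mono fun x k => ?_), ⟨_, U0, fun t ht t' ht' e => ?_⟩,
    mem_of_superset U0 fun t ht hq => ?_⟩, cτ, ((hΘ.an _ h0).cmp analyticAt_snd).hol, hτ,
    fun e e' he he' => ?_⟩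
  · rw [k.2]
    exact ⟨(not_not.1 k.1).1, fun _ => (not_not.1 k.1).2⟩
  · rw [← h.left ht.1, ← h.left ht'.1, ← hl t ht.1 ht.2, ← hl t' ht'.1 ht'.2]
    exact congrArg (fun v => M Θ (P.γ v)) e
  · have n1 : ∀ᶠ u in 𝓝 t, u ∈ U (Θ x₀) r s ∧ (β Θ g s u).1 ∉ D.Q := (U_open.eventually_mem ht).and
      ((h.tm ht).b.cont.eventually (hD.thin.closed.isOpen_compl.mem_nhds hq))
    obtain ⟨l', k1, k2⟩ := P.lift _ _ _ t (h.tm ht) hq (h.rng P ht hq)
    have k3 : HolA _ _ (fun t => Function.invFun P.γ (β Θ g s t)) t := k1.cng (by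
      filter_upwards [n1, k2] with u c1 c2
      exact P.inj _ _ (c2.trans (hl u c1.1 c1.2).symm) (by rw [hl u c1.1 c1.2]; exact c1.2))
    refine ⟨hl t ht hq, k3, Imm.of_comp (g := fun v => M Θ (P.γ v))
      (holA_symm (e' := .refl _) (h.holM P fun j => ?_) (chart_mem_atlas _ t) trivial) k3
      ((imm_id t).cng (n1.mono fun u c => by rw [hl u c.1 c.2, h.left c.1]))⟩
    rw [hl t ht hq]
    exact Θ.map_target (h.tgt _ (ht j))
  · have cA : ContinuousAt (fun x => ‖(fderiv ℂ (fun z => ap p a (Θ (e.symm z))) (e x)).det‖) x₀ :=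
      ((ContinuousLinearMap.continuous_det.continuousAt.comp ((hΘ.an _ h0).cmp
        ((ap p a).analyticAt _) e he).fderiv.continuousAt).comp (e.continuousAt he.2)).norm
    refine ⟨‖(fderiv ℂ (fun z => ap p a (Θ (e.symm z))) (e x₀)).det‖ + 1, ?_⟩
    filter_upwards [cA.eventually (gt_mem_nhds (lt_add_one _)), hf.eventually_nhds, at_near he,
      hD.hol.cont.continuousAt.eventually (at_near he'), Θ.open_source.eventually_mem h0,
      cτ.eventually U0] with x c1 c2 c3 c4 c5 c6 hq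
    have c7 : Θ x ∈ ball (Θ x₀) r := by simpa only [cj_δ] using c6 0
    have r0 : At (OpenPartialHomeomorph.refl (Cm p)) (Θ x).1 := at_chart _
    rw [c2.self_of_nhds] at c4
    have dG : DifferentiableAt ℂ (fun z => e' (g z)) (Θ x).1 :=
      ((h.hol _ c7).an r0 c4).differentiableAt
    rw [jd_eq hΘ c5 c2 c3 dG, h.jn c6 (by rwa [cj_δ]), cj_δ, norm_mul, mul_comm ‖_‖]
    exact ⟨mul_ne_zero (det_ne (Sbm.of_comp (f := fun y => (Θ y).1) (h.hol _ c7)
      (holA_symm (e' := .refl _) ((hΘ.an x c5).cmp analyticAt_fst).hol r0.1 trivial)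
      ((hS x hq).cng c2) _ e' r0 c4)) (jd_ne hΘ c5 c3),
      mul_le_mul_of_nonneg_right c1.le (norm_nonneg _)⟩

end Vale.Agent.P281Z.U1
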