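import Vale.Agent.P281Z.U1.Defs
import Vale.Agent.P277Z.Oka.All

/-!
# P281Z, block U1: the critical locus is over the hyperplane section
-/

open scoped Manifold ContDiff Topology
open Set Filter
open Vale.Agent.P272.K Vale.Agent.P285.H281.FD
open Vale.Agent.P277Z (Hol jd)
open Vale.Agent.P281Z.Gt

noncomputable section

namespace Vale.Agent.P281Z.U1

namespace Nul

variable {p a : ℕ}

theorem lin (A : Cm (p + a) →L[ℂ] Cm p) (hA : Function.Surjective A) :
    ∃ I : Fin a → Fin (p + a), ∀ v, A v = 0 → (∀ i, v (I i) = 0) → v = 0 := by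
  set K := LinearMap.ker (A : Cm (p + a) →ₗ[ℂ] Cm p) with hKd
  have hK : Module.finrank ℂ K = a := by
    have h := LinearMap.finrank_range_add_finrank_ker (A : Cm (p + a) →ₗ[ℂ] Cm p)
    rw [LinearMap.range_eq_top.2 hA, finrank_top, Module.finrank_fin_fun, Module.finrank_fin_fun,
      ← hKd] at h
    omega
  let φ : Fin (p + a) → Module.Dual ℂ K := fun j => (LinearMap.proj j).comp K.subtype
  obtain ⟨κ, b, hb, hs, hl⟩ := exists_linearIndependent' ℂ φ
  have : Finite κ := Finite.of_injective b hb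
  have := Fintype.ofFinite κ
  have hc : Fintype.card κ ≤ Fintype.card (Fin a) := by
    have h := hl.fintype_card_le_finrank
    rwa [Subspace.dual_finrank_eq, hK, ← Fintype.card_fin a] at h
  obtain ⟨g⟩ := Function.Embedding.nonempty_of_card_le hc
  refine ⟨Function.extend g b (Fin.natAdd p), fun v h1 h2 => ?_⟩
  have h3 : Submodule.span ℂ (range (φ ∘ b)) ≤ LinearMap.ker (Module.Dual.eval ℂ K ⟨v, h1⟩) := by
    rw [Submodule.span_le]
    rintro _ ⟨k, rfl⟩
    have h := h2 (g k)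
    rw [g.injective.extend_apply] at h
    exact h
  funext j
  exact h3 (hs ▸ Submodule.subset_span (mem_range_self j))

/-- the coordinates of a chart -/
def cw {X : Type} [TopologicalSpace X] (e : Chart (p + a) X) (I : Fin a → Fin (p + a))
    (i : Fin a) (y : X) : ℂ := e y (I i)

theorem ne {M : Fb (p + a) p} {x : M.X.X} {e : Chart (p + a) M.X.X} {e' : Chart p M.Y.X}
    (hf : HolA (p + a) p M.f x) (hs : Sbm (p + a) p M.f x) (he : At e x) (he' : At e' (M.f x)) :
    ∃ I, jdw (cw e I) e e' x ≠ 0 := by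
  obtain ⟨I, hI⟩ := lin _ (hs e e' he he')
  refine ⟨I, fun h => ?_⟩
  set g : Fin (p + a) → M.X.X → ℂ := Fin.append (fun c x => e' (M.f x) c) (cw e I) with hg
  have hd : ∀ i, DifferentiableAt ℂ (fun z => g i (e.symm z)) (e x) := fun i => by
    refine Fin.addCases (fun c => ?_) (fun c => ?_) i
    · rw [hg, Fin.append_left]
      exact (hf.hol (hol_chart he' c) e he).differentiableAt
    · rw [hg, Fin.append_right]
      exact (hol_chart he (I c) e he).differentiableAt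
  obtain ⟨v, hv, h0⟩ := Submodule.exists_mem_ne_zero_of_ne_bot
    (LinearMap.det_eq_zero_iff_ker_ne_bot.1 h)
  have hv' : ∀ i, fderiv ℂ (fun z => g i (e.symm z)) (e x) v = 0 := fun i => by
    have h1 : fderiv ℂ (fun z i => g i (e.symm z)) (e x) v = 0 := hv
    rw [fderiv_pi hd] at h1
    exact congrFun h1 i
  refine h0 (hI v (funext fun c => ?_) fun c => ?_)
  · have h1 := hv' (Fin.castAdd a c)
    rw [hg, Fin.append_left] at h1
    rw [df_apply hf he he']
    exact h1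
  · have h1 := hv' (Fin.natAdd p c)
    rw [hg, Fin.append_right] at h1
    have h2 : (fun z => cw e I c (e.symm z)) =ᶠ[𝓝 (e x)] fun z => z (I c) := by
      filter_upwards [e.open_target.mem_nhds (e.map_source he.2)] with z hz
      rw [cw, e.right_inv hz]
    rw [h2.fderiv_eq] at h1
    have h3 : fderiv ℂ (fun z : Cm (p + a) => z (I c)) (e x) =
        ContinuousLinearMap.proj (R := ℂ) (φ := fun _ => ℂ) (I c) :=
      (ContinuousLinearMap.proj (R := ℂ) (φ := fun _ => ℂ) (I c)).fderiv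
    rw [h3] at h1
    exact h1

theorem bd {X : Type} [TopologicalSpace X] {x : X} {u : X → ℂ} (h : ContinuousAt u x) :
    ∀ᶠ y in 𝓝 x, ‖u y‖ ≤ ‖u x‖ + 1 :=
  (h.norm.eventually (gt_mem_nhds (lt_add_one _))).mono fun _ => le_of_lt

theorem loc (hX : DETX) (hW : HW) {D : Su p a} (hD : D.Ok) (x₁ : D.X.X) :
    ∃ (N : ℕ) (C : ℝ), ∀ᶠ x in 𝓝 x₁, ∃ I, D.tz (D.f x) ^ N ≤
      C * ‖jdw (M := D.toFb) (cw (chartAt (Cm (p + a)) x₁) I) (chartAt _ x₁)
        (chartAt _ (D.f x₁)) x‖ := by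
  set e := chartAt (Cm (p + a)) x₁
  set e' := chartAt (Cm p) (D.f x₁)
  have he : At e x₁ := ⟨chart_mem_atlas _ _, mem_chart_source _ _⟩
  have he' : At e' (D.f x₁) := ⟨chart_mem_atlas _ _, mem_chart_source _ _⟩
  obtain ⟨-, -, h0, hc, -, hs⟩ := hW p a D hD
  obtain ⟨b, hb⟩ := hD.lb.cover (D.f x₁)
  have hf := hD.hol.cont.continuousAt (x := x₁)
  have ht : Hol (p + a) (fun x => D.α b (D.f x) 0) x₁ :=
    hD.hol.hol (a := fun z => D.α b z 0) fun c hc => ((hD.sec 0).holo b c _ hc hb).analyticAt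
  have hj : ∀ I, Hol (p + a) (jdw (M := D.toFb) (cw e I) e e') x₁ := fun I =>
    (hX p a D hD).hol _ _ _ _ (fun i => hol_chart he (I i)) he he'
  have hv : ∀ᶠ x in 𝓝 x₁, (∀ I, jdw (M := D.toFb) (cw e I) e e' x = 0) → D.α b (D.f x) 0 = 0 := by
    filter_upwards [at_near he, hf.eventually (at_near he'),
      hf.eventually ((hD.lb.isOpen b).mem_nhds hb)] with x h1 h2 h3 h4
    by_contra h5
    obtain ⟨I, hI⟩ := ne (M := D.toFb) (hD.hol.at x) (hs x fun h => h5 ((hc b _ h3).2.2 h)) h1 h2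
    exact hI (h4 I)
  obtain ⟨N, c, hca, hN⟩ := P277Z.Oka.nul_all (Cm (p + a)) (Fin a → Fin (p + a)) (e x₁) _
    (fun I => hj I e he) _ (ht e he) (at_ev he hv)
  obtain ⟨C, hC, hT⟩ := (hc b _ hb).1
  have hce := e.continuousAt he.2
  refine ⟨N, C ^ N * ∑ I, (‖c I (e x₁)‖ + 1), ?_⟩
  filter_upwards [hce.eventually hN, hf.eventually hT, e.open_source.mem_nhds he.2,
    eventually_all.2 fun I => hce.eventually (bd (hca I).continuousAt)] with x h1 h2 h3 h4
  simp only [e.left_inv h3] at h1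
  have : Nonempty (Fin a → Fin (p + a)) := ⟨Fin.natAdd p⟩
  obtain ⟨I, -, hI⟩ := Finset.exists_max_image Finset.univ
    (fun I => ‖jdw (M := D.toFb) (cw e I) e e' x‖) Finset.univ_nonempty
  refine ⟨I, (pow_le_pow_left₀ (h0 _).1 h2.1 N).trans ?_⟩
  rw [mul_pow, mul_assoc, ← norm_pow, h1, Finset.sum_mul]
  refine mul_le_mul_of_nonneg_left ((norm_sum_le _ _).trans (Finset.sum_le_sum fun J hJ => ?_))
    (by positivity)
  rw [norm_mul]
  exact mul_le_mul (h4 J) (hI J hJ) (norm_nonneg _) (by positivity)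

theorem chg {D : Su p a} (hX : DetX D) {w : Fin a → D.X.X → ℂ} {x : D.X.X}
    {e e₁ : Chart (p + a) D.X.X} {e' e₁' : Chart p D.Y.X} (hw : ∀ i, Hol (p + a) (w i) x)
    (he : At e x) (he₁ : At e₁ x) (he' : At e' (D.f x)) (he₁' : At e₁' (D.f x)) :
    jdw (M := D.toFb) w e e' x =
      (jacM e e₁ x).det * (jacM e₁' e' (D.f x)).det * jdw (M := D.toFb) w e₁ e₁' x := by
  have h1 := hX.chg w x e e₁ e' e' hw he he₁ he' he'
  have h2 := hX.chg w x e₁ e₁ e₁' e' hw he₁ he₁ he₁' he'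
  rw [← dfM_id he' he', dfM_id_self he', Matrix.det_one, mul_one] at h1
  rw [← dfM_id he₁ he₁, dfM_id_self he₁, Matrix.det_one, one_mul] at h2
  rw [h1, ← h2]
  ring

theorem jc {n : ℕ} {V : Mf n} {x : V.X} {e e₁ : Chart n V.X} (he : At e x) (he₁ : At e₁ x) :
    ∃ C : ℝ, 0 ≤ C ∧ ∀ᶠ y in 𝓝 x, ‖(jacM e e₁ y).det‖ ≤ C := by
  have h := (hol_det fun i j => hol_dfM (holM_id.at x) he he₁ i j).cont
  refine ⟨‖(dfM (fun x : V.X => x) e e₁ x).det‖ + 1, by positivity, ?_⟩
  filter_upwards [bd h, at_near he, at_near he₁] with y h1 h2 h3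
  rwa [dfM_id h2 h3] at h1

end Nul

open Nul in
theorem nul_of (hX : DETX) (hW : HW) : NUL := fun p a D hD => by
  choose N C h using loc hX hW hD
  have h0 := (hW p a D hD).2.2.1
  have hf := fun x => hD.hol.cont.continuousAt (x := x)
  have hU := fun x₁ : D.X.X => (h x₁).eventually_nhds.and ((at_near (e := chartAt (Cm (p + a)) x₁)
    ⟨chart_mem_atlas _ _, mem_chart_source _ _⟩).and ((hf x₁).eventually (at_near
      (e := chartAt (Cm p) (D.f x₁)) ⟨chart_mem_atlas _ _, mem_chart_source _ _⟩)))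
  obtain ⟨s, -, hs⟩ := isCompact_univ.elim_nhds_subcover _ fun x _ => hU x
  refine ⟨s.sup N, fun x₀ => ?_⟩
  obtain ⟨x₁, hx₁, h1, h2, h3⟩ := mem_iUnion₂.1 (hs (mem_univ x₀))
  refine ⟨_, fun i => cw (chartAt (Cm (p + a)) x₁)
    ((Fintype.equivFin (Fin a → Fin (p + a))).symm i),
    fun i j => hol_chart h2 _, fun e e' he he' => ?_⟩
  obtain ⟨A, hA, h4⟩ := jc h2 he
  obtain ⟨B, hB, h5⟩ := jc he' h3
  refine ⟨|C x₁| * (A * B), ?_⟩
  filter_upwards [h1, h4, (hf x₀).eventually h5, at_near h2, at_near he,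
    (hf x₀).eventually (at_near h3), (hf x₀).eventually (at_near he')] with x ⟨I, k1⟩ k4 k5 k2 k k3 k'
  refine ⟨Fintype.equivFin _ I, ?_⟩
  rw [Equiv.symm_apply_apply]
  refine (pow_le_pow_of_le_one (h0 _).1 (h0 _).2.1 (Finset.le_sup hx₁)).trans (k1.trans ?_)
  rw [chg (hX p a D hD) (w := cw _ I) (fun i => hol_chart k2 (I i)) k2 k k3 k', norm_mul, norm_mul,
    mul_assoc |C x₁|]
  exact mul_le_mul (le_abs_self _) (mul_le_mul_of_nonneg_right
    (mul_le_mul k4 k5 (norm_nonneg _) hA) (norm_nonneg _)) (by positivity) (abs_nonneg _)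

end Vale.Agent.P281Z.U1
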