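import Vale.Agent.P281Z.U1.Defs
import Vale.Agent.P281Z.Bs.Push

/-!
# P281Z, block U1: change of variables and integrability
-/

open scoped Manifold ContDiff Topology ENNReal
open Set Filter MeasureTheory Metric
open Vale.Agent.P272.K Vale.Agent.P285.H281.FD
open Vale.Agent.P277Z (Hol at_chart)
open Vale.Agent.P281Z.Gt
open Vale.Agent.P281Z.Bs.Push (det_rs thin_ae)

noncomputable section

namespace Vale.Agent.P281Z.U1

/-- **CV** -/
theorem cv : CV := by
  intro K V A F u l U t₀ hF h1 h2 hU h3 h4 h5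
  choose! W hW hI using fun v hv => h1 v hv _ (at_chart v)
  let O : V.X → Set V.X := fun v =>
    (chartAt (Cm K) v).source ∩ chartAt (Cm K) v ⁻¹' interior (W v)
  have hO : ∀ v, IsOpen (O v) := fun v => (chartAt (Cm K) v).isOpen_inter_preimage isOpen_interior
  obtain ⟨T, hT, hc⟩ := hF.isCompact.elim_nhds_subcover O fun v hv =>
    (hO v).mem_nhds ⟨mem_chart_source _ v, mem_interior_iff_mem_nhds.2 (hW v hv)⟩
  obtain ⟨r, hr, hb⟩ := Metric.eventually_nhds_iff_ball.1
    (h5 _ (isOpen_biUnion fun v _ => hO v) hc)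
  have hl : ContinuousOn l (ball t₀ r ∩ U) := fun t ht => (h3 t ht.2).1.cont.continuousWithinAt
  refine ⟨r, hr, (lintegral_mono_set (t := ⋃ v : T, ball t₀ r ∩ U ∩ l ⁻¹' O v) fun t ht => ?_).trans_lt
    ((lintegral_iUnion_le _ _).trans_lt ?_)⟩
  · obtain ⟨v, hv, k⟩ := mem_iUnion₂.1 (hb t ht.1 ht.2)
    exact mem_iUnion.2 ⟨⟨v, hv⟩, ht, k⟩
  rw [tsum_fintype]
  refine ENNReal.sum_lt_top.2 fun v _ => ?_
  have hS := (hl.isOpen_inter_preimage (isOpen_ball.inter hU) (hO v)).measurableSet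
  have hE : ∀ t ∈ ball t₀ r ∩ U ∩ l ⁻¹' O v, At (chartAt (Cm K) v.1) (l t) := fun t ht =>
    ⟨chart_mem_atlas _ _, ht.2.1⟩
  have h6 := lintegral_image_eq_lintegral_abs_det_fderiv_mul volume hS
    (f := fun t => chartAt (Cm K) v.1 (l t))
    (f' := fun t => (fderiv ℂ (fun t => chartAt (Cm K) v.1 (l t)) t).restrictScalars ℝ)
    (fun t ht => (((h3 t ht.1.2).1.an (at_chart t) (hE t ht)).differentiableAt.hasFDerivAt.restrictScalars
      ℝ).hasFDerivWithinAt)
    (fun t ht t' ht' k => h4 ht.1.2 ht'.1.2 ((chartAt (Cm K) v.1).injOn ht.2.1 ht'.2.1 k))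
    fun z => u (chartAt (Cm K) v.1) ((chartAt (Cm K) v.1).symm z)
  refine lt_of_le_of_lt (((setLIntegral_congr_fun hS fun t ht => ?_).trans h6.symm).trans_le
    (lintegral_mono_set ?_)) (hI v (hT v v.2))
  · have k : (fderiv ℂ (fun t => chartAt (Cm K) v.1 (l t)) t).det =
        (dfM l (.refl _) (chartAt (Cm K) v.1) t).det := (LinearMap.det_toMatrix' _).symm
    beta_reduce
    rw [det_rs, (hE t ht).left_inv, h2 _ (h3 t ht.1.2).2 _ _ (at_chart _) (hE t ht), k,
      dfM_chg' (e := .refl _) (h3 t ht.1.2).1 (at_chart t) (at_chart _) (hE t ht), Matrix.det_mul,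
      enorm_mul, mul_pow]
    ring
  · rintro _ ⟨t, ht, rfl⟩
    exact interior_subset ht.2.2

/-- **LIB** -/
theorem lib : LIB := by
  intro K V A u g v E₀ C hA h0 hC h1 hg h2 e he
  obtain ⟨U, hU, hN⟩ := thin_ae hA he
  have h3 : Hol K (fun y => (jacM e E₀ y).det) v :=
    (hol_det fun a b => hol_dfM (f := fun x => x) (holM_id.at v) he h0 a b).congr (by
      filter_upwards [at_near he, at_near h0] with y k1 k2
      rw [dfM_id k1 k2])
  obtain ⟨M, -, hM⟩ := bdd_near h3.cont.norm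
  refine lint_mono (hg.at he) (C := C * ENNReal.ofReal M ^ 2)
    (ENNReal.mul_ne_top hC (ENNReal.pow_ne_top ENNReal.ofReal_ne_top)) hN ?_
  filter_upwards [hU, at_ev he ((at_near he).and ((at_near h0).and (h2.and hM)))] with z k1 k2 k3
  rw [h1 _ (k3 k1) e E₀ k2.1 k2.2.1, mul_right_comm, ← ofReal_norm]
  exact mul_le_mul' (k2.2.2.1 (k3 k1)) (pow_le_pow_left' (ENNReal.ofReal_le_ofReal k2.2.2.2) 2)

/-- **INTS** -/
theorem ints : INTS := by
  intro K V ι _ ζ θ v hi hθ
  obtain ⟨e, j, h1, h2, -, h3, h4⟩ := exists_chart hi univ_mem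
  refine li_of_co h1 h2 (lint_mono (Sc.int_snc ⟨j, h3⟩ hθ (e v)) (C := 1) ENNReal.one_ne_top
    (N := fun _ => True) (.of_forall fun _ => trivial) ?_)
  filter_upwards [e.open_target.mem_nhds (e.map_source h2)] with z hz _
  simp only [← h4 _ (e.map_target hz), e.right_inv hz, one_mul, Function.Embedding.coeFn_mk, le_refl]

end Vale.Agent.P281Z.U1
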