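import Vale.Agent.P281Z.U1.Defs
import Vale.Agent.P281Z.Gl.Thn

/-!
# P281Z, block U1: the chain rule, and the coordinates of the model
-/

open scoped Manifold ContDiff Topology
open Set Filter Function
open Vale.Agent.P272.K
open Vale.Agent.P277Z (Hol jd at_chart)
open Vale.Agent.P277Z.Slc (Ind)
open Vale.Agent.P281Z.Gt Vale.Agent.P281Z.Gt.Thn

noncomputable section

namespace Vale.Agent.P281Z.U1

open Su

namespace Detp

variable {p a n : ℕ} {D : Su p a} (P : D.Pw0 n (p + n * a)) {v : P.V.X} {e' : Chart p D.Y.X}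
  {w : Fin n → Fin a → D.X.X → ℂ}

theorem hol_cow (he' : At e' (P.γ v).1) (hw : ∀ j i, Hol (p + a) (w j i) ((P.γ v).2 j)) :
    HolA (p + n * a) (p + n * a) (fun s => cow e' w (P.γ s)) v := holA_cm fun i => by
  refine i.addCases (fun c => ?_) fun c => ?_
  · simpa only [cow, Fin.append_left] using (P.tm v).b.hol (hol_chart he' c)
  · simpa only [cow, Fin.append_right] using ((P.tm v).x _).hol (hw _ _)

theorem imm (hf : HolM (p + a) p D.f) (he' : At e' (P.γ v).1) (hQ : (P.γ v).1 ∉ D.Q)
    (hw : ∀ j, D.Fc (w j) ((P.γ v).2 j)) :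
    Sbm (p + n * a) (p + n * a) (fun s => cow e' w (P.γ s)) v := by
  have h : Fp (P.γ v) := (P.tm v).fp.self_of_nhds
  let G : Fin n → D.X.X → Cm (p + a) := fun j x => Fin.append (e' (D.f x)) fun i => w j i x
  have hG : ∀ j, HolA (p + a) (p + a) (G j) ((P.γ v).2 j) := fun j => holA_cm fun i => by
    refine i.addCases (fun c => ?_) fun c => ?_
    · simpa only [G, Fin.append_left] using hf.hol (hol_chart ((h j).symm ▸ he') c)
    · simpa only [G, Fin.append_right] using (hw j).1 c
  have eG : ∀ j, (fun i y => G j y i) = Fin.append (fun c x => e' (D.f x) c) (w j) := fun j =>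
    funext fun i => i.addCases (fun c => by simp only [G, Fin.append_left]) fun c => by
      simp only [G, Fin.append_right]
  choose θ a1 a2 _ _ a3 using fun j => ((jd_ne (hG j) (at_chart _)).1
    (eG j ▸ (hw j).2 _ e' (at_chart _) ((h j).symm ▸ he'))).inv (hG j)
  let A : Cm (p + n * a) → Cm p := fun t c => t (Fin.castAdd _ c)
  let B : Fin n → Cm (p + n * a) → Cm (p + a) := fun j t =>
    Fin.append (A t) fun i => t (Fin.natAdd p (finProdFinEquiv (j, i)))
  have hA : A (cow e' w (P.γ v)) = e' (P.γ v).1 := funext fun c => Fin.append_left _ _ c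
  have hB : ∀ j, B j (cow e' w (P.γ v)) = G j ((P.γ v).2 j) := fun j => by
    simp only [B, G, hA, h j]
    simp only [cow, Fin.append_right, Equiv.symm_apply_apply]
  have b1 : ∀ j, HolA _ (p + a) (B j) (cow e' w (P.γ v)) := fun j => holA_cm fun i => by
    refine i.addCases (fun c => ?_) fun c => ?_
    · simpa only [B, Fin.append_left] using hol_crd _ _
    · simpa only [B, Fin.append_right] using hol_crd _ _
  have b2 : ∀ j, HolA _ (p + a) (fun t => θ j (B j t)) (cow e' w (P.γ v)) := fun j =>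
    HolA.cmp (hB j ▸ a2 j) (b1 j)
  have b3 : A (cow e' w (P.γ v)) ∈ e'.target := hA ▸ he'.mem_target
  have b4 : ∀ᶠ t in 𝓝 (cow e' w (P.γ v)), ∀ j, G j (θ j (B j t)) = B j t :=
    eventually_all.2 fun j => (b1 j).cont.eventually (hB j ▸ a3 j)
  have b5 : ∀ᶠ t in 𝓝 (cow e' w (P.γ v)), ∀ j, At e' (D.f (θ j (B j t))) :=
    eventually_all.2 fun j => (hf.cont.continuousAt.comp (b2 j).cont).eventually
      (at_near (by rw [Function.comp_apply, hB, a1, h j]; exact he'))
  have b6 := holA_symm (F := A) (x := cow e' w (P.γ v)) (fun c => hol_crd _ _) he'.1 b3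
  have e0 : ((e'.symm (A (cow e' w (P.γ v))), fun j => θ j (B j (cow e' w (P.γ v)))) :
      Pt D.toFb n) = P.γ v :=
    Prod.ext (by simp only [hA, he'.left_inv]) (funext fun j => by simp only [hB, a1])
  obtain ⟨l, c2, c3⟩ := P.lift _ _ (fun t => (e'.symm (A t), fun j => θ j (B j t)))
    (cow e' w (P.γ v)) ⟨b6, b2, by
      filter_upwards [b4, b5] with t k1 k2 j
      refine (k2 j).left_inv.symm.trans (congrArg e'.symm (funext fun c => ?_))
      simpa only [G, B, Fin.append_left] using congrFun (k1 j) (Fin.castAdd _ c)⟩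
    (fun k => hQ (congrArg Prod.fst e0 ▸ k)) ⟨v, e0.symm⟩
  have c1 : l (cow e' w (P.γ v)) = v := P.inj _ _ (c3.self_of_nhds.trans e0) hQ
  have d1 := hol_cow P he' fun j => (hw j).1
  have d2 := Sbm.of_comp (g := fun s => cow e' w (P.γ s)) (c1.symm ▸ d1) c2 ((sbm_id _).cng (by
    filter_upwards [c3, b4, (AnV.pi (F := A) fun c => hol_crd _ _).cont.eventually
      (e'.open_target.mem_nhds b3)] with t k1 k2 k3
    refine funext fun i => ?_
    rw [k1]
    refine i.addCases (fun c => ?_) fun c => ?_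
    · simp only [cow, Fin.append_left, e'.right_inv k3, A]
    · simpa only [cow, G, B, Fin.append_right, Prod.mk.eta, Equiv.apply_symm_apply] using
        (congrFun (k2 (finProdFinEquiv.symm c).1) (Fin.natAdd _ (finProdFinEquiv.symm c).2)).symm))
  rwa [c1] at d2

end Detp

open Detp in
/-- **DETP** -/
theorem detp : DETP := fun p a n D P hD => by
  refine ⟨fun β l t E e' w hl hβ hE he' hw => ?_, fun v E e' w hE he' hQ hw => ?_⟩
  · rw [← hβ.self_of_nhds] at he' hw
    have h1 := df_comp (hol_cow P he' hw) hl (at_chart t) hE (at_chart _)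
    have h2 := df_congr (e' := chartAt (Cm (p + n * a)) (cow e' w (P.γ (l t))))
      (hβ.mono fun s k => congrArg (cow e' w) k) (at_chart (n := p + n * a) t)
    rw [dfM, LinearMap.det_toMatrix']
    exact (congrArg (fun L : Cm (p + n * a) →L[ℂ] Cm (p + n * a) => LinearMap.det L.toLinearMap)
      (h2.symm.trans h1)).trans (LinearMap.det_comp _ _)
  · have d1 := hol_cow P he' fun j => (hw j).1
    have d2 := imm P hD.hol he' hQ hw
    exact ⟨(jd_ne d1 hE).2 (imm_iff_sbm.2 d2), (sbm_iff_ind d1 (at_chart _)).1 d2⟩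

/-- the form of the row -/
theorem detp_of (_ : DETX) : DETP := detp

end Vale.Agent.P281Z.U1
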