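import Vale.Agent.P281Z.U1.Defs

/-!
# P281Z, block U1: the restriction to the diagonal
-/

open scoped Manifold ContDiff Topology ENNReal
open Set Filter
open Vale.Agent.P272.K Vale.Agent.P285.H281.FD
open Vale.Agent.P277Z (Hol at_chart)
open Vale.Agent.P277Z.Slc (LEq)
open Vale.Agent.P281Z.Gt
open Vale.Agent.P281Z.Md (Bnd)

noncomputable section

namespace Vale.Agent.P281Z.U1

open Su

namespace DiagH

theorem key {X c d Δ : ℂ} {C B : ℝ} {s m : ℕ} (hd : d ≠ 0)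
    (h : ‖d‖ ≤ C * ‖c * d ^ (s + 1) * Δ‖) (hB : ‖d‖ ≤ B) :
    ‖X / c ^ m‖ ≤ (|C| * B ^ s) ^ m * ‖X * Δ ^ m‖ := by
  have hd' : 0 < ‖d‖ := norm_pos_iff.2 hd
  have h1 : 1 ≤ |C| * B ^ s * ‖Δ‖ * ‖c‖ := by
    refine le_of_mul_le_mul_right (h.trans' (one_mul _).le |>.trans ?_) hd'
    rw [norm_mul, norm_mul, norm_pow, pow_succ]
    have h2 : ‖d‖ ^ s ≤ B ^ s := pow_le_pow_left₀ hd'.le hB s
    calc C * (‖c‖ * (‖d‖ ^ s * ‖d‖) * ‖Δ‖) ≤ |C| * (‖c‖ * (B ^ s * ‖d‖) * ‖Δ‖) := by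
          have := le_abs_self C
          gcongr
      _ = _ := by ring
  have hc : 0 < ‖c‖ := by
    refine (norm_nonneg c).lt_of_ne fun h0 => ?_
    rw [← h0, mul_zero] at h1
    exact absurd h1 (by norm_num)
  have h3 : ‖c‖⁻¹ ≤ |C| * B ^ s * ‖Δ‖ := by
    rw [inv_eq_one_div, div_le_iff₀ hc]
    exact h1
  rw [norm_div, norm_pow, norm_mul, norm_pow, div_eq_mul_inv, ← inv_pow]
  calc ‖X‖ * ‖c‖⁻¹ ^ m ≤ ‖X‖ * (|C| * B ^ s * ‖Δ‖) ^ m := by gcongr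
    _ = _ := by rw [mul_pow]; ring

variable {p a s : ℕ} {D : Su p a} (P : D.Pw0 (s + 1) (p + (s + 1) * a))

/-- the lift of the diagonal -/
def dl (x : D.X.X) : P.V.X :=
  have := P.conn
  Function.invFun P.γ (dg (s + 1) x)

variable {P}

theorem dl_eq {x : D.X.X} (hx : D.f x ∉ D.Q) : P.γ (dl P x) = dg (s + 1) x :=
  have := P.conn
  Function.invFun_eq (P.diag x hx)

theorem dl_uniq {x : D.X.X} {v : P.V.X} (hx : D.f x ∉ D.Q) (hv : P.γ v = dg (s + 1) x) :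
    dl P x = v :=
  P.inj v _ ((dl_eq hx).trans hv.symm) (by rw [hv]; exact hx)

theorem offQ (hD : D.Ok) {x : D.X.X} (hx : D.f x ∉ D.Q) : ∀ᶠ y in 𝓝 x, D.f y ∉ D.Q :=
  hD.hol.cont.continuousAt.eventually (hD.thin.closed.isOpen_compl.mem_nhds hx)

theorem dl_hol (hD : D.Ok) {x : D.X.X} (hx : D.f x ∉ D.Q) :
    HolA (p + a) (p + (s + 1) * a) (dl P) x := by
  obtain ⟨l, h1, h2⟩ := P.lift (p + a) D.X.X (dg (s + 1)) x
    ⟨hD.hol.at x, fun _ => holM_id.at x, .of_forall fun _ _ => rfl⟩ hx (P.diag x hx)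
  refine h1.cng ?_
  filter_upwards [h2, offQ hD hx] with y k1 k2 using (dl_uniq k2 k1).symm

theorem dl_nA {x : D.X.X} (hx : x ∈ D.Nx) : dl P x ∉ P.A := fun h =>
  h (by rw [dl_eq hx.1]; exact ⟨hx.1, fun _ => hx.2⟩)

theorem ats {x : D.X.X} {e : Chart (p + a) D.X.X} {e' : Chart p D.Y.X} (hx : D.f x ∉ D.Q)
    (he : At e x) (he' : At e' (D.f x)) : Ats e' (fun _ => e) (P.γ (dl P x)) := by
  rw [dl_eq hx]
  exact ⟨he', fun _ => he⟩

theorem dl_Q {x : D.X.X} (hx : D.f x ∉ D.Q) : (P.γ (dl P x)).1 ∉ D.Q := by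
  rw [dl_eq hx]
  exact hx

/-- the restriction, read in the chart `E` -/
def ts (P : D.Pw0 (s + 1) (p + (s + 1) * a)) (ξ : Chart (p + (s + 1) * a) P.V.X → P.V.X → ℂ)
    (E : Chart (p + (s + 1) * a) P.V.X) (e : Chart (p + a) D.X.X) (e' : Chart p D.Y.X)
    (x : D.X.X) : ℂ :=
  ξ E (dl P x) / cmp P.γ E e' (fun _ => e) (dl P x) ^ D.m

/-- the restriction -/
def sg (P : D.Pw0 (s + 1) (p + (s + 1) * a)) (ξ : Chart (p + (s + 1) * a) P.V.X → P.V.X → ℂ)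
    (e : Chart (p + a) D.X.X) (e' : Chart p D.Y.X) (x : D.X.X) : ℂ :=
  ts P ξ (chartAt _ (dl P x)) e e' x

variable {ξ : Chart (p + (s + 1) * a) P.V.X → P.V.X → ℂ} {b : ℕ} {x : D.X.X}
  {E E₁ : Chart (p + (s + 1) * a) P.V.X} {e e₁ : Chart (p + a) D.X.X} {e' e₁' : Chart p D.Y.X}

theorem cmp_eq (hT : DETT) (hD : D.Ok) (hx : D.f x ∉ D.Q) (hE : At E (dl P x)) (he : At e x)
    (he' : At e' (D.f x)) {w : Fin a → D.X.X → ℂ} (hw : ∀ i, Hol (p + a) (w i) x) :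
    cmp P.γ E e' (fun _ => e) (dl P x) * jdw (M := D.toFb) w e e' x ^ (s + 1) =
      jnw e' (fun _ => w) P.γ E (dl P x) := by
  have h1 := (hT p a s D hD P.V.X P.γ _ (P.tm (dl P x))).eq E e' (fun _ => e) (fun _ => w) hE
    (ats hx he he') (dl_Q hx) (by rw [dl_eq hx]; exact fun _ => hw)
  rw [dl_eq hx] at h1
  rw [← h1]
  simp only [dg, Finset.prod_const, Finset.card_univ, Fintype.card_fin]

theorem cmp_ne (hX : DETX) (hT : DETT) (hP : DETP) (hW : HW) (hD : D.Ok) (hx : D.f x ∉ D.Q)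
    (hE : At E (dl P x)) (he : At e x) (he' : At e' (D.f x)) :
    cmp P.γ E e' (fun _ => e) (dl P x) ≠ 0 := by
  have hf := (hX p a D hD).ex x ((hW p a D hD).2.2.2.2.2 x hx)
  have h1 := ((hP p a (s + 1) D P hD).2 (dl P x) E e' (fun _ => D.wc x) hE
    (ats hx he he').1 (dl_Q hx) (by rw [dl_eq hx]; exact fun _ => hf)).1
  rw [← cmp_eq hT hD hx hE he he' hf.1] at h1
  exact left_ne_zero_of_mul h1

theorem ts_chg (hX : DETX) (hT : DETT) (hP : DETP) (hW : HW) (hD : D.Ok) (hG : P.Good ξ b)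
    (hx : x ∈ D.Nx) (hE : At E (dl P x)) (hE₁ : At E₁ (dl P x)) (he : At e x) (he₁ : At e₁ x)
    (he' : At e' (D.f x)) (he₁' : At e₁' (D.f x)) :
    ts P ξ E e e' x * (jacM e' e₁' (D.f x)).det ^ (s * D.m) =
      (jacM e e₁ x).det ^ ((s + 1) * D.m) * ts P ξ E₁ e₁ e₁' x := by
  have h1 := (hT p a s D hD P.V.X P.γ _ (P.tm (dl P x))).chg E E₁ e' e₁' (fun _ => e)
    (fun _ => e₁) hE hE₁ (ats hx.1 he he') (ats hx.1 he₁ he₁') (dl_Q hx.1)
  rw [dl_eq hx.1] at h1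
  simp only [dg, Finset.prod_const, Finset.card_univ, Fintype.card_fin] at h1
  have h2 : ξ E (dl P x) = (jacM E E₁ (dl P x)).det ^ D.m * ξ E₁ (dl P x) :=
    hG.ms.chg E E₁ _ hE hE₁ (dl_nA hx)
  have h3 := cmp_ne hX hT hP hW hD hx.1 hE he he'
  have h4 := cmp_ne hX hT hP hW hD hx.1 hE₁ he₁ he₁'
  have h5 := congrArg (· ^ D.m) h1
  simp only [mul_pow, ← pow_mul] at h5
  unfold ts
  rw [h2, div_mul_eq_mul_div, mul_div_assoc', div_eq_div_iff (pow_ne_zero _ h3) (pow_ne_zero _ h4)]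
  linear_combination (-ξ E₁ (dl P x)) * h5

theorem sg_eq (hX : DETX) (hT : DETT) (hP : DETP) (hW : HW) (hD : D.Ok) (hG : P.Good ξ b)
    (hx : x ∈ D.Nx) (hE : At E (dl P x)) (he : At e x) (he' : At e' (D.f x)) :
    sg P ξ e e' x = ts P ξ E e e' x := by
  have h := ts_chg hX hT hP hW hD hG hx (at_chart _) hE he he he' he'
  rwa [jacM_self he, jacM_self he', Matrix.det_one, Matrix.det_one, one_pow, one_pow, mul_one,
    one_mul] at h

theorem nx_near (hW : HW) (hD : D.Ok) (hx : x ∈ D.Nx) : ∀ᶠ y in 𝓝 x, y ∈ D.Nx :=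
  (isClosed_compl_iff.1 (hW p a D hD).2.2.2.2.1.closed).mem_nhds hx

theorem sg_hol (hX : DETX) (hT : DETT) (hP : DETP) (hW : HW) (hD : D.Ok) (hG : P.Good ξ b)
    (hx : x ∈ D.Nx) (he : At e x) (he' : At e' (D.f x)) : Hol (p + a) (sg P ξ e e') x := by
  have hE := at_chart (n := p + (s + 1) * a) (dl P x)
  have hd := dl_hol (P := P) hD hx.1
  have h1 := (hT p a s D hD P.V.X P.γ _ (P.tm (dl P x))).holc _ e' (fun _ => e) hE
    (ats hx.1 he he') (dl_Q hx.1)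
  have h2 := hd.hol ((hG.ms.hol _ _ hE (dl_nA hx)).div (h1.pow D.m)
    (pow_ne_zero _ (cmp_ne hX hT hP hW hD hx.1 hE he he')))
  refine h2.congr ?_
  filter_upwards [nx_near hW hD hx, hd.cont.eventually (at_near hE), at_near he,
    hD.hol.cont.continuousAt.eventually (at_near he')] with y k1 k2 k3 k4
  exact (sg_eq hX hT hP hW hD hG k1 k2 k3 k4).symm

/-- the bound at the points with leaf coordinates -/
theorem bd_lp (hX : DETX) (hT : DETT) (hP : DETP) (hW : HW) (hB : BRL) (hD : D.Ok)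
    (hG : P.Good ξ b) (hx : D.Lp x) (he : At e x) (he' : At e' (D.f x)) {ζ : D.κ → D.X.X → ℂ}
    (hζ : ∀ l, LEq (p + a) (D.G l) x (ζ l)) : Bnd D.Nx
      (fun y => ‖sg P ξ e e' y‖ * (‖(∏ l, ζ l y ^ D.c l) ^ (s + 1)‖ * D.tz (D.f y) ^ b)) x := by
  obtain ⟨β, l, τ, w, h1, h2, h3, h4, h5⟩ := hB p a s D P x hD hx
  obtain ⟨C, h6⟩ := h5 e e' he he'
  obtain ⟨C₁, h7⟩ := hG.inv β l (τ x) h1 (fun _ => ζ) (by rw [h4.self_of_nhds]; exact fun _ => hζ)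
  have h8 : ∀ᶠ y in 𝓝 x, ‖jdw (M := D.toFb) w e e' y‖ ≤ ‖jdw (M := D.toFb) w e e' x‖ + 1 :=
    (((hX p a D hD).hol w x e e' h3 he he').cont.norm.eventually_lt continuousAt_const
      (lt_add_one _)).mono fun _ => le_of_lt
  set B := ‖jdw (M := D.toFb) w e e' x‖ + 1 with hB'
  refine ⟨(|C| * B ^ s) ^ D.m * C₁, ?_⟩
  filter_upwards [h4, h6, h2.eventually h7, h8, h2.eventually h1.lift.eventually_nhds,
    h2.eventually h1.tm.b.near, eventually_all.2 fun i => (h3 i).near, at_near he,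
    hD.hol.cont.continuousAt.eventually (at_near he')] with y k4 k6 k7 k8 k1 k2 k3 ke ke' hy
  have hQ : (β (τ y)).1 ∉ D.Q := by rw [k4]; exact hy.1
  obtain ⟨j1, j2, -⟩ := k1.self_of_nhds hQ
  have j3 : dl P y = l (τ y) := dl_uniq hy.1 (j1.trans k4)
  have j4 : ∀ᶠ t in 𝓝 (τ y), P.γ (l t) = β t := by
    filter_upwards [k1, k2.cont.eventually (hD.thin.closed.isOpen_compl.mem_nhds hQ)] with t i1 i2
      using (i1 i2).1
  have hE := at_chart (n := p + (s + 1) * a) (l (τ y))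
  have j5 := (hP p a (s + 1) D P hD).1 β l (τ y) _ e' (fun _ => w) j2 j4 hE
    (by rw [k4]; exact ke') (by rw [k4]; exact fun _ => k3)
  have j6 := cmp_eq (P := P) (E := chartAt _ (l (τ y))) hT hD hy.1 (by rw [j3]; exact hE) ke ke' k3
  obtain ⟨j7, j8⟩ := k6 hy.1
  rw [j3] at j6
  rw [j5, ← j6] at j8
  have j9 := key (X := ξ (chartAt _ (l (τ y))) (l (τ y))) (m := D.m) j7 j8 k8
  have j10 := k7 ⟨by rw [k4]; exact ⟨hy.1, fun _ => hy.2⟩, notMem_empty _⟩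
  rw [k4] at j10
  have j11 : mo (fun _ => ζ) (dg (s + 1) y) = (∏ l, ζ l y ^ D.c l) ^ (s + 1) := by
    simp only [mo, dg, Finset.prod_const, Finset.card_univ, Fintype.card_fin]
  rw [j11] at j10
  have j12 : sg P ξ e e' y = ξ (chartAt _ (l (τ y))) (l (τ y)) /
      cmp P.γ (chartAt _ (l (τ y))) e' (fun _ => e) (l (τ y)) ^ D.m := by
    rw [sg, ts, j3]
  have j13 : 0 ≤ (|C| * B ^ s) ^ D.m := by positivity
  have j14 : 0 ≤ ‖(∏ l, ζ l y ^ D.c l) ^ (s + 1)‖ * D.tz (D.f y) ^ b :=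
    mul_nonneg (norm_nonneg _) (pow_nonneg ((hW p a D hD).2.2.1 _).1 _)
  rw [j12]
  refine (mul_le_mul_of_nonneg_right j9 j14).trans ?_
  rw [mul_assoc]
  exact mul_le_mul_of_nonneg_left j10 j13

theorem sg_bd (hX : DETX) (hT : DETT) (hP : DETP) (hW : HW) (hF : FROB) (hH : HART) (hB : BRL)
    (hD : D.Ok) (hG : P.Good ξ b) (he : At e x) (he' : At e' (D.f x)) {ζ : D.κ → D.X.X → ℂ}
    (hζ : ∀ l, LEq (p + a) (D.G l) x (ζ l)) : Bnd D.Nx
      (fun y => ‖sg P ξ e e' y‖ * ((∏ l, ‖ζ l y‖ ^ D.c l) ^ (s + 1) * D.tz (D.f y) ^ b)) x := by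
  obtain ⟨-, -, w1, w2, w3, -⟩ := hW p a D hD
  obtain ⟨j, hj⟩ := hD.lb.cover (D.f x)
  obtain ⟨ι, _, h, h1⟩ := hF p a D hD x
  have hc : ∀ y, ContinuousAt D.f y := fun y => hD.hol.cont.continuousAt
  obtain ⟨C, h2⟩ := hH (p + a) D.X ι h D.Nxᶜ
    (fun y => sg P ξ e e' y * ((∏ l, ζ l y ^ D.c l) ^ (s + 1) * D.α j (D.f y) 0 ^ b)) x w3 (by
      filter_upwards [h1, at_near he, (hc x).eventually (at_near he'),
        eventually_all.2 fun l => (hζ l).near, (hc x).eventually ((hD.lb.isOpen j).mem_nhds hj)]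
        with y k1 k2 k3 k4 k5
      refine ⟨k1.1, k1.2.1, fun hy => ?_, fun hy => ?_⟩
      · refine (sg_hol hX hT hP hW hD hG (not_not.1 hy) k2 k3).mul
          (((Hol.prod _ fun l _ => (k4 l).hol.pow _).pow _).mul (Hol.pow ?_ _))
        exact hD.hol.hol (a := fun z => D.α j z 0) (sec_hol (hD.sec 0) k5)
      · obtain ⟨C₁, j1⟩ := bd_lp hX hT hP hW hB hD hG (k1.2.2 hy) k2 k3 k4
        obtain ⟨C₂, j2, j3⟩ := (w2 j _ k5).1
        refine ⟨C₂ ^ b * C₁, ?_⟩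
        filter_upwards [j1, (hc y).eventually j3] with z i1 i2 hz
        rw [compl_compl] at hz
        refine le_trans ?_ (mul_le_mul_of_nonneg_left (i1 hz) (pow_nonneg j2.le b))
        have i3 : ‖D.α j (D.f z) 0‖ ^ b ≤ (C₂ * D.tz (D.f z)) ^ b :=
          pow_le_pow_left₀ (norm_nonneg _) i2.2 b
        rw [norm_mul, norm_mul, norm_pow (D.α j (D.f z) 0)]
        calc _ ≤ ‖sg P ξ e e' z‖ * (‖(∏ l, ζ l z ^ D.c l) ^ (s + 1)‖ *
              (C₂ * D.tz (D.f z)) ^ b) := by gcongr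
          _ = _ := by rw [mul_pow]; ring)
  obtain ⟨C₂, j2, j3⟩ := (w2 j _ hj).1
  refine ⟨C₂ ^ b * C, ?_⟩
  filter_upwards [h2, (hc x).eventually j3] with z i1 i2 hz
  refine le_trans ?_ (mul_le_mul_of_nonneg_left (i1 (not_not.2 hz)) (pow_nonneg j2.le b))
  have i3 : D.tz (D.f z) ^ b ≤ (C₂ * ‖D.α j (D.f z) 0‖) ^ b := pow_le_pow_left₀ (w1 _).1 i2.1 b
  simp only [norm_mul, norm_pow, norm_prod]
  calc _ ≤ ‖sg P ξ e e' z‖ * ((∏ l, ‖ζ l z‖ ^ D.c l) ^ (s + 1) *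
        (C₂ * ‖D.α j (D.f z) 0‖) ^ b) := by gcongr
    _ = _ := by rw [mul_pow]; ring

end DiagH

open DiagH

/-- **DIAG** -/
theorem diag_of (hX : DETX) (hT : DETT) (hP : DETP) (hW : HW) (_ : PBC) (hF : FROB) (hH : HART)
    (hB : BRL) : DIAG := by
  intro p a s b D P ξ hD hG
  refine ⟨sg P ξ, ⟨fun e e' x hx he he' => sg_hol hX hT hP hW hD hG hx he he',
    fun e e₁ e' e₁' x hx he he₁ he' he₁' =>
      ts_chg hX hT hP hW hD hG hx (at_chart _) (at_chart _) he he₁ he' he₁',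
    fun e e' x ζ he he' hζ => sg_bd hX hT hP hW hF hH hB hD hG he he' hζ⟩, ?_⟩
  obtain ⟨v, h1, x, h2, h3⟩ := hG.nv
  have h4 : dg (s + 1) x ∈ D.Nq (s + 1) := h2 ▸ not_not.1 h1
  have h5 : dl P x = v := dl_uniq h4.1 h2
  refine ⟨x, ⟨h4.1, h4.2 0⟩, div_ne_zero (h5 ▸ h3) (pow_ne_zero _ ?_)⟩
  exact cmp_ne hX hT hP hW hD h4.1 (at_chart _) (at_chart _) (at_chart _)

end Vale.Agent.P281Z.U1
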