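import Vale.Agent.P281Z.U1.Defs

/-!
# P281Z, block U1: the estimate
-/

open scoped Manifold ContDiff Topology ENNReal
open Set Filter MeasureTheory Metric
open Vale.Agent.P272.K Vale.Agent.P285.H281.FD
open Vale.Agent.P277Z (Hol at_chart)
open Vale.Agent.P281Z.Gt
open Vale.Agent.P281Z.Md (Bnd)

noncomputable section

namespace Vale.Agent.P281Z.U1

open Su

namespace EsH

section num

variable {m b b' p : ℕ} {ε : ℝ}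

theorem key (hm : 1 ≤ m) (hε : ε * m = m - 1) (hb : b * (m - 1) + m * (p + 1) + 1 ≤ b' * m)
    (C₁ C₂ : ℝ) : ∃ C : ℝ, ∀ X M T s : ℝ, 0 < X → 0 ≤ M → 0 ≤ T → T ≤ 1 → 0 ≤ s → s ≤ C₂ * T →
      X * (M * T ^ b) ≤ C₁ →
      (M * s ^ b') ^ 2 ≤ C * (X ^ (-(2 * ε)) * T ^ (2 * (p + 1)) * (M * s) ^ (2 / m : ℝ)) := by
  obtain ⟨k, rfl⟩ := Nat.exists_eq_add_of_le' hm
  obtain ⟨d, hd⟩ := Nat.exists_eq_add_of_le hb
  rw [Nat.add_sub_cancel] at hd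
  obtain ⟨c, hc⟩ : ∃ c, c = |C₁| ^ k * |C₂| ^ (b * k + (k + 1) * (p + 1) + d) := ⟨_, rfl⟩
  have c0 : 0 ≤ c := by rw [hc]; positivity
  refine ⟨(1 + c) ^ 2, fun X M T s hX hM hT hT1 hs h1 h2 => ?_⟩
  have k0 : ((k + 1 : ℕ) : ℝ) ≠ 0 := by positivity
  have e1 : (X ^ (-ε)) ^ (k + 1) = (X ^ k)⁻¹ := by
    rw [← Real.rpow_natCast, ← Real.rpow_mul hX.le, neg_mul, hε, Real.rpow_neg hX.le,
      ← Real.rpow_natCast]
    simp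
  have e2 : ((M * s) ^ (1 / (k + 1 : ℕ) : ℝ)) ^ (k + 1) = M * s := by
    rw [← Real.rpow_natCast, ← Real.rpow_mul (by positivity), one_div_mul_cancel k0, Real.rpow_one]
  have e3 : X ^ (-(2 * ε)) * T ^ (2 * (p + 1)) * (M * s) ^ (2 / (k + 1 : ℕ) : ℝ) =
      (X ^ (-ε) * T ^ (p + 1) * (M * s) ^ (1 / (k + 1 : ℕ) : ℝ)) ^ 2 := by
    rw [mul_pow, mul_pow, ← pow_mul, mul_comm (p + 1), ← Real.rpow_natCast (X ^ _),
      ← Real.rpow_natCast (_ ^ (_ / _ : ℝ)), ← Real.rpow_mul hX.le, ← Real.rpow_mul (by positivity)]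
    congr 3 <;> push_cast <;> ring
  have h3 : s ^ (b * k + (k + 1) * (p + 1) + d) ≤ |C₂| ^ (b * k + (k + 1) * (p + 1) + d) *
      (T ^ (b * k) * T ^ ((k + 1) * (p + 1))) := by
    refine (pow_le_pow_left₀ hs (h1.trans (mul_le_mul_of_nonneg_right (le_abs_self _) hT)) _).trans ?_
    rw [mul_pow, ← pow_add T]
    exact mul_le_mul_of_nonneg_left (pow_le_pow_of_le_one hT hT1 (by omega)) (by positivity)
  have h4 : (X * (M * T ^ b)) ^ k ≤ |C₁| ^ k :=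
    pow_le_pow_left₀ (by positivity) (h2.trans (le_abs_self _)) _
  have h5 : X ^ k * (M * s ^ b') ^ (k + 1) ≤ c * (T ^ ((k + 1) * (p + 1)) * (M * s)) :=
    calc X ^ k * (M * s ^ b') ^ (k + 1)
        = X ^ k * M ^ k * (M * s) * s ^ (b * k + (k + 1) * (p + 1) + d) := by
          rw [mul_pow, ← pow_mul, hd]; ring
      _ ≤ X ^ k * M ^ k * (M * s) * (|C₂| ^ (b * k + (k + 1) * (p + 1) + d) *
          (T ^ (b * k) * T ^ ((k + 1) * (p + 1)))) := mul_le_mul_of_nonneg_left h3 (by positivity)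
      _ = (X * (M * T ^ b)) ^ k * |C₂| ^ (b * k + (k + 1) * (p + 1) + d) *
          (T ^ ((k + 1) * (p + 1)) * (M * s)) := by rw [mul_pow, mul_pow, ← pow_mul]; ring
      _ ≤ _ := by rw [hc]; gcongr
  rw [e3, ← mul_pow]
  refine pow_le_pow_left₀ (by positivity)
    (le_of_pow_le_pow_left₀ (n := k + 1) k.succ_ne_zero (by positivity) ?_) 2
  rw [mul_pow (1 + c), mul_pow (_ * _), mul_pow (X ^ _), e1, e2, ← pow_mul, mul_comm (p + 1),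
    mul_assoc, mul_left_comm, le_inv_mul_iff₀ (by positivity)]
  refine h5.trans (mul_le_mul_of_nonneg_right ?_ (by positivity))
  exact (le_add_of_nonneg_left zero_le_one).trans (le_self_pow₀ (by linarith) k.succ_ne_zero)

theorem law (hε : ε * m = m - 1) (x x' : ℂ) {J : ℂ} (hJ : J ≠ 0) :
    ‖J ^ m * x'‖ₑ ^ (2 : ℝ) * ‖J ^ m * x‖ₑ ^ (-(2 * ε)) =
      ‖x'‖ₑ ^ (2 : ℝ) * ‖x‖ₑ ^ (-(2 * ε)) * ‖J‖ₑ ^ 2 := by
  have h : (‖J‖ₑ ^ m) ^ (2 : ℝ) * (‖J‖ₑ ^ m) ^ (-(2 * ε)) = ‖J‖ₑ ^ 2 := by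
    rw [← ENNReal.rpow_natCast, ← ENNReal.rpow_mul, ← ENNReal.rpow_mul,
      ← ENNReal.rpow_add _ _ (by simpa using hJ) enorm_ne_top, ← ENNReal.rpow_natCast]
    congr 1
    push_cast
    linarith
  have k : ‖J‖ₑ ^ m ≠ ⊤ := ENNReal.pow_ne_top enorm_ne_top
  rw [enorm_mul, enorm_mul, enorm_pow, ENNReal.mul_rpow_of_ne_top k enorm_ne_top,
    ENNReal.mul_rpow_of_ne_top k enorm_ne_top, ← h]
  ring

theorem keyE (hm : 1 ≤ m) (hε : ε * m = m - 1) (hb : b * (m - 1) + m * (p + 1) + 1 ≤ b' * m)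
    (C₁ C₂ : ℝ) : ∃ C : ℝ, ∀ (x x' J μ τ : ℂ) (T : ℝ), x ≠ 0 → J ≠ 0 → 0 ≤ T → T ≤ 1 →
      ‖τ‖ ≤ C₂ * T → ‖x * J ^ m‖ * (‖μ‖ * T ^ b) ≤ C₁ →
      ‖x' * J ^ m * (μ * τ ^ b')‖ₑ ^ 2 ≤ ENNReal.ofReal C * (‖x'‖ₑ ^ (2 : ℝ) * ‖x‖ₑ ^ (-(2 * ε)) *
        ENNReal.ofReal T ^ (2 * (p + 1)) * ‖μ * τ‖ₑ ^ (2 / m : ℝ) * ‖J‖ₑ ^ 2) := by
  obtain ⟨C, hC⟩ := key hm hε hb C₁ C₂
  refine ⟨|C|, fun x x' J μ τ T hx hJ hT hT1 h1 h2 => ?_⟩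
  have h0 : 0 < ‖x * J ^ m‖ := norm_pos_iff.2 (mul_ne_zero hx (pow_ne_zero _ hJ))
  have h3 := ENNReal.ofReal_le_ofReal ((hC _ _ _ _ h0 (norm_nonneg μ) hT hT1 (norm_nonneg τ) h1
    h2).trans (mul_le_mul_of_nonneg_right (le_abs_self C) (by positivity)))
  rw [ENNReal.ofReal_mul (abs_nonneg _), ENNReal.ofReal_mul (by positivity),
    ENNReal.ofReal_mul (by positivity), ← ENNReal.ofReal_rpow_of_pos h0, ← norm_pow, ← norm_mul,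
    ← norm_mul, ← ENNReal.ofReal_rpow_of_nonneg (norm_nonneg _) (by positivity),
    ENNReal.ofReal_pow (norm_nonneg _), ENNReal.ofReal_pow hT, ofReal_norm, ofReal_norm,
    ofReal_norm, mul_comm x] at h3
  calc _ = ‖J ^ m * x'‖ₑ ^ (2 : ℝ) * ‖μ * τ ^ b'‖ₑ ^ 2 := by
        rw [enorm_mul, mul_pow, mul_comm x', ENNReal.rpow_two]
    _ ≤ _ := mul_le_mul_right h3 _
    _ = ENNReal.ofReal |C| * (‖J ^ m * x'‖ₑ ^ (2 : ℝ) * ‖J ^ m * x‖ₑ ^ (-(2 * ε)) *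
        ENNReal.ofReal T ^ (2 * (p + 1)) * ‖μ * τ‖ₑ ^ (2 / m : ℝ)) := by ring
    _ = _ := by rw [law hε x x' hJ]; ring

end num

variable {p a n K m : ℕ} {D : Su p a} {ε : ℝ}

/-- the law of the density -/
theorem dens_law {V : Mf K} {ξ ξ' : Chart K V.X → V.X → ℂ} (hm : 1 ≤ m)
    (hε : ε * m = m - 1) {y : V.X} {E E₁ : Chart K V.X} (h0 : ξ E y ≠ 0)
    (h : ξ E y = (jacM E E₁ y).det ^ m * ξ E₁ y) (h' : ξ' E y = (jacM E E₁ y).det ^ m * ξ' E₁ y) :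
    dens ξ' ξ ε E y = dens ξ' ξ ε E₁ y * ‖(jacM E E₁ y).det‖ₑ ^ 2 := by
  rw [dens, dens, h, h']
  exact law hε _ _ fun k => h0 (by rw [h, k, zero_pow (by omega), zero_mul])

section tm

variable {k : ℕ} {T : Type} [TopologicalSpace T] [ChartedSpace (Cm k) T]
  [IsManifold 𝓘(ℂ, Cm k) ω T] {g : T → Pt D.toFb n} {t : T} {ζ : Fin n → D.κ → D.X.X → ℂ}

omit [IsManifold 𝓘(ℂ, Cm k) ω T] in
theorem tm_cont (h : Tm k g t) : ContinuousAt g t :=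
  h.b.cont.prodMk (continuousAt_pi.2 fun j => (h.x j).cont)

theorem tm_near (h : Tm k g t) : ∀ᶠ s in 𝓝 t, Tm k g s := by
  filter_upwards [h.b.near, eventually_all.2 fun j => (h.x j).near, h.fp.eventually_nhds]
    with s h1 h2 h3 using ⟨h1, h2, h3⟩

omit [IsManifold 𝓘(ℂ, Cm k) ω T] in
theorem le_near (h : Tm k g t) (hζ : Le ζ (g t)) : ∀ᶠ s in 𝓝 t, Le ζ (g s) :=
  eventually_all.2 fun j => eventually_all.2 fun l => (h.x j).cont.eventually (hζ j l).near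

theorem hol_mo (h : Tm k g t) (hζ : Le ζ (g t)) (c : D.κ → ℕ) :
    Hol k (fun s => ∏ j, ∏ l, ζ j l ((g s).2 j) ^ c l) t :=
  Hol.prod _ fun j _ => Hol.prod _ fun l _ => ((h.x j).hol (hζ j l).hol).pow _

end tm

theorem mo_ne {ζ : Fin n → D.κ → D.X.X → ℂ} {q : Pt D.toFb n} (hζ : Le ζ q) :
    ∏ j, ∏ l, ζ j l (q.2 j) ^ 1 ≠ 0 ↔ ∀ j, q.2 j ∈ off D.G := by
  simp only [Finset.prod_ne_zero_iff, Finset.mem_univ, true_imp_iff, pow_one, off, mem_ofPred_eq,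
    ne_eq, (hζ _ _).mem]

theorem an_of {u : Cm K → ℂ} {t : Cm K} (h : Hol K u t) : AnalyticAt ℂ u t := h _ (at_chart t)

/-- the premise of `Keep` -/
theorem prem (hW : HW) (hI : INVV) (hL : LIB) (hD : D.Ok) {P : D.Pw0 n K} {b : ℕ}
    {ξ : Chart K P.V.X → P.V.X → ℂ} {A' : Set P.V.X} (hG : P.Good ξ b) (hA : P.A ⊆ A')
    (hT : Thin K A') (hN : ∀ E v, At E v → v ∉ A' → ξ E v ≠ 0) (hε : ε * D.m = D.m - 1)
    {ζ : Fin n → D.κ → D.X.X → ℂ} {v : P.V.X} {j : D.B.ι} {τ : D.Y.X → ℂ} (k1 : Le ζ (P.γ v))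
    (k2 : (P.γ v).1 ∈ D.B.U j) (τ2 : ∀ z ∈ D.B.U j, τ z = 0 ↔ z ∈ D.Q) :
    ∀ᶠ y in 𝓝 v, mo ζ (P.γ y) * τ (P.γ y).1 ≠ 0 → LI K (dens ξ ξ ε) y := by
  obtain ⟨-, w1, w2, -⟩ := hW p a D hD
  have hm : 1 ≤ D.m := one_le_two.trans hD.two
  have m0 : (D.m : ℝ) ≠ 0 := by positivity
  have hη : (0 : ℝ) < 2 / D.m := by positivity
  have l0 : ∀ y ∉ A', ∀ E E₁, At E y → At E₁ y → ξ E y = (jacM E E₁ y).det ^ D.m * ξ E₁ y :=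
    fun y hy E E₁ h1 h2 => hG.ms.chg E E₁ y h1 h2 fun k => hy (hA k)
  obtain ⟨C, hC⟩ := (hI p a n K b D P hD).2 ξ hG v _ (at_chart v) ζ k1
  filter_upwards [hC.eventually_nhds, at_near (at_chart (n := K) v), le_near (P.tm v) k1,
    (P.tm v).b.cont.eventually ((hD.lb.isOpen j).mem_nhds k2)] with y y1 y2 y3 y4 y5
  have y6 : ContinuousAt (fun y => (‖mo ζ (P.γ y)‖ * D.tz (P.γ y).1 ^ b)⁻¹) y :=
    ((hol_mo (P.tm y) y3 D.c).cont.norm.mul ((w1.continuousAt.comp (P.tm y).b.cont).pow b)).inv₀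
      (mul_ne_zero (norm_ne_zero_iff.2 (left_ne_zero_of_mul y5)) (pow_ne_zero _
        (mt (w2 _).2.2.1 (mt (τ2 _ y4).2 (right_ne_zero_of_mul y5)))))
  obtain ⟨M, -, y7⟩ := bdd_near y6
  refine hL K P.V A' _ (fun _ => 1) y _ (ENNReal.ofReal (|C| * M) ^ (2 / D.m : ℝ)) hT y2
    (ENNReal.rpow_ne_top_of_nonneg hη.le ENNReal.ofReal_ne_top)
    (fun z hz E E₁ h1 h2 => dens_law hm hε (hN E z h1 hz) (l0 z hz E E₁ h1 h2)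
      (l0 z hz E E₁ h1 h2))
    ⟨_, at_chart y, _, ball_mem_nhds _ one_pos, by simpa using measure_ball_lt_top⟩ ?_
  filter_upwards [y1, y7, at_near y2, y6.eventually_ne (inv_ne_zero (mul_ne_zero
    (norm_ne_zero_iff.2 (left_ne_zero_of_mul y5)) (pow_ne_zero _
      (mt (w2 _).2.2.1 (mt (τ2 _ y4).2 (right_ne_zero_of_mul y5))))))] with z z1 z2 z3 z4 z5
  have z6 : 0 < ‖mo ζ (P.γ z)‖ * D.tz (P.γ z).1 ^ b :=
    (mul_nonneg (norm_nonneg _) (pow_nonneg (w2 _).1 _)).lt_of_ne' fun k => z4 (by rw [k, inv_zero])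
  rw [dens, ← ENNReal.rpow_add _ _ (by simpa using hN _ z z3 z5) enorm_ne_top, mul_one,
    show 2 + -(2 * ε) = 2 / D.m by field_simp; linarith, ← ofReal_norm]
  refine ENNReal.rpow_le_rpow (ENNReal.ofReal_le_ofReal ?_) hη.le
  exact ((le_mul_inv_iff₀ z6).2 ((z1 fun k => z5 (hA k)).trans (le_abs_self C))).trans
    (mul_le_mul_of_nonneg_left z2 (abs_nonneg C))

/-- the model is proper over the fibre power -/
theorem proper (P : D.Pw0 n K) {β : Cm K → Pt D.toFb n} {t₀ : Cm K} (hβ : ContinuousAt β t₀)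
    {O : Set P.V.X} (hO : IsOpen O) (hF : P.γ ⁻¹' {β t₀} ⊆ O) :
    ∀ᶠ t in 𝓝 t₀, ∀ v, P.γ v = β t → v ∈ O := by
  have h : IsClosed (P.γ '' Oᶜ) := (hO.isClosed_compl.isCompact.image
    (continuous_iff_continuousAt.2 fun v => tm_cont (P.tm v))).isClosed
  have k : β t₀ ∈ (P.γ '' Oᶜ)ᶜ := fun ⟨v, hv, k⟩ => hv (hF k)
  filter_upwards [hβ.eventually (h.isOpen_compl.mem_nhds k)] with t t1 v t2
  by_contra k
  exact t1 ⟨_, k, t2⟩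

end EsH

open EsH in
/-- **EST** -/
theorem est_of (hW : HW) (hP : PBC) (hI : INVV) (hC : CV) (hL : LIB) (hX : L2X) : EST := by
  intro p a n K b b' D P ξ ξ' A' hD hG hA hT hM hN hK hb β l t₀ hβ ζ hζ
  obtain ⟨-, w1, w2, w3, -⟩ := hW p a D hD
  have hm : 1 ≤ D.m := one_le_two.trans hD.two
  have m0 : (D.m : ℝ) ≠ 0 := by positivity
  generalize hε' : (((D.m - 1 : ℚ) / D.m : ℚ) : ℝ) = ε at hK
  have hε : ε * D.m = D.m - 1 := by rw [← hε']; push_cast; field_simp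
  have hη : (0 : ℝ) < 2 / D.m := by positivity
  obtain ⟨j, hj⟩ := hD.lb.cover (β t₀).1
  obtain ⟨τ, hτ⟩ : ∃ τ : D.Y.X → ℂ, τ = fun z => D.α j z 0 := ⟨_, rfl⟩
  have τ1 : ∀ z ∈ D.B.U j, Hol p τ z := fun z hz e he =>
    hτ ▸ ((hD.sec 0).holo j e z he hz).analyticAt
  have τ2 : ∀ z ∈ D.B.U j, τ z = 0 ↔ z ∈ D.Q := fun z hz => hτ ▸ (w3 j z hz).2
  obtain ⟨C₂, c2, τ3⟩ : P277Z.Hir.Cpb (𝓝 (β t₀).1) D.tz fun y => ‖τ y‖ := hτ ▸ (w3 j _ hj).1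
  have hγ : Continuous P.γ := continuous_iff_continuousAt.2 fun v => tm_cont (P.tm v)
  have l0 : ∀ y ∉ A', ∀ E E₁, At E y → At E₁ y → ξ E y = (jacM E E₁ y).det ^ D.m * ξ E₁ y :=
    fun y hy E E₁ h1 h2 => hG.ms.chg E E₁ y h1 h2 fun k => hy (hA k)
  -- the densities are integrable near the fibre over `β t₀`
  have hLI : ∀ v ∈ P.γ ⁻¹' {β t₀}, LI K (fun E y => dens ξ' ξ ε E y *
      ENNReal.ofReal (D.S.hw (P.φ y)) ^ (2 * (p + 1) : ℕ) *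
        ‖mo ζ (P.γ y) * τ (P.γ y).1‖ₑ ^ (2 / D.m : ℝ)) v := fun v hv => by
    have hv : P.γ v = β t₀ := hv
    have k1 : Le ζ (P.γ v) := hv ▸ hζ
    have k2 : (P.γ v).1 ∈ D.B.U j := hv ▸ hj
    refine hK v _ ((hol_mo (P.tm v) k1 D.c).mul ((P.tm v).b.hol (τ1 _ k2))) ?_ _ hη
    exact prem hW hI hL hD hG hA hT hN hε k1 k2 τ2
  -- the functions on the branch
  obtain ⟨H, hH⟩ : ∃ H : Cm K → ℂ, H = fun t => τ (β t).1 * ∏ i, ∏ k, ζ i k ((β t).2 i) ^ 1 :=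
    ⟨_, rfl⟩
  obtain ⟨U₀, hU₀, hinj⟩ := hβ.inj
  obtain ⟨C₁, hC₁⟩ := hG.inv β l t₀ hβ ζ hζ
  have b1 : ∀ᶠ t in 𝓝 t₀, Tm K β t ∧ Le ζ (β t) ∧ (β t).1 ∈ D.B.U j ∧ (H t ≠ 0 ↔ β t ∈ D.Nq n) ∧
      Hol K H t := by
    filter_upwards [tm_near hβ.tm, le_near hβ.tm hζ,
      hβ.tm.b.cont.eventually ((hD.lb.isOpen j).mem_nhds hj)] with t t1 t2 t3
    refine ⟨t1, t2, t3, ?_, hH ▸ (t1.b.hol (τ1 _ t3)).mul (hol_mo t1 t2 fun _ => 1)⟩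
    rw [hH, mul_ne_zero_iff, mo_ne t2, ne_eq, τ2 _ t3]
    rfl
  have b2 : ∀ᶠ t in 𝓝 t₀, H t ≠ 0 → P.γ (l t) = β t ∧ HolA K K l t ∧ Imm K K l t := by
    filter_upwards [b1, hβ.lift] with t t1 t2 t3 using t2 (t1.2.2.2.1.1 t3).1
  have b3 : ∀ᶠ t in 𝓝 t₀, H t ≠ 0 → l t ∉ A' → ∀ᶠ s in 𝓝 t, H s ≠ 0 ∧ l s ∉ A' := by
    filter_upwards [b1, b2] with t t1 t2 t3 t4 using (t1.2.2.2.2.ne_near t3).and
      ((t2 t3).2.1.cont.eventually (hT.closed.isOpen_compl.mem_nhds t4))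
  obtain ⟨W, hW1, hW2, hW3⟩ := _root_.eventually_nhds_iff.1 (b1.and (b2.and (b3.and
    ((show ∀ᶠ t in 𝓝 t₀, t ∈ U₀ from hU₀).and (hC₁.and (hβ.tm.b.cont.eventually τ3))))))
  have hU : IsOpen (W ∩ {t | H t ≠ 0 ∧ t ∉ l ⁻¹' A'}) := isOpen_iff_mem_nhds.2 fun t ht =>
    inter_mem (hW2.mem_nhds ht.1) ((hW1 t ht.1).2.2.1 ht.2.1 ht.2.2)
  have hin : InjOn l (W ∩ {t | H t ≠ 0 ∧ t ∉ l ⁻¹' A'}) :=
    hinj.mono fun t ht => mem_inter (hW1 t ht.1).2.2.2.1 ((hW1 t ht.1).1.2.2.2.1.1 ht.2.1).1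
  obtain ⟨r, hr, hint⟩ := hC K P.V A' _ _ l _ t₀ (isClosed_singleton.preimage hγ) hLI
    (fun v hv E E₁ h1 h2 => by
      rw [dens_law hm hε (hN E v h1 hv) (l0 v hv E E₁ h1 h2) (hM.chg E E₁ v h1 h2 hv)]
      ring) hU (fun t ht => ⟨((hW1 t ht.1).2.1 ht.2.1).2.1, ht.2.2⟩) hin
    fun O hO hF => (proper P (tm_cont hβ.tm) hO hF).mono fun t t1 t2 =>
      t1 _ ((hW1 t t2.1).2.1 t2.2.1).1
  obtain ⟨r', hr', hball⟩ := Metric.mem_nhds_iff.1 (inter_mem (ball_mem_nhds t₀ hr)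
    (hW2.mem_nhds hW3))
  obtain ⟨C, hC⟩ := keyE hm hε hb C₁ C₂
  obtain ⟨F, hF⟩ : ∃ F : Cm K → ℂ, F = fun t => pb D.m ξ' l t * (mo ζ (β t) * τ (β t).1 ^ b') :=
    ⟨_, rfl⟩
  have x1 : ∀ᶠ t in 𝓝 t₀, H t ≠ 0 → (t ∉ l ⁻¹' A' → AnalyticAt ℂ F t ∧ ∀ᶠ s in 𝓝 t, s ∉ l ⁻¹' A') ∧
      ∃ h : Cm K → ℂ, AnalyticAt ℂ h t ∧ (¬ ∀ᶠ s in 𝓝 t, h s = 0) ∧
        ∀ᶠ s in 𝓝 t, s ∈ l ⁻¹' A' → h s = 0 := by
    filter_upwards [b1, b2, b3] with t t1 t2 t3 t4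
    obtain ⟨-, t5, t6⟩ := t2 t4
    obtain ⟨g, g1, g2, g3⟩ := hT.nz (l t)
    have k0 : Hol K (fun t => mo ζ (β t) * τ (β t).1 ^ b') t :=
      (hol_mo t1.1 t1.2.1 D.c).mul ((t1.1.b.hol (τ1 _ t1.2.2.1)).pow b')
    refine ⟨fun k => ⟨hF ▸ ((hP K D.m P.V A' ξ' hT.closed hM).1 l t t5 k).1.fun_mul (an_of k0),
      (t3 t4 k).mono fun _ => And.right⟩, fun s => g (l s), an_of (t5.hol g1), fun k => g2 ?_,
      t5.cont.eventually g3⟩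
    rwa [← (imm_iff_sbm.1 t6).map_nhds t5, eventually_map]
  have x2 : ∫⁻ t in ball t₀ r' ∩ {t | H t ≠ 0 ∧ t ∉ l ⁻¹' A'}, ‖F t‖ₑ ^ (2 : ℕ) < ⊤ := by
    refine lt_of_le_of_lt ((lintegral_mono_set fun t ht =>
      show t ∈ ball t₀ r ∩ (W ∩ {t | H t ≠ 0 ∧ t ∉ l ⁻¹' A'}) from
        ⟨(hball ht.1).1, (hball ht.1).2, ht.2⟩).trans ?_)
      (ENNReal.mul_lt_top (a := ENNReal.ofReal C) ENNReal.ofReal_lt_top hint)
    rw [← lintegral_const_mul' _ _ ENNReal.ofReal_ne_top]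
    refine setLIntegral_mono' (isOpen_ball.inter hU).measurableSet fun t ht => ?_
    obtain ⟨t1, t2, -, -, t3, t4⟩ := hW1 t ht.2.1
    obtain ⟨t5, t6, t7⟩ := t2 ht.2.2.1
    rw [show D.S.hw (P.φ (l t)) = D.tz (P.γ (l t)).1 from rfl, t5, hF]
    exact hC _ (ξ' (chartAt _ (l t)) (l t)) _ _ _ _ (hN _ _ (at_chart (l t)) ht.2.2.2)
      ((imm_iff_det (e := .refl _) t6 (at_chart t) (at_chart (l t))).1 t7) (w2 _).1 (w2 _).2.1 t4.2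
      (t3 ⟨t1.2.2.2.1.1 ht.2.2.1, id⟩)
  obtain ⟨C', hC'⟩ := hX K F H _ t₀ r' hr' (an_of b1.self_of_nhds.2.2.2.2)
    (fun k => hβ.nz (by filter_upwards [k, b1] with t t1 t2 t3 using t2.2.2.2.1.2 t3 t1)) x1 x2
  refine ⟨C₂ ^ b' * C', ?_⟩
  filter_upwards [hC', b1, hβ.tm.b.cont.eventually τ3] with t t1 t2 t3 t4
  refine le_trans ?_ (mul_le_mul_of_nonneg_left (t1 ⟨t2.2.2.2.1.2 t4.1, t4.2⟩) (by positivity))
  rw [hF, norm_mul, norm_mul, norm_pow, mul_left_comm (C₂ ^ b'), mul_left_comm (C₂ ^ b'), ← mul_pow]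
  exact mul_le_mul_of_nonneg_left (mul_le_mul_of_nonneg_left
    (pow_le_pow_left₀ (w2 _).1 t3.1 _) (norm_nonneg _)) (norm_nonneg _)

end Vale.Agent.P281Z.U1
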