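import Vale.Agent.P281Z.U1.Defs
import Vale.Agent.P278.Bdl.B2

/-!
# P281Z, block U1: leaf coordinates (FROB)
-/

open scoped Manifold ContDiff Topology Matrix
open Set Filter Function
open Vale.Agent.P272.K Vale.Agent.P285.H281.FD
open Vale.Agent.P277Z (Hol Nz at_chart)

noncomputable section

namespace Vale.Agent.P281Z.U1

namespace Fro

section calc0

variable {E B : Type} [NormedAddCommGroup E] [NormedSpace ℂ E] [FiniteDimensional ℂ E]
  [NormedAddCommGroup B] [NormedSpace ℂ B] [FiniteDimensional ℂ B]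

/-- first integrals of the saturation of `ker dφ` -/
theorem leaf {φ : E → B} {N : E → E →L[ℂ] B} {j : B →L[ℂ] E} {z₀ : E} (hφ : AnalyticAt ℂ φ z₀)
    (hN : AnalyticAt ℂ N z₀) (h : ∀ᶠ z in 𝓝 z₀, ∃ᶠ x in 𝓝 z,
      Injective (fun w => fderiv ℂ φ x (j w)) ∧ ∀ v, fderiv ℂ φ x (j (N x v)) = fderiv ℂ φ x v) :
    ∃ u : E → B, AnalyticAt ℂ u z₀ ∧ Surjective (fderiv ℂ u z₀) ∧
      ∀ᶠ z in 𝓝 z₀, ∀ v, fderiv ℂ u z v = 0 → fderiv ℂ φ z v = 0 := by
  have := FiniteDimensional.complete ℂ E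
  have := FiniteDimensional.complete ℂ B
  have h0 := hφ.eventually_analyticAt.and hN.eventually_analyticAt
  have h1 : ∀ w, N z₀ (j w) = w := fun w => tendsto_nhds_unique_of_frequently_eq
    (hN.continuousAt.clm_apply continuousAt_const) continuousAt_const
    (h.self_of_nhds.mono fun x k => k.1 (k.2 _))
  have h2 : ∀ᶠ z in 𝓝 z₀, ∀ v, fderiv ℂ φ z (v - j (N z v)) = 0 := by
    filter_upwards [h0, h] with z a b v
    exact tendsto_nhds_unique_of_frequently_eq (a.1.fderiv.continuousAt.clm_apply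
      (continuousAt_const.sub (j.continuous.continuousAt.comp (a.2.continuousAt.clm_apply
        continuousAt_const)))) continuousAt_const
      (b.mono fun x k => (map_sub _ _ _).trans (sub_eq_zero.2 (k.2 v).symm))
  have h3 : ∀ᶠ x in 𝓝 z₀, ∀ ξ w, fderiv ℂ φ x (j (fderiv ℂ N x ξ w)) =
      fderiv ℂ (fderiv ℂ φ) x ξ (w - j (N x w)) := by
    filter_upwards [h0, h2.eventually_nhds] with x a b ξ w
    have k := (a.1.fderiv.differentiableAt.hasFDerivAt.clm_apply ((j.hasFDerivAt.comp x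
      (a.2.differentiableAt.hasFDerivAt.clm_apply (hasFDerivAt_const w x))).const_sub w)).unique
      ((hasFDerivAt_const 0 x).congr_of_eventuallyEq (b.mono fun y c => c w))
    simpa [neg_add_eq_zero] using DFunLike.congr_fun k ξ
  have h4 : ∀ᶠ z in 𝓝 z₀, ∀ v w, fderiv ℂ N z (v - j (N z v)) w = fderiv ℂ N z (w - j (N z w)) v := by
    have c : ∀ z v w, AnalyticAt ℂ N z → ContinuousAt (fun z => fderiv ℂ N z (v - j (N z v)) w) z :=
      fun z v w a => (a.fderiv.continuousAt.clm_apply (continuousAt_const.sub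
        (j.continuous.continuousAt.comp (a.continuousAt.clm_apply continuousAt_const)))).clm_apply
        continuousAt_const
    filter_upwards [h0.eventually_nhds, h, h3.eventually_nhds] with z a b d v w
    refine tendsto_nhds_unique_of_frequently_eq (c z v w a.self_of_nhds.2) (c z w v a.self_of_nhds.2)
      ((b.and_eventually (a.and d)).mono fun x k => k.1.1 ?_)
    exact (k.2.2 _ _).trans (((k.2.1.1.contDiffAt (n := ω)).isSymmSndFDerivAt (by simp) _ _).trans
      (k.2.2 _ _).symm)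
  let l := ((ContinuousLinearEquiv.equivOfRightInverse (N z₀) j h1).trans
    (ContinuousLinearEquiv.prodComm ℂ _ _)).symm
  have hl : ∀ q, l q = j q.2 + q.1 := fun q => rfl
  let T := (ContinuousLinearMap.compL ℂ _ E B).flip (N z₀).ker.subtypeL
  have k1 : ∀ q, HasFDerivAt (fun q => z₀ + l q) (l : _ →L[ℂ] E) q := fun q =>
    l.hasFDerivAt.const_add z₀
  have k2 : Tendsto (fun q => z₀ + l q) (𝓝 0) (𝓝 z₀) := by simpa using (k1 0).continuousAt.tendsto
  obtain ⟨f, f1, f2⟩ := P278.exists_first_integral_graph (F := fun q => -T (N (z₀ + l q)))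
    (((T.analyticAt _).comp (AnalyticAt.comp (g := N) (by simpa using hN)
      (analyticAt_const.add (l.analyticAt 0)))).neg) (by
      filter_upwards [k2.eventually (h0.and h4)] with q a v w
      have b : HasFDerivAt (fun q => -T (N (z₀ + l q))) _ q :=
        (T.hasFDerivAt.comp q (a.1.2.differentiableAt.hasFDerivAt.comp q (k1 q))).neg
      rw [b.fderiv]
      simpa [T, hl, neg_add_eq_sub] using congrArg Neg.neg (a.2 v w))
  have k3 : ∀ z, HasFDerivAt (fun z => l.symm (z - z₀)) (l.symm : E →L[ℂ] _) z := fun z =>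
    l.symm.hasFDerivAt.comp z ((hasFDerivAt_id z).sub_const z₀)
  have k4 : Tendsto (fun z => l.symm (z - z₀)) (𝓝 z₀) (𝓝 0) := by
    simpa using (k3 z₀).continuousAt.tendsto
  have k5 : ∀ᶠ z in 𝓝 z₀, ∀ q, fderiv ℂ (fun z => f (l.symm (z - z₀))) z (l q) = 0 ↔
      q.2 = -N z q.1 := by
    filter_upwards [k4.eventually (f1.analyticAt.eventually_analyticAt.and f2)] with z a q
    have b : HasFDerivAt (fun z => f (l.symm (z - z₀))) _ z :=
      a.1.differentiableAt.hasFDerivAt.comp z (k3 z)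
    rw [b.fderiv]
    simpa [T] using a.2 q.1 q.2
  refine ⟨fun z => f (l.symm (z - z₀)), AnalyticAt.comp (g := f) (by simpa using f1.analyticAt)
    ((l.symm.analyticAt _).comp (analyticAt_id.sub analyticAt_const)), ?_, ?_⟩
  · exact Surjective.of_comp (g := j) (LinearMap.injective_iff_surjective.1
      ((injective_iff_map_eq_zero ((fderiv ℂ _ z₀).comp j).toLinearMap).2 fun w a => by
        simpa using (k5.self_of_nhds (0, w)).1 (by simpa [hl] using a)))
  · filter_upwards [k5, h2] with z a b v c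
    obtain ⟨q, rfl⟩ := l.surjective v
    rw [hl, (a q).1 c, map_neg, neg_add_eq_sub, b]

/-- factorisation through the first integrals -/
theorem fac {n d : ℕ} {φ u : Cm n → B} {z₀ : Cm n} (hφ : AnalyticAt ℂ φ z₀) (hu : AnalyticAt ℂ u z₀)
    (hs : Surjective (fderiv ℂ u z₀)) (hd : Module.finrank ℂ B + d = n)
    (h : ∀ᶠ z in 𝓝 z₀, ∀ v, fderiv ℂ u z v = 0 → fderiv ℂ φ z v = 0) :
    ∃ Φ : OpenPartialHomeomorph (Cm n) (B × Cm d), z₀ ∈ Φ.source ∧
      (∀ w ∈ Φ.source, AnalyticAt ℂ Φ w) ∧ (∀ v ∈ Φ.target, AnalyticAt ℂ Φ.symm v) ∧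
      ∀ᶠ z in 𝓝 z₀, φ z = φ (Φ.symm ((Φ z).1, (Φ z₀).2)) := by
  have := FiniteDimensional.complete ℂ B
  obtain ⟨Φ, P, h1, h2, h3, h4⟩ := P277Z.Slc.par hu hs hd
  refine ⟨Φ, h1, fun w hw => ((h3 w hw).prod (P.analyticAt w)).congr (.of_forall fun w =>
    (h2 w).symm), h4, ?_⟩
  obtain ⟨ρ, hρ, hb⟩ := Metric.eventually_nhds_iff_ball.1 (((Φ.tendsto_symm h1).eventually
    (hφ.eventually_analyticAt.and h)).and (Φ.open_target.mem_nhds (Φ.map_source h1)))
  filter_upwards [(Φ.continuousAt h1).eventually (Metric.ball_mem_nhds _ hρ),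
    Φ.open_source.mem_nhds h1] with z a b
  rw [← Metric.mem_ball, ← ball_prod_same] at a
  rw [← ball_prod_same] at hb
  have k : ∀ t ∈ Metric.ball (Φ z₀).2 ρ, HasFDerivAt (fun t => φ (Φ.symm ((Φ z).1, t)))
      (0 : Cm d →L[ℂ] B) t := by
    intro t c
    obtain ⟨⟨c1, c2⟩, c3⟩ := hb ((Φ z).1, t) ⟨a.1, c⟩
    have d := (h4 _ c3).differentiableAt.hasFDerivAt.comp t (hasFDerivAt_prodMk_right _ t)
    refine (c1.differentiableAt.hasFDerivAt.comp t d).congr_fderiv
      (ContinuousLinearMap.ext fun v => c2 _ (DFunLike.congr_fun (((h3 _ (Φ.map_target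
      c3)).differentiableAt.hasFDerivAt.comp t d).unique ((hasFDerivAt_const (Φ z).1
      t).congr_of_eventuallyEq ?_)) v))
    filter_upwards [Metric.isOpen_ball.mem_nhds c] with s e
    exact (congrArg Prod.fst (h2 _)).symm.trans
      (congrArg Prod.fst (Φ.right_inv (hb ((Φ z).1, s) ⟨a.1, e⟩).2) :)
  exact (congrArg φ (Φ.left_inv b)).symm.trans (Metric.isOpen_ball.is_const_of_fderiv_eq_zero
    (convex_ball _ _).isPreconnected (fun t c => (k t c).differentiableAt.differentiableWithinAt)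
    (fun t c => (k t c).fderiv) a.2 (Metric.mem_ball_self hρ))

end calc0

/-- the rule of Cramer -/
theorem cram {p n : ℕ} (M : Matrix (Fin p) (Fin n) ℂ) (I : Fin p → Fin n) {g : ℂ}
    {h : (Fin p → Fin n) → ℂ} (e : ∀ I, (M.submatrix id I).det = g * h I) (hg : g ≠ 0)
    (hI : h I ≠ 0) : M.submatrix id I * Matrix.of (fun b c => h (update I b c) / h I) = M := by
  ext a c
  have k : ∀ b, h (update I b c) / h I = (g * h I)⁻¹ * (M.submatrix id I).cramer (M · c) b := by
    intro b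
    rw [Matrix.cramer_apply, show (M.submatrix id I).updateCol b (M · c) = M.submatrix id
      (update I b c) from Matrix.ext fun a b' => by
        simp [Matrix.updateCol_apply, update_apply, apply_ite (M a)], e]
    field_simp
  have k' := congrFun ((M.submatrix id I).mulVec_cramer (M · c)) a
  simp only [Matrix.mul_apply, Matrix.of_apply, k, mul_left_comm _ (g * h I)⁻¹, ← Finset.mul_sum]
  exact (inv_mul_eq_iff_eq_mul₀ (mul_ne_zero hg hI)).2 (k'.trans (by rw [e]; rfl))

end Fro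

open Fro in
/-- **FROB** -/
theorem frob_of (hW : HW) : FROB := by
  intro p a D hD x₀
  obtain ⟨-, -, -, -, h1, h2⟩ := hW p a D hD
  have he := at_chart (n := p + a) x₀
  have he' := at_chart (n := p) (D.f x₀)
  set e := chartAt (Cm (p + a)) x₀
  set e' := chartAt (Cm p) (D.f x₀)
  have h3 := (at_near he).and (hD.hol.cont.continuousAt.eventually (at_near he'))
  obtain ⟨I, hI⟩ : ∃ I, Nz (minor D.f e e' I) x₀ := by
    by_contra! k
    obtain ⟨y, k1, k2, k3⟩ := ((h1.freq x₀).and_eventually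
      (h3.and (eventually_all.2 fun I => not_not.1 (k I)))).exists
    obtain ⟨τ, hτ⟩ := (ind_iff_minor (fun b => hD.hol.hol (hol_chart k2.2 b)) k2.1).1
      ((sbm_iff_ind (hD.hol.at y) k2.2).1 (h2 y (not_not.1 k1).1))
    refine hτ ((Matrix.det_transpose _).symm.trans (Eq.trans (congrArg _ ?_) (k3 τ)))
    exact Matrix.ext fun b c => (df_apply (hD.hol.at y) k2.1 k2.2 _ b).symm
  obtain ⟨g, h, h4⟩ := P277Z.GH.Pur.gcd_fam (fun I => hol_minor (hD.hol.at x₀) he he' I) hI
  refine ⟨_, inferInstance, h, ?_⟩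
  filter_upwards [h4.eventually_nhds, h3.eventually_nhds] with y k1 k2
  refine ⟨k1.self_of_nhds.2.2.1, k1.self_of_nhds.2.2.2.2, fun ⟨I, hI⟩ => ?_⟩
  obtain ⟨k3, k4⟩ := k2.self_of_nhds
  have k5 := k1.self_of_nhds.2.2.1
  have hφ := (hD.hol.at y).an k3 k4
  obtain ⟨u, u1, u2, u3⟩ := leaf (N := fun z => ∑ b, ∑ c, (h (update I b c) (e.symm z) /
      h I (e.symm z)) • (ContinuousLinearMap.single ℂ (fun _ => ℂ) b).comp (.proj c))
    (j := LinearMap.toContinuousLinearMap ((1 : Matrix _ _ ℂ).submatrix id I).mulVecLin) hφ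
    (Finset.analyticAt_fun_sum _ fun b _ => Finset.analyticAt_fun_sum _ fun c _ =>
      (((k5 _).div (k5 I) hI) e k3).smul analyticAt_const) (by
      filter_upwards [at_ev k3 (k1.and (k1.and (k2.and ((k5 I).ne_near hI))).eventually_nhds),
        e.open_target.mem_nhds k3.mem_target] with z m1 m2
      rw [← e.right_inv m2]
      refine (e.continuousAt (e.map_target m2)).tendsto.frequently
        (((not_eventually.1 m1.1.2.1).and_eventually m1.2).mono fun x ⟨n1, n2, n3, n4⟩ => ?_)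
      have n5 : ∀ w, fderiv ℂ (fun z => e' (D.f (e.symm z))) (e x)
          ((1 : Matrix _ _ ℂ).submatrix id I *ᵥ w) = (dfM D.f e e' x).submatrix id I *ᵥ w := fun w =>
        (dfM_mulVec _).symm.trans ((Matrix.mulVec_mulVec _ _ _).trans
          (congrArg (· *ᵥ w) (Matrix.mul_submatrix_one (Equiv.refl _) I _)))
      refine ⟨fun w w' m => Matrix.mulVec_injective_of_isUnit ((Matrix.isUnit_iff_isUnit_det _).2
        (n2.2.2.2.1 I ▸ mul_ne_zero n1 n4 : minor D.f e e' I x ≠ 0).isUnit)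
        ((n5 w).symm.trans (m.trans (n5 w'))), fun v => (n5 _).trans (Eq.trans ?_ (dfM_mulVec v))⟩
      conv_rhs => rw [← cram (dfM D.f e e' x) I (h := (h · x)) n2.2.2.2.1 n1 n4, ← Matrix.mulVec_mulVec]
      refine congrArg _ (funext fun b => ?_)
      simp [e.left_inv n3.1.2, Matrix.mulVec, dotProduct, Pi.single_apply])
  obtain ⟨Φ, t1, t2, t3, t4⟩ := fac (d := a) hφ u1 u2 (by simp) u3
  have t5 : Co (p + a) (e ≫ₕ Φ) := ⟨fun x hx => (anV_chart ⟨he.1, hx.1⟩).cmp (t2 _ hx.2),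
    fun v hv _ k => ((co_chart he.1).inv _ hv.2 _ k).fun_comp (t3 v hv.1)⟩
  have t6 : y ∈ (e ≫ₕ Φ).source := ⟨k3.2, t1⟩
  have t7 := (hD.hol.at _).cmp (t5.holA (F := fun s => (s, (Φ (e y)).2)) (y := (Φ (e y)).1)
    ((anV_chart (at_chart _)).prod (anV_const _ _)) ((e ≫ₕ Φ).map_source t6))
  refine ⟨e ≫ₕ Φ, _, t5, t6, t7, ?_⟩
  filter_upwards [(e.continuousAt k3.2).eventually t4, k2, (t7.cont.comp (f := fun x => (Φ (e x)).1)
    ((e ≫ₕ Φ).continuousAt t6).fst).eventually (at_near (e := e')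
      (((e ≫ₕ Φ).left_inv t6).symm ▸ k4 :))] with x m1 m2 m3
  exact e'.injOn m2.2.2 m3.2 (by rwa [e.left_inv m2.1.2] at m1)

end Vale.Agent.P281Z.U1
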