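import Vale.Agent.P281Z.U1.Defs

/-!
# P281Z, block U1: the density is log canonical; the general fibres meet the diagonal
-/

open scoped Manifold ContDiff Topology ENNReal
open Set Filter MeasureTheory
open Vale.Agent.P272.K Vale.Agent.P285.H281.FD
open Vale.Agent.P277Z (Hol Nz at_chart)
open Vale.Agent.P277Z.Slc (Ind LEq)
open Vale.Agent.P281Z.Gt

noncomputable section

namespace Vale.Agent.P281Z.U1

open Su

namespace LcAux

theorem pow_eq {m : ℕ} (hm : 2 ≤ m) (z : ℂ) :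
    ‖z‖ₑ ^ (2 : ℝ) * ‖z‖ₑ ^ (-(2 * ((((m - 1 : ℚ) / m : ℚ)) : ℝ))) = ‖z‖ₑ ^ (2 / m : ℝ) := by
  have h0 : (0 : ℝ) < m := by exact_mod_cast (by omega : 0 < m)
  by_cases hz : z = 0
  · rw [hz, enorm_zero, ENNReal.zero_rpow_of_pos two_pos, zero_mul,
      ENNReal.zero_rpow_of_pos (by positivity)]
  · rw [← ENNReal.rpow_add _ _ (by simpa using hz) enorm_ne_top]
    congr 1
    push_cast
    field_simp
    ring

theorem key {x h t t₀ C s η : ℝ} {b : ℕ} (hx : 0 ≤ x) (hh : 0 < h) (ht₀ : 0 < t₀) (ht : t₀ ≤ t)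
    (hs : 0 ≤ s) (hC : x * (h * t ^ b) ≤ C) : x ^ s * h ^ η ≤ (C / t₀ ^ b) ^ s * h ^ (η - s) := by
  have h1 : x * h ≤ C / t₀ ^ b := by
    rw [le_div_iff₀ (by positivity), mul_assoc]
    exact le_trans (by gcongr) hC
  have h2 : x ^ s * h ^ η = (x * h) ^ s * h ^ (η - s) := by
    rw [Real.mul_rpow hx hh.le, mul_assoc, ← Real.rpow_add hh, add_sub_cancel]
  rw [h2]
  gcongr

theorem exp_gt {c m : ℕ} {η : ℝ} (hm : 2 ≤ m) (hc : c ≤ m) (hη : 0 < η) :
    -2 < (c : ℝ) * (η - 2 / m) := by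
  have h0 : (0 : ℝ) < m := by exact_mod_cast (by omega : 0 < m)
  rcases Nat.eq_zero_or_pos c with rfl | h
  · simp
  · have h1 : (0 : ℝ) < c := by exact_mod_cast h
    have h2 : (c : ℝ) * (2 / m) ≤ 2 := by
      rw [← mul_div_assoc, div_le_iff₀ h0]
      have : (c : ℝ) ≤ m := by exact_mod_cast hc
      linarith
    nlinarith [mul_pos h1 hη]

theorem norm_mo {p a n : ℕ} {D : Su p a} (ζ : Fin n → D.κ → D.X.X → ℂ) (q : Pt D.toFb n) (r : ℝ) :
    ‖mo ζ q‖ ^ r = ∏ i : Fin n × D.κ, ‖ζ i.1 i.2 (q.2 i.1)‖ ^ (D.c i.2 * r) := by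
  rw [Fintype.prod_prod_type, mo, norm_prod, ← Real.finsetProd_rpow _ _ fun _ _ => norm_nonneg _]
  refine Finset.prod_congr rfl fun j _ => ?_
  rw [norm_prod, ← Real.finsetProd_rpow _ _ fun _ _ => norm_nonneg _]
  refine Finset.prod_congr rfl fun l _ => ?_
  rw [norm_pow, Real.rpow_mul (norm_nonneg _), Real.rpow_natCast]

theorem an_imm {n : ℕ} {X X₁ : Mf n} {u : X₁.X → X.X} (hu : HolM n n u) :
    An n {x | ¬ Imm n n u x} := fun x => by
  have he := at_chart (n := n) x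
  have he' := at_chart (n := n) (u x)
  refine ⟨1, fun _ y => (dfM u (chartAt (Cm n) x) (chartAt (Cm n) (u x)) y).det,
    fun _ => hol_det fun a b => hol_dfM (hu.at x) he he' a b, ?_⟩
  filter_upwards [at_near he, hu.cont.continuousAt.eventually (at_near he')] with y k k'
  rw [imm_iff_det (hu.at y) k k', not_not, forall_const]

variable {r : ℕ} (S : PS r)

theorem aff_pt (c : Cm r) : S.aff (S.pt (Fin.cons 1 c)) = c := by
  have h0 : (Fin.cons 1 c : Cm (r + 1)) ≠ 0 := fun h => one_ne_zero (congrFun h 0)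
  have h1 := (S.lb.cover (S.pt (Fin.cons 1 c))).choose_spec
  obtain ⟨k, hk⟩ := S.x_pt _ h0 _ h1
  have h2 : k ≠ 0 := fun h => S.xnz _ _ h1 (by rw [hk, h, zero_smul])
  funext j
  simp [PS.aff, PS.hx, hk, h2]

theorem pt_aff {q : S.P.X} (h : S.hx q 0 ≠ 0) : S.pt (Fin.cons 1 (S.aff q)) = q := by
  have h1 : (Fin.cons 1 (S.aff q) : Cm (r + 1)) = (S.hx q 0)⁻¹ • S.hx q := funext fun j => by
    induction j using Fin.cases with
    | zero => simp [h]
    | succ j => simp [PS.aff, div_eq_inv_mul]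
  rw [h1]
  exact S.pt_x _ _ _ (S.lb.cover q).choose_spec (inv_ne_zero h)

theorem tend_pt {q : S.P.X} (h : S.hx q 0 ≠ 0) :
    Tendsto (fun c : Cm r => S.pt (Fin.cons 1 c)) (𝓝 (S.aff q)) (𝓝 q) := by
  have h1 : Continuous fun c : Cm r => (Fin.cons 1 c : Cm (r + 1)) :=
    continuous_const.finCons continuous_id
  have h2 := (S.cont _ fun h => one_ne_zero (congrFun h 0)).comp (h1.continuousAt (x := S.aff q))
  rwa [ContinuousAt, Function.comp_apply, pt_aff S h] at h2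

end LcAux

open LcAux

theorem lc_of (h1 : DETX) (h2 : DETP) (h3 : HW) (h4 : INVV) (h5 : LIB) (h6 : INTS) : LC := by
  intro p a n b D P ξ hD hξ v hv
  classical
  choose ζ hζ _ using fun j => hD.snc ((P.γ v).2 j)
  have hm : (0 : ℝ) < D.m := by exact_mod_cast lt_of_lt_of_le two_pos hD.two
  have hz : ∀ j l, Hol (p + n * a) (fun y => ζ j l ((P.γ y).2 j)) v := fun j l =>
    ((P.tm v).x j).hol (hζ j l).hol
  have hne : ∀ᶠ y in 𝓝 v, y ∉ P.A → mo ζ (P.γ y) ≠ 0 := by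
    filter_upwards [eventually_all.2 fun j => eventually_all.2 fun l =>
      ((P.tm v).x j).cont.eventually (hζ j l).1] with y k hy
    exact Finset.prod_ne_zero_iff.2 fun j _ => Finset.prod_ne_zero_iff.2 fun l _ =>
      pow_ne_zero _ fun e => (not_not.1 hy).2 j l ((k j l).1 e)
  refine ⟨fun y => mo ζ (P.γ y), .prod _ fun j _ => .prod _ fun l _ => (hz j l).pow _, fun h => ?_,
    fun η hη => ?_⟩
  · obtain ⟨y, k1, k2, k3⟩ := ((P.thin.freq v).and_eventually (hne.and h)).exists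
    exact k2 k1 k3
  have hf : ∀ j, D.f ((P.γ v).2 j) = (P.γ v).1 := (P.tm v).fp.self_of_nhds
  have he' := at_chart (n := p) (P.γ v).1
  choose w τ w1 w2 w3 using fun j => (h1 p a D hD).ind _ _ _ _ ((hf j).symm ▸ he')
    (hD.reg _ hv _ (hf j) _ he' (ζ j) (hζ j))
  let I : Fin n × D.κ → Prop := fun i => (P.γ v).2 i.1 ∈ D.G i.2
  let F : Fin n × D.κ → P.V.X → ℝ := fun i y =>
    ‖ζ i.1 i.2 ((P.γ y).2 i.1)‖ ^ (D.c i.2 * (η - 2 / D.m))
  have hI : Ind (p + n * a) (fun (i : {i // I i}) y => ζ i.1.1 i.1.2 ((P.γ y).2 i.1.1)) v := by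
    have k := ((h2 p a n D P hD).2 v _ _ w (at_chart v) he' hv w1).2.comp
      (fun i : {i // I i} => Fin.natAdd p (finProdFinEquiv (i.1.1, τ i.1.1 ⟨i.1.2, i.2⟩))) (by
        rintro ⟨⟨j, l⟩, hi⟩ ⟨⟨j', l'⟩, hi'⟩ e
        obtain ⟨rfl, e⟩ := Prod.ext_iff.1 (finProdFinEquiv.injective (Fin.natAdd_injective _ _ e))
        obtain rfl : l = l' := congrArg Subtype.val (w2 _ e)
        rfl)
    simpa only [cow, Fin.append_right, Equiv.symm_apply_apply, w3] using k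
  have hc : ContinuousAt (fun y => ∏ i : {i // ¬I i}, F i y) v :=
    tendsto_finsetProd _ fun i _ => (hz _ _).cont.norm.rpow_const
      (Or.inl (norm_ne_zero_iff.2 fun e => i.2 ((hζ _ _).mem.1 e)))
  obtain ⟨-, t1, t2, -⟩ := h3 p a D hD
  have t3 : 0 < D.tz (P.γ v).1 := (t2 _).1.lt_of_ne fun e => hv ((t2 _).2.2.1 e.symm)
  obtain ⟨C, hC⟩ := (h4 p a n _ b D P hD).2 ξ hξ v _ (at_chart v) ζ hζ
  refine h5 _ P.V P.A _ _ v _ (ENNReal.ofReal ((C / (D.tz (P.γ v).1 / 2) ^ b) ^ (2 / D.m : ℝ) *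
    (∏ i : {i // ¬I i}, F i v + 1))) P.thin (at_chart v) ENNReal.ofReal_ne_top
    (fun y hy E E₁ k k₁ => ?_)
    (h6 _ P.V _ _ (fun i => D.c i.1.2 * (η - 2 / D.m)) v hI fun i => exp_gt hD.two (hD.le _) hη) ?_
  · have k2 : ξ E y = (jacM E E₁ y).det ^ D.m * ξ E₁ y := hξ.ms.chg E E₁ y k k₁ hy
    rw [dens, dens, pow_eq hD.two, pow_eq hD.two, k2, enorm_mul,
      ENNReal.mul_rpow_of_nonneg _ _ (by positivity), enorm_pow, ← ENNReal.rpow_natCast,
      ← ENNReal.rpow_mul, mul_div_cancel₀ _ hm.ne', ENNReal.rpow_two]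
    ring
  · filter_upwards [hne, hC, hc.eventually (gt_mem_nhds (lt_add_one _)),
      (t1.continuousAt.comp (P.tm v).b.cont).eventually (lt_mem_nhds (half_lt_self t3))]
      with y k1 k2 k3 k4 hy
    have k5 := key (η := η) (norm_nonneg _) (norm_pos_iff.2 (k1 hy)) (half_pos t3) k4.le
      (by positivity : 0 ≤ (2 / D.m : ℝ)) (k2 hy)
    have k6 : 0 ≤ (C / (D.tz (P.γ v).1 / 2) ^ b) ^ (2 / D.m : ℝ) :=
      Real.rpow_nonneg (div_nonneg (le_trans (mul_nonneg (norm_nonneg _) (mul_nonneg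
        (norm_nonneg _) (pow_nonneg (t2 _).1 _))) (k2 hy)) (by positivity)) _
    have k7 : 0 ≤ ∏ i : {i // I i}, F i y := Finset.prod_nonneg fun i _ => by positivity
    have k8 : 0 ≤ ∏ i : {i // ¬I i}, F i y := Finset.prod_nonneg fun i _ => by positivity
    rw [dens, pow_eq hD.two, ← ofReal_norm, ← ofReal_norm,
      ENNReal.ofReal_rpow_of_nonneg (norm_nonneg _) (by positivity),
      ENNReal.ofReal_rpow_of_nonneg (norm_nonneg _) hη.le, ← ENNReal.ofReal_mul (by positivity),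
      ← ENNReal.ofReal_mul (mul_nonneg k6 (k8.trans k3.le))]
    refine ENNReal.ofReal_le_ofReal (k5.trans ?_)
    rw [norm_mo, ← Fintype.prod_subtype_mul_prod_subtype I, mul_assoc, mul_comm (_ + 1)]
    exact mul_le_mul_of_nonneg_left (mul_le_mul_of_nonneg_left k3.le k7) k6

theorem opn_of (h3 : HW) : OPN := by
  intro p a n K b D P ξ hD hξ
  obtain ⟨v, hv, x, hx, hξ0⟩ := hξ.nv
  obtain ⟨hψ, -, -, -, -, hs⟩ := h3 p a D hD
  have hQ : (P.γ v).1 ∉ D.Q := (not_not.1 hv).1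
  obtain ⟨l, l1, l2⟩ := P.lift (p + a) D.X.X (dg n) x
    ⟨hD.hol.at x, fun _ => holM_id.at x, .of_forall fun _ _ => rfl⟩ (hx ▸ hQ) ⟨v, hx⟩
  obtain rfl : l x = v := P.inj _ _ (l2.self_of_nhds.trans hx.symm) hQ
  have he := at_chart (n := K) (l x)
  have k1 : ∀ᶠ y in 𝓝 x, l y ∉ P.A ∧ P.γ (l y) = dg n y ∧ ξ (chartAt _ (l y)) (l y) ≠ 0 := by
    filter_upwards [l2, l1.cont.eventually (P.thin.closed.isOpen_compl.mem_nhds hv),
      l1.cont.eventually (at_near he),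
      l1.cont.eventually ((hξ.ms.hol _ _ he hv).ne_near hξ0)] with y k1 k2 k3 k4
    refine ⟨k2, k1, fun e => k4 ?_⟩
    rw [hξ.ms.chg _ _ _ k3 (at_chart (l y)) k2, e, mul_zero]
  have := hD.conn
  have : ConnectedSpace D.Y.X := hD.surj.connectedSpace hD.hol.cont
  have k2 : Thin p {z | ¬Imm p p D.ψ z} := (an_imm hψ).thin fun e =>
    hD.imm.elim fun z hz => e.ge (mem_univ z) hz
  obtain ⟨y, y1, y2⟩ := (((hs x (hx ▸ hQ : (dg n x).1 ∉ D.Q)).freq (hD.hol.at x)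
    (k2.freq _)).and_eventually k1.eventually_nhds).exists
  have y3 : D.f y ∉ D.Q := (y2.self_of_nhds.2.1 ▸ (not_not.1 y2.self_of_nhds.1).1 :
    (dg n y).1 ∉ D.Q)
  have y4 := (tend_pt D.S y3).eventually ((Sbm.comp (hψ.at _) (hD.hol.at y)
    (imm_iff_sbm.1 (not_not.1 y1)) (hs y y3)).ev ((hψ.at _).cmp (hD.hol.at y)) y2)
  refine frequently_ae_iff.2 (Measure.measure_pos_of_mem_nhds volume (y4.mono ?_)).ne'
  rintro c ⟨z, ⟨z1, z2, z3⟩, z4⟩
  refine ⟨l z, z1, z, z2, z3, ?_⟩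
  rw [Pw0.φ, z2]
  exact (congrArg D.S.aff z4).trans (aff_pt D.S c)

end Vale.Agent.P281Z.U1
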