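import Vale.Agent.P281Z.U1.Defs
import Vale.Agent.P281Z.En.Kap2

/-!
# P281Z, block U1: the extension of a pluricanonical form across `A'`
-/

open scoped Manifold ContDiff Topology
open Set Filter
open Vale.Agent.P272.K Vale.Agent.P285.H281.FD
open Vale.Agent.P277Z (Hol Mer gen at_chart)
open Vale.Agent.P277Z.Slc (LEq isLB_can)
open Vale.Agent.P281Z.Gt
open Vale.Agent.P281Z.Md (Bnd)

noncomputable section

namespace Vale.Agent.P281Z.U1

open Su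

namespace Nrm

variable {p a n k : ℕ} {D : Su p a} {T : Type} [TopologicalSpace T] [ChartedSpace (Cm k) T]
  {ζ : Fin n → D.κ → D.X.X → ℂ}

/-- the weight -/
def wt (ζ : Fin n → D.κ → D.X.X → ℂ) (b : ℕ) (q : Pt D.toFb n) : ℝ := ‖mo ζ q‖ * D.tz q.1 ^ b

theorem ex_le (hD : D.Ok) (q : Pt D.toFb n) : ∃ ζ, Le ζ q := by
  choose ζ h _ using fun j => hD.snc (q.2 j)
  exact ⟨ζ, h⟩

theorem le_near {g : T → Pt D.toFb n} {t : T} (hg : Tm k g t) (h : Le ζ (g t)) :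
    ∀ᶠ s in 𝓝 t, Le ζ (g s) :=
  eventually_all.2 fun j => eventually_all.2 fun l => (hg.x j).cont.eventually (h j l).near

theorem wt_cont (hc : Continuous D.tz) {g : T → Pt D.toFb n} {t : T}
    (h1 : ContinuousAt (fun s => (g s).1) t) (h2 : ∀ j, ContinuousAt (fun s => (g s).2 j) t)
    (h : Le ζ (g t)) (b : ℕ) : ContinuousAt (fun s => wt ζ b (g s)) t :=
  (ContinuousAt.norm (tendsto_finsetProd _ fun j _ => tendsto_finsetProd _ fun l _ =>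
    (ContinuousAt.comp (f := fun s => (g s).2 j) (h j l).hol.cont (h2 j)).pow _)).mul
    ((hc.continuousAt.comp h1).pow b)

theorem wt_pos (hz : ∀ z, 0 ≤ D.tz z ∧ D.tz z ≤ 1 ∧ (D.tz z = 0 ↔ z ∈ D.Q)) {q : Pt D.toFb n}
    (hq : q ∈ D.Nq n) (h : Le ζ q) (b : ℕ) : 0 < wt ζ b q :=
  mul_pos (norm_pos_iff.2 (Finset.prod_ne_zero_iff.2 fun j _ => Finset.prod_ne_zero_iff.2
    fun l _ => pow_ne_zero _ (mt (h j l).mem.1 (hq.2 j l))))
    (pow_pos (lt_of_le_of_ne (hz _).1 (Ne.symm (mt (hz _).2.2.1 hq.1))) b)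

end Nrm

open Nrm

/-- **NRM** -/
theorem nrm_of (hW : HW) (hP : PBC) (hV : INVV) : NRM := by
  intro p a n K b D P ξ' A' hD hA hT hM hI
  obtain ⟨-, hc, hz, -⟩ := hW p a D hD
  have hcl : IsClosed P.A := P.thin.closed
  have hL : IsLB K ((Bd.can K P.V.X).pow D.m) := lb_pow isLB_can D.m
  have hN : ∀ {y}, y ∉ A' → P.γ y ∈ D.Nq n := fun h => not_not.1 fun k => h (hA k)
  have hb : ∀ E : Chart K P.V.X, ∀ v ∈ P.Aᶜ, At E v →
      ∃ C : ℝ, ∀ᶠ y in 𝓝 v, y ∉ A' → ‖ξ' E y‖ ≤ C := by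
    intro E v hv hE
    obtain ⟨ζ, hζ⟩ := ex_le hD (P.γ v)
    obtain ⟨C, hC⟩ := hI _ _ _ ((hV p a n K b D P hD).1 v E hE) ζ
      (by rw [E.left_inv hE.2]; exact hζ)
    have h0 := Nrm.wt_pos hz (not_not.1 hv) hζ b
    have h1 := wt_cont hc (P.tm v).b.cont (fun j => ((P.tm v).x j).cont) hζ b
    refine ⟨C / (wt ζ b (P.γ v) / 2), ?_⟩
    filter_upwards [(E.continuousAt hE.2).eventually hC, at_near hE,
      h1.eventually (lt_mem_nhds (half_lt_self h0))] with y k1 k2 k3 k4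
    have k5 := k1 (by
      change P.γ (E.symm (E y)) ∈ D.Nq n ∧ E.symm (E y) ∉ A'
      rw [E.left_inv k2.2]
      exact ⟨hN k4, k4⟩)
    change ‖pb D.m ξ' E.symm (E y)‖ * wt ζ b (P.γ (E.symm (E y))) ≤ C at k5
    rw [E.left_inv k2.2, (hP K D.m P.V A' ξ' hT.closed hM).2 E y k2 k4] at k5
    rw [le_div_iff₀ (half_pos h0)]
    exact (mul_le_mul_of_nonneg_left k3.le (norm_nonneg _)).trans k5
  obtain ⟨ξ, x1, x2, x3⟩ := En.K2.ext_sec (s := ξ') hL hT hcl.isOpen_compl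
    (fun E x _ hE k => hM.hol E x hE k) (fun E E' x _ hE hE' k => hM.chg E E' x hE hE' k) hb
  have x4 : ∀ E v, At E v → v ∉ A' → ξ E v = ξ' E v := fun E v hE k =>
    x3 E v (fun c => k (hA c)) hE k
  have hξ : MS K P.A ((Bd.can K P.V.X).pow D.m) ξ := by
    refine ⟨fun E x hE k => x1 E x k hE, fun E E' x hE hE' k => x2 E E' x k hE hE',
      fun E x hE => ?_⟩
    obtain ⟨u, v, h1, h2, h3, h4⟩ := hM.mer E x hE
    refine ⟨u, v, h1, h2, h3, ?_⟩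
    filter_upwards [h4, hT.gen x, P277Z.gen_of_nhds (at_near hE)] with y k1 k2 k3
    rw [x4 E y k3 k2, k1]
  refine ⟨ξ, hξ, fun β l t₀ hB ζ hζ => ?_, x4⟩
  obtain ⟨C, hC⟩ := hI β l t₀ hB ζ hζ
  refine ⟨C, ?_⟩
  filter_upwards [hC.eventually_nhds, hB.lift.eventually_nhds, le_near hB.tm hζ, hB.tm.b.near,
    eventually_all.2 fun j => (hB.tm.x j).near] with t k1 k2 k3 k4 k5 k6
  obtain ⟨l1, l2, l3⟩ := k2.self_of_nhds k6.1.1
  have hl : l t ∉ P.A := fun c => c (l1 ▸ k6.1)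
  have c1 : ContinuousAt (pb D.m ξ l) t :=
    ((hP K D.m P.V P.A ξ hcl hξ).1 l t l2 hl).1.continuousAt
  have c2 := wt_cont hc k4.cont (fun j => (k5 j).cont) k3 b
  have f1 : ∃ᶠ s in 𝓝 t, l s ∉ A' := (imm_iff_sbm.1 l3).freq l2 (hT.freq (l t))
  have e1 : ∀ᶠ s in 𝓝 t, (β s).1 ∉ D.Q :=
    k4.cont.eventually (hD.thin.closed.isOpen_compl.mem_nhds k6.1.1)
  refine isClosed_Iic.mem_of_frequently_of_tendsto
    ((f1.and_eventually (k1.and (k2.and e1))).mono fun s m => ?_) (c1.norm.mul c2)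
  have h := m.2.1 ⟨(m.2.2.1 m.2.2.2).1 ▸ hN m.1, m.1⟩
  have e : pb D.m ξ l s = pb D.m ξ' l s := by
    unfold pb
    rw [x4 _ _ (at_chart _) m.1]
  change ‖pb D.m ξ l s‖ * wt ζ b (β s) ≤ C
  rw [e]
  exact h

end Vale.Agent.P281Z.U1
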