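import Vale.Agent.P281Z.U1.Defs
import Vale.Agent.P281Z.Md.Ext
import Vale.Agent.P281Z.Sc.Sy

/-!
# P281Z, block U1: products of forms with poles; from sections to forms with poles
-/

open scoped Manifold ContDiff Topology
open Set Filter
open Vale.Agent.P272.K Vale.Agent.P285.H281.FD
open Vale.Agent.P277Z (Hol at_chart)
open Vale.Agent.P277Z.Slc (LEq isLB_can)
open Vale.Agent.P277.HD (pull)
open Vale.Agent.P281Z.Md (Bnd)

noncomputable section

namespace Vale.Agent.P281Z.U1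

namespace Pf

variable {p a k i u b : ℕ} {D : Su p a} {σ : Chart (p + a) D.X.X → Chart p D.Y.X → D.X.X → ℂ}
  {x : D.X.X} {e : Chart (p + a) D.X.X} {e' : Chart p D.Y.X}

theorem near (hD : D.Ok) (he : At e x) (he' : At e' (D.f x)) :
    ∀ᶠ y in 𝓝 x, At e y ∧ At e' (D.f y) :=
  (at_near he).and (hD.hol.cont.continuousAt.eventually (at_near he'))

theorem nv_iff (h : D.PF k i u b σ) (hx : x ∈ D.Nx) (he : At e x) (he' : At e' (D.f x)) :
    D.Nv σ x ↔ σ e e' x ≠ 0 := by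
  have h1 := h.chg e _ e' _ x hx he (at_chart x) he' (at_chart _)
  have h2 := pow_ne_zero i (isLB_can.ne_zero e' _ _ he' (at_chart _))
  have h3 := pow_ne_zero k (isLB_can.ne_zero e _ _ he (at_chart _))
  exact not_congr ((mul_eq_zero_iff_left h3).symm.trans
    ((congrArg (· = 0) h1).symm.to_iff.trans (mul_eq_zero_iff_right h2)))

theorem nv_near (hD : D.Ok) (hT : Thin (p + a) D.Nxᶜ) (h : D.PF k i u b σ) (hx : x ∈ D.Nx) :
    ∀ᶠ y in 𝓝 x, y ∈ D.Nx ∧ (D.Nv σ y ↔ σ (chartAt _ x) (chartAt _ (D.f x)) y ≠ 0) := by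
  filter_upwards [(isClosed_compl_iff.1 hT.closed).mem_nhds hx, near hD (at_chart x) (at_chart _)]
    with y h1 h2 using ⟨h1, nv_iff h h1 h2.1 h2.2⟩

theorem nv_dense (hD : D.Ok) (hT : Thin (p + a) D.Nxᶜ) (h : D.PF k i u b σ)
    (h0 : ∃ x ∈ D.Nx, D.Nv σ x) : D.Nx ⊆ closure {x | D.Nv σ x} := by
  have := hD.conn
  refine dense_of_loc (compl_compl D.Nx ▸ hT.preconn) (fun x hx k => ?_) h0
  have h2 := nv_near hD hT h hx
  filter_upwards [h2, hol_id (h.hol _ _ x hx (at_chart x) (at_chart _))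
    ((k.and_eventually h2.eventually_nhds).mono fun y hy => (hy.1.and hy.2).mono fun z hz =>
      by_contra fun e => hz.1 (hz.2.2.2 e))] with y h3 h4 h5 using h3.2.1 h5 h4

end Pf

open Pf

theorem pfm_of (hw : HW) : PFM := by
  intro p a D k i u b k' i' u' b' σ σ' hD h h'
  obtain ⟨-, -, w1, w2, hT, -⟩ := hw p a D hD
  have nn : ∀ (σ : D.X.X → ℂ) (ζ : D.κ → D.X.X → ℂ) u b y,
      0 ≤ ‖σ y‖ * ((∏ l, ‖ζ l y‖ ^ D.c l) ^ u * D.tz (D.f y) ^ b) := fun σ ζ u b y => by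
    have := (w1 (D.f y)).1
    positivity
  refine ⟨⟨fun e e' x hx he he' => (h.hol e e' x hx he he').mul (h'.hol e e' x hx he he'),
    fun e e₁ e' e₁' x hx h1 h2 h3 h4 => by
      rw [pow_add, mul_mul_mul_comm, h.chg e e₁ e' e₁' x hx h1 h2 h3 h4,
        h'.chg e e₁ e' e₁' x hx h1 h2 h3 h4, pow_add, mul_mul_mul_comm],
    fun e e' x ζ he he' hζ => ((h.bd e e' x ζ he he' hζ).mul (h'.bd e e' x ζ he he' hζ)
      (nn _ _ _ _) (nn _ _ _ _)).mono (.of_forall fun y hy => ⟨hy, le_of_eq ?_⟩)⟩,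
    fun h0 ⟨x, hx, h1⟩ => ?_, fun x e e' ζ j he he' hj hζ => ?_⟩
  · rw [norm_mul, pow_add, pow_add]
    ring
  · obtain ⟨y, h2, h3, h4⟩ := ((mem_closure_iff_frequently.1
      (nv_dense hD hT h h0 hx)).and_eventually ((nv_near hD hT h' hx).and
        ((h'.hol _ _ x hx (at_chart x) (at_chart _)).ne_near h1))).exists
    exact ⟨y, h3.1, h2, h3.2.2 h4⟩
  obtain ⟨C, hC, h1⟩ := (w2 j _ hj).1
  obtain ⟨g, g1, g2⟩ := Md.riem (S := D.Nx) (h := fun y =>
      σ e e' y * ((∏ l, ζ l y ^ D.c l) ^ u * D.α j (D.f y) 0 ^ b))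
    (compl_compl D.Nx ▸ Md.gn_of_thin hT x) (by
      filter_upwards [near hD he he', eventually_all.2 fun l => (hζ l).hol.near,
        (hD.hol.hol (sec_hol (hD.sec 0) hj)).near] with y a1 a2 a3 a4
      exact (h.hol e e' y a4 a1.1 a1.2).mul
        (((P277Z.Hol.prod _ fun l _ => (a2 l).pow _).pow u).mul (a3.pow b)))
    (((Md.bnd_cont (F := fun _ => C ^ b) continuousAt_const).mul (h.bd e e' x ζ he he' hζ)
      (fun _ => by positivity) (nn _ _ _ _)).mono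
      ((hD.hol.cont.continuousAt.eventually h1).mono fun y a1 a2 => ⟨a2, by
        simp only [norm_mul, norm_pow, norm_prod]
        rw [mul_left_comm (C ^ b), mul_left_comm (C ^ b), ← mul_pow]
        gcongr
        exact a1.2⟩))
  exact ⟨g, g1, g2.mono fun y a1 a2 => (a1 a2).symm⟩

theorem topf_of (hw : HW) : TOPF := by
  intro p a D b σ hD hσ ⟨x₀, h0⟩
  obtain ⟨-, -, w1, w2, hT, -⟩ := hw p a D hD
  choose j hj using fun x => hD.lb.cover (D.f x)
  have nz : ∀ j, ∀ x ∈ D.Nx, D.f x ∈ D.B.U j → D.α j (D.f x) 0 ≠ 0 := fun j x hx h k =>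
    hx.1 ((w2 j _ h).2.1 k)
  have eq : ∀ e j', ∀ x ∈ D.Nx, At e x → D.f x ∈ D.B.U j' →
      σ (e, j x) x / D.α (j x) (D.f x) 0 ^ b = σ (e, j') x / D.α j' (D.f x) 0 ^ b :=
    fun e j' x hx he h => by
      have h1 := hD.lb.ne_zero _ _ _ (hj x) h
      have h2 : σ (e, j x) x = (Bd.can (p + a) D.X.X).g e e x ^ D.m * D.B.g (j x) j' (D.f x) ^ b *
        σ (e, j') x := hσ.chg (e, j x) (e, j') x trivial ⟨he, hj x⟩ ⟨he, h⟩ hx.2
      rw [h2, lb_self isLB_can he, (hD.sec 0).change _ _ _ (hj x) h, one_pow, one_mul, mul_pow,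
        mul_div_mul_left _ _ (pow_ne_zero b h1)]
  have ev : ∀ e x, At e x → ∀ᶠ y in 𝓝 x, y ∈ D.Nx →
      σ (e, j y) y / D.α (j y) (D.f y) 0 ^ b = σ (e, j x) y / D.α (j x) (D.f y) 0 ^ b :=
    fun e x he => by
      filter_upwards [at_near he, hD.hol.cont.continuousAt.eventually (lb_near hD.lb (hj x))]
        with y a1 a2 a3 using eq e _ y a3 a1 a2
  refine ⟨fun e _ x => σ (e, j x) x / D.α (j x) (D.f x) 0 ^ b, ⟨fun e e' x hx he _ => ?_,
    fun e e₁ e' e₁' x hx h1 h2 _ _ => ?_, fun e e' x ζ he _ hζ => ?_⟩, ?_⟩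
  · refine ((hσ.hol (e, j x) x trivial ⟨he, hj x⟩ hx.2).div
      ((hD.hol.hol (sec_hol (hD.sec 0) (hj x))).pow b) (pow_ne_zero b (nz _ x hx (hj x)))).congr ?_
    filter_upwards [ev e x he, (isClosed_compl_iff.1 hT.closed).mem_nhds hx] with y a1 a2
      using (a1 a2).symm
  · have h3 : σ (e, j x) x = (jacM e e₁ x).det ^ D.m * D.B.g (j x) (j x) (D.f x) ^ b *
      σ (e₁, j x) x := hσ.chg (e, j x) (e₁, j x) x trivial ⟨h1, hj x⟩ ⟨h2, hj x⟩ hx.2
    rw [h3, lb_self hD.lb (hj x), one_pow, mul_one, pow_zero, mul_one, mul_div_assoc]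
  · obtain ⟨C, hC, h1⟩ := (w2 _ _ (hj x)).1
    obtain ⟨C', h2⟩ := hσ.bd (e, j x) x trivial ⟨he, hj x⟩ ζ hζ
    refine ⟨C ^ b * C', ?_⟩
    filter_upwards [ev e x he, hD.hol.cont.continuousAt.eventually h1, h2,
      hD.hol.cont.continuousAt.eventually (lb_near hD.lb (hj x))] with y a1 a2 a3 a4 a5
    have h3 := norm_pos_iff.2 (nz _ y a5 a4)
    have h4 := (w1 (D.f y)).1
    replace a3 := a3 a5.2
    simp only [Real.rpow_natCast, id] at a3
    rw [a1 a5, norm_div, norm_pow, pow_one, div_mul_eq_mul_div, ← mul_assoc, mul_div_assoc,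
      ← div_pow, mul_comm]
    exact mul_le_mul (pow_le_pow_left₀ (by positivity) ((div_le_iff₀ h3).2 a2.1) b) a3
      (by positivity) (by positivity)
  · obtain ⟨x, h1, h2⟩ := hT.dense.exists_mem_open (hσ.open_nz (Hyp.of_snc hD.snc) continuous_id
      (lb_mul (lb_pow isLB_can _) (hD.hol.lb (lb_pow hD.lb b)))) ⟨x₀, h0⟩
    rw [compl_compl] at h1
    exact ⟨x, h1, div_ne_zero (h2.2 _ ⟨at_chart x, hj x⟩) (pow_ne_zero b (nz _ x h1 (hj x)))⟩

end Vale.Agent.P281Z.U1
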