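import Vale.Agent.P281Z.U1.Defs
import Vale.Agent.P281Z.St.Prj
import Vale.Agent.P281Z.St.Fins
import Mathlib.Analysis.Analytic.Polynomial

/-!
# P281Z, block U1: a projection with a given thin set in the hyperplane at infinity
-/

open scoped Manifold ContDiff Topology
open Set Filter Function
open Vale.Agent.P272.K Vale.Agent.P285.H281.FD
open Vale.Agent.P277Z (Hol at_chart)

noncomputable section

namespace Vale.Agent.P281Z.U1

namespace Pq

theorem euler {E F : Type} [NormedAddCommGroup E] [NormedSpace ℂ E] [NormedAddCommGroup F]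
    [NormedSpace ℂ F] {P : E → F} {v : E} {e : ℕ} (h : DifferentiableAt ℂ P v)
    (k : ∀ c : ℂ, P (c • v) = c ^ e • P v) : fderiv ℂ P v v = (e : ℂ) • P v := by
  have h1 : HasDerivAt (fun c : ℂ => P (c • v)) (fderiv ℂ P v v) 1 := by
    simpa [comp_def] using HasFDerivAt.comp_hasDerivAt_of_eq (1 : ℂ) h.hasFDerivAt
      ((hasDerivAt_id (1 : ℂ)).smul_const v) (one_smul ℂ v).symm
  have h2 := (hasDerivAt_pow e (1 : ℂ)).smul_const (P v)
  rw [one_pow, mul_one] at h2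
  exact h1.unique (by simpa only [k] using h2)

variable {r d : ℕ} {g : Cm (r + 1) → ℂ}

theorem hom (g1 : ∀ v, AnalyticAt ℂ g v) (g2 : ∀ (c : ℂ) v, g (c • v) = c ^ (d + 1) * g v) {c : ℂ}
    (hc : c ≠ 0) (v w : Cm (r + 1)) : fderiv ℂ g (c • v) w = c ^ d * fderiv ℂ g v w := by
  have h1 : HasFDerivAt (fun v => g (c • v)) _ v :=
    (g1 (c • v)).differentiableAt.hasFDerivAt.comp v ((hasFDerivAt_id v).const_smul c)
  have h2 := (g1 v).differentiableAt.hasFDerivAt.const_mul (c ^ (d + 1))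
  have h3 := DFunLike.congr_fun (h1.unique (by simpa only [g2] using h2)) w
  refine mul_left_cancel₀ hc ?_
  simpa [pow_succ', mul_assoc] using h3

theorem proj {v : Cm (r + 1)} (hv : v ≠ 0) : ∃ (Λ : Cm (r + 1) →L[ℂ] Cm r) (u : Cm (r + 1)),
    (∀ w, Λ w = 0 → ∃ c : ℂ, w = c • v) ∧ Λ v = 0 ∧ ∀ i, Λ u i ≠ 0 := by
  obtain ⟨l, hl⟩ := Function.ne_iff.1 hv
  refine ⟨.pi fun j => v l • .proj (l.succAbove j) - v (l.succAbove j) • .proj l, update 1 l 0,
    fun w hw => ⟨w l / v l, funext fun a => ?_⟩, funext fun j => by simp [mul_comm],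
    fun j => by simpa using hl⟩
  rw [Pi.smul_apply, smul_eq_mul, div_mul_eq_mul_div, eq_div_iff hl]
  induction a using Fin.succAboveCases l with
  | x => rfl
  | p j =>
    have h : v l * w (l.succAbove j) - v (l.succAbove j) * w l = 0 := congrFun hw j
    linear_combination h

/-- a self map of the projective space with the first coordinate `g` -/
theorem ex (g1 : ∀ v, AnalyticAt ℂ g v) (g2 : ∀ (c : ℂ) v, g (c • v) = c ^ (d + 1) * g v)
    {v₀ : Cm (r + 1)} (g3 : g v₀ ≠ 0) :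
    ∃ (P : Cm (r + 1) → Cm (r + 1)) (f : Cm (r + 1) → ℂ) (e : ℕ), (∀ v, AnalyticAt ℂ P v) ∧
      (∀ (c : ℂ) v, P (c • v) = c ^ (d + 1) • P v) ∧ (∀ v ≠ 0, P v ≠ 0) ∧ (∀ v, P v 0 = g v) ∧
      (∀ v, AnalyticAt ℂ f v) ∧ (∀ (c : ℂ) v, f (c • v) = c ^ e * f v) ∧ (∃ v, f v ≠ 0) ∧
      ∀ v, f v ≠ 0 → g v ≠ 0 ∧ ∀ η, fderiv ℂ P v η = 0 → η = 0 := by
  have g0 : g 0 = 0 := by simpa using g2 0 0
  obtain ⟨Λ, u, h1, h2, h3⟩ := proj (v := v₀) fun k => g3 (k ▸ g0)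
  have h4 : ∀ i v, AnalyticAt ℂ (fun v => Λ v i) v := fun i v =>
    analyticAt_pi_iff.1 (Λ.analyticAt v) i
  have h5 : ∀ v, AnalyticAt ℂ (fun v => fderiv ℂ g v v₀) v := fun v =>
    ((ContinuousLinearMap.apply ℂ ℂ v₀).analyticAt _).fun_comp (g1 v).fderiv
  have h6 : ∀ a v, AnalyticAt ℂ
      (fun v => (Fin.cons (g v) fun i => Λ v i ^ (d + 1) : Cm (r + 1)) a) v := fun a v =>
    Fin.cases (g1 v) (fun i => (h4 i v).pow _) a
  refine ⟨fun v => Fin.cons (g v) fun i => Λ v i ^ (d + 1),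
    fun v => g v * (∏ i, Λ v i) * fderiv ℂ g v v₀, d + 1 + r + d, fun v => .pi fun a => h6 a v,
    fun c v => funext fun a => Fin.cases (g2 c v) (fun i => by simp [mul_pow]) a,
    fun v hv k => ?_, fun _ => rfl,
    fun v => ((g1 v).mul (Finset.analyticAt_fun_prod _ fun i _ => h4 i v)).mul (h5 v),
    fun c v => ?_, ?_, fun v hv => ⟨left_ne_zero_of_mul (left_ne_zero_of_mul hv), fun η k => ?_⟩⟩
  · obtain ⟨c, rfl⟩ := h1 v (funext fun i => eq_zero_of_pow_eq_zero (congrFun k i.succ))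
    exact mul_ne_zero (pow_ne_zero _ (left_ne_zero_of_smul hv)) g3 ((g2 c v₀).symm.trans
      (congrFun k 0))
  · rcases eq_or_ne c 0 with rfl | hc
    · simp [g0]
    · simp only [g2, hom g1 g2 hc, map_smul, Pi.smul_apply, smul_eq_mul, Finset.prod_mul_distrib,
        Finset.prod_const, Finset.card_univ, Fintype.card_fin]
      ring
  · have k1 : Tendsto (fun t : ℂ => v₀ + t • u) (𝓝 0) (𝓝 v₀) :=
      Continuous.tendsto' (by fun_prop) _ _ (by simp)
    have k2 : fderiv ℂ g v₀ v₀ ≠ 0 := by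
      rw [euler (g1 v₀).differentiableAt fun c => g2 c v₀]
      exact mul_ne_zero (Nat.cast_ne_zero.2 d.succ_ne_zero) g3
    obtain ⟨t, ⟨k3, k4⟩, k5⟩ := (((k1.eventually (((g1 v₀).continuousAt.eventually_ne g3).and
      ((h5 v₀).continuousAt.eventually_ne k2))).filter_mono nhdsWithin_le_nhds).and
      (self_mem_nhdsWithin (s := {0}ᶜ))).exists
    refine ⟨_, mul_ne_zero (mul_ne_zero k3 (Finset.prod_ne_zero_iff.2 fun i _ => ?_)) k4⟩
    rw [map_add, map_smul, h2, zero_add]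
    exact mul_ne_zero k5 (h3 i)
  · rw [fderiv_pi fun a => (h6 a v).differentiableAt] at k
    obtain ⟨s, rfl⟩ := h1 η (funext fun i => by
      have k1 : fderiv ℂ (fun v => Λ v i ^ (d + 1)) v η = 0 := congrFun k i.succ
      have k2 : HasFDerivAt (fun v => Λ v i ^ (d + 1)) _ v :=
        ((ContinuousLinearMap.proj i).comp Λ).hasFDerivAt.pow (d + 1)
      have k3 := Finset.prod_ne_zero_iff.1 (right_ne_zero_of_mul (left_ne_zero_of_mul hv)) i
        (Finset.mem_univ i)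
      simpa [k2.fderiv, k3, Nat.cast_add_one_ne_zero] using k1)
    have k1 : fderiv ℂ g v (s • v₀) = 0 := congrFun k 0
    rw [map_smul, smul_eq_mul, mul_eq_zero, or_iff_left (right_ne_zero_of_mul hv)] at k1
    rw [k1, zero_smul]

theorem eval_smul {σ : MvPolynomial (Fin (r + 1)) ℂ} (h : σ.IsHomogeneous d) (c : ℂ)
    (v : Cm (r + 1)) : MvPolynomial.eval (c • v) σ = c ^ d * MvPolynomial.eval v σ := by
  rw [MvPolynomial.eval_eq, MvPolynomial.eval_eq, Finset.mul_sum]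
  refine Finset.sum_congr rfl fun m hm => ?_
  simp only [Pi.smul_apply, smul_eq_mul, mul_pow, Finset.prod_mul_distrib,
    Finset.prod_pow_eq_pow_sum]
  rw [← h.degree_eq_sum_deg_support hm]
  ring

theorem poly {σ : MvPolynomial (Fin (r + 1)) ℂ} (h0 : σ ≠ 0) (h : σ.IsHomogeneous d) :
    ∃ g : Cm (r + 1) → ℂ, (∀ v, AnalyticAt ℂ g v) ∧ (∀ (c : ℂ) v, g (c • v) = c ^ (d + 1) * g v) ∧
      (∃ v, g v ≠ 0) ∧ ∀ v, MvPolynomial.eval v σ = 0 → g v = 0 := by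
  refine ⟨fun v => MvPolynomial.eval v σ * v 0, fun v => ?_, fun c v => ?_, ?_,
    fun v k => by simp only [k, zero_mul]⟩
  · exact (AnalyticOnNhd.eval_mvPolynomial σ v (mem_univ v)).mul
      ((ContinuousLinearMap.proj (R := ℂ) (φ := fun _ => ℂ) 0).analyticAt v)
  · simp only [eval_smul h, Pi.smul_apply, smul_eq_mul]
    ring
  · by_contra! m
    exact mul_ne_zero h0 (MvPolynomial.X_ne_zero 0) (MvPolynomial.funext fun v => by simpa using m v)

end Pq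

open Pq in
theorem prjq_of (h1 : St.PRJ) (h2 : Gt.COV) (h3 : Gt.DOM) : PRJQ := by
  intro r Z A Q S _ hA hp hQ
  obtain ⟨k, β, k1, k2, k3, k4⟩ := h1 r Z A inferInstance hA hp
  obtain ⟨ψ₀, p1, p2⟩ := S.lift_sec (lb_pow hA k) k2 k3
  obtain ⟨z₁, p3⟩ := k4 S ψ₀ p2
  obtain ⟨Q', -, q1, q2, -⟩ := h2 r Z S.P ψ₀ Q p1 S.conn hQ
  obtain ⟨σ, d, s1, s2, s3⟩ := h3 r S Q' q1
  obtain ⟨g, g1, g2, ⟨v₀, g3⟩, g4⟩ := poly s1 s2
  obtain ⟨P, f, e, a1, a2, a3, a4, f1, f2, f3, f4⟩ := ex g1 g2 g3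
  have b1 : ∀ b, ∀ z ∈ A.U b, AnV r (β b) z := fun b z hz => AnV.pi fun l => sec_hol (k2 l) hz
  have b2 : ∀ l, IsSec r (A.pow (k * (d + 1))) fun b z => P (β b z) l := fun l =>
    isSec_of (fun b z hz => ((b1 b z hz).cmp (a1 _)).hol l) fun b b' z hz hz' => by
      rw [show β b z = A.g b b' z ^ k • β b' z from funext fun l => (k2 l).change b b' z hz hz',
        a2, ← pow_mul]
      rfl
  have b3 : ∀ b, ∀ z ∈ A.U b, P (β b z) ≠ 0 := fun b z hz => a3 _ (k3 b z hz)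
  obtain ⟨ψ, r1, r2⟩ := S.lift_sec (lb_pow hA _) b2 b3
  obtain ⟨H, t1, t2⟩ := St.Fs.cone (lb_pow hA k) k2 k3 p1 p2 p3 f1 f2 f3
  have b4 : ∀ b, ∀ z ∈ A.U b, S.hx (ψ z) 0 = 0 ↔ P (β b z) 0 = 0 := fun b z hz => by
    rw [r2 b z hz]
    exact not_iff_not.1 (S.x_ne_iff (b3 b z hz) (S.lb.cover _).choose_spec 0)
  refine ⟨k * (d + 1), _, ψ, Nat.mul_pos k1 d.succ_pos, b2, b3, r2, ?_,
    t1.sub (fun z => ?_) fun z hz => by_contra fun m => ?_, fun z hz => ?_⟩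
  · obtain ⟨z, m1, m2⟩ := ((t1.freq z₁).and_eventually (p3.near (p1.at _))).exists
    obtain ⟨b, hb⟩ := hA.cover z
    have m3 := (St.Prj.imm_iff S (b1 b z hb) (k3 b z hb)).1
      (m2.cng ((lb_near hA hb).mono fun y => p2 b y))
    refine ⟨z, ((St.Prj.imm_iff S ((b1 b z hb).cmp (a1 _)) (b3 b z hb)).2 fun ξ hξ c m => ?_).cng
      ((lb_near hA hb).mono fun y hy => (r2 b y hy).symm)⟩
    rw [fderiv_fun_comp _ (a1 _).differentiableAt (b1 b z hb _ (at_chart z)).differentiableAt,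
      (at_chart z).left_inv, ContinuousLinearMap.comp_apply] at m
    refine m3 ξ hξ (c / (d + 1 : ℕ)) (sub_eq_zero.1 ((f4 _ (t2 z m1 b hb)).2 _ ?_))
    rw [map_sub, map_smul, m, euler (a1 _).differentiableAt fun c => a2 c _, smul_smul,
      div_mul_cancel₀ _ (Nat.cast_ne_zero.2 d.succ_ne_zero), sub_self]
  · obtain ⟨b, hb⟩ := hA.cover z
    exact ⟨1, fun _ y => P (β b y) 0, fun _ => sec_hol (b2 0) hb,
      (lb_near hA hb).mono fun y hy => (b4 b y hy).trans (forall_const _).symm⟩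
  · obtain ⟨b, hb⟩ := hA.cover z
    exact (f4 _ (t2 z m b hb)).1 ((a4 _).symm.trans ((b4 b z hb).1 hz))
  · obtain ⟨b, hb⟩ := hA.cover z
    have m1 := g4 _ (s3 _ (q2 ⟨z, hz, rfl⟩))
    obtain ⟨c, m2, m3⟩ := S.x_pt' (k3 b z hb) (S.lb.cover _).choose_spec
    rw [p2 b z hb, PS.hx, m3, g2] at m1
    rw [b4 b z hb, a4, (mul_eq_zero.1 m1).resolve_left (pow_ne_zero _ m2)]

end Vale.Agent.P281Z.U1
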