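import Vale.Agent.P281Z.U1.Defs
import Vale.Agent.P281Z.Mf.Prod
import Vale.Agent.P281Z.Rs.Clo

/-!
# P281Z, block U1: the component of the fibre power which contains the diagonal
-/

open scoped Manifold ContDiff Topology
open Set Filter
open Vale.Agent.P272.K
open Vale.Agent.P277Z.Slc (ForW)
open Vale.Agent.P281Z.Gt

noncomputable section

namespace Vale.Agent.P281Z.U1

namespace Pw0H

variable {N p a n K : ℕ} {M : Fb N p} {Q : Set M.Y.X}

variable (M) in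
/-- a compact Kähler model of the fibre power, maybe not connected -/
structure Pw1 (n K : ℕ) (Q : Set M.Y.X) : Type 1 where
  V : Mf K
  γ : V.X → Pt M n
  tm : ∀ v, Tm K γ v
  kah : V.Kah
  bij : ∀ q, Fp q → q.1 ∉ Q → ∃! v, γ v = q
  lift : ForW fun k T _ _ => ∀ (g : T → Pt M n) (t : T), Tm k g t → (g t).1 ∉ Q →
    ∃ l : T → V.X, HolA k K l t ∧ ∀ᶠ s in 𝓝 t, γ (l s) = g s

theorem Pw1.hol (P : Pw1 M n K Q) : HolM K p fun v => (P.γ v).1 := fun v => (P.tm v).b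

theorem Pw1.holx (P : Pw1 M n K Q) (j : Fin n) : HolM K N fun v => (P.γ v).2 j :=
  fun v => (P.tm v).x j

theorem Pw1.fp (P : Pw1 M n K Q) (v : P.V.X) : Fp (P.γ v) := (P.tm v).fp.self_of_nhds

theorem Pw1.cont (P : Pw1 M n K Q) : Continuous P.γ :=
  P.hol.cont.prodMk (continuous_pi fun j => (P.holx j).cont)

/-- no factor -/
def zero (hY : M.Y.Kah) : Pw1 M 0 p Q where
  V := M.Y
  γ y := (y, Fin.elim0)
  tm v := ⟨holM_id.at v, fun j => j.elim0, .of_forall fun _ j => j.elim0⟩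
  kah := hY
  bij q _ _ := ⟨q.1, Prod.ext rfl (Subsingleton.elim _ _), fun _ h => congrArg Prod.fst h⟩
  lift _ _ _ _ _ _ _ g _ h _ :=
    ⟨fun s => (g s).1, h.b, .of_forall fun _ => Prod.ext rfl (Subsingleton.elim _ _)⟩

theorem succ (hR : Rs.RES) (hN : N = p + a) (hf : HolM N p M.f) (hX : M.X.Kah) (hQ : Thin p Q)
    (hs : ∀ x, M.f x ∉ Q → Sbm N p M.f x) (P : Pw1 M n K Q) :
    Nonempty (Pw1 M (n + 1) (K + a) Q) := by
  have hZ : An (K + N) {z : (P.V.prod M.X).X | M.f (P.V.p2 M.X z) ∈ Q} :=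
    hQ.1.pre (hf.comp hol_p2)
  obtain ⟨I, hI, -⟩ := Rs.idl _ _ _ hZ
  obtain ⟨R⟩ := hR (K + N) (K + a) (P.V.prod M.X) (fp (fun v => (P.γ v).1) M.f) I (fp_an P.hol hf)
    (by
      rw [hI]
      exact fp_subM (by omega) P.hol hf hZ.closed.isOpen_compl fun z hz => .inr (hs _ hz.2))
  have ho := R.ovr
  rw [hI] at ho
  let w : R.V.X → P.V.X := fun v => P.V.p1 M.X (R.π v)
  let u : R.V.X → M.X.X := fun v => P.V.p2 M.X (R.π v)
  have hw : HolM (K + a) K w := hol_p1.comp ho.hol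
  have hu : HolM (K + a) N u := hol_p2.comp ho.hol
  have h0 : ∀ v, (P.γ (w v)).1 = M.f (u v) := ho.maps
  have one : ∀ v x, (P.γ v).1 = M.f x → (P.γ v).1 ∉ Q → ∃! v', w v' = v ∧ u v' = x :=
    fun v x k1 k2 => (existsUnique_congr fun v' => ⟨fun k => ⟨congrArg (P.V.p1 M.X) k,
      congrArg (P.V.p2 M.X) k⟩, fun k => prod_ext k.1 k.2⟩).1 (ho.one (P.V.pair M.X v x) k1 (k1 ▸ k2 :))
  refine ⟨⟨R.V, fun v => ((P.γ (w v)).1, Fin.cons (u v) (P.γ (w v)).2), fun v =>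
    ⟨(P.hol.comp hw).at v, Fin.cases (hu.at v) fun j => ((P.holx j).comp hw).at v,
      .of_forall fun s => Fin.cases (h0 s).symm (P.fp (w s))⟩, R.kah (P.kah.prod hX),
    fun q h1 h2 => ?_, fun k T _ _ _ _ _ g t h1 h2 => ?_⟩⟩
  · obtain ⟨v, k1, k2⟩ := P.bij (q.1, Fin.tail q.2) (fun j => h1 j.succ) h2
    obtain ⟨v', k3, k4⟩ := one v (q.2 0) (by rw [k1, h1 0]) (by rwa [k1])
    refine ⟨v', by simp only [k3.1, k3.2, k1, Fin.cons_self_tail], fun v'' k => k4 _ ⟨k2 _ ?_, ?_⟩⟩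
    · rw [← k]
      rfl
    · rw [← k]
      rfl
  · obtain ⟨l, k1, k2⟩ := P.lift k T (fun s => ((g s).1, Fin.tail (g s).2)) t
      ⟨h1.b, fun j => h1.x j.succ, h1.fp.mono fun s hs j => hs j.succ⟩ h2
    have k3 : ∀ᶠ s in 𝓝 t, ∃ v', w v' = l s ∧ u v' = (g s).2 0 := by
      filter_upwards [k2, h1.fp, h1.b.cont.eventually (hQ.closed.isOpen_compl.mem_nhds h2)]
        with s b1 b2 b3 using (one _ _ (by rw [b1, b2 0]) (by rwa [b1])).exists
    obtain ⟨l', k4⟩ := k3.choice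
    have k5 : ∀ᶠ s in 𝓝 t, P.V.pair M.X (l s) ((g s).2 0) = R.π (l' s) :=
      k4.mono fun s hs => (prod_ext hs.1 hs.2).symm
    refine ⟨l', ho.lift_at ?_ ((k1.pair (h1.x 0)).cng k5), ?_⟩
    · rw [← k5.self_of_nhds]
      exact fun k => h2 (h1.fp.self_of_nhds 0 ▸ show M.f ((g t).2 0) ∈ Q from k)
    · filter_upwards [k2, k4] with s b1 b2
      simp only [b2.1, b2.2, b1, Fin.cons_self_tail]

theorem exists_pw1 (hR : Rs.RES) (hN : N = p + a) (hf : HolM N p M.f) (hX : M.X.Kah) (hY : M.Y.Kah)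
    (hQ : Thin p Q) (hs : ∀ x, M.f x ∉ Q → Sbm N p M.f x) (n : ℕ) :
    ∀ K, K = p + n * a → Nonempty (Pw1 M n K Q) := by
  induction n with
  | zero =>
    intro K h
    rw [h, zero_mul]
    exact ⟨zero hY⟩
  | succ n ih =>
    intro K h
    rw [h, add_one_mul, ← add_assoc]
    exact (ih _ rfl).elim (succ hR hN hf hX hQ hs)

theorem Pw1.prop (P : Pw1 M n K Q) {C : Set P.V.X} (hC : IsClopen C) {T : Type}
    [TopologicalSpace T] {g : T → Pt M n} {s : Set T} (h1 : IsPreconnected s)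
    (h2 : ContinuousOn g s) (h3 : ∀ t ∈ s, Fp (g t) ∧ (g t).1 ∉ Q) (h4 : ∃ t ∈ s, g t ∈ P.γ '' C) :
    ∀ t ∈ s, g t ∈ P.γ '' C := by
  have h5 : ∀ t ∈ s, g t ∈ P.γ '' C → g t ∉ P.γ '' Cᶜ := fun t ht ⟨_, a, b⟩ ⟨_, c, d⟩ =>
    c ((P.bij _ (h3 t ht).1 (h3 t ht).2).unique b d ▸ a)
  refine fun t ht => (isPreconnected_iff_subset_of_disjoint_closed.1 (h1.image g h2) _ _
    (hC.1.isCompact.image P.cont).isClosed (hC.compl.1.isCompact.image P.cont).isClosed ?_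
    ?_).elim (fun k => k ⟨t, ht, rfl⟩) fun k => h4.elim fun t' h =>
      (h5 t' h.1 h.2 (k ⟨t', h.1, rfl⟩)).elim
  · rintro _ ⟨t, ht, rfl⟩
    obtain ⟨v, hv⟩ := (P.bij _ (h3 t ht).1 (h3 t ht).2).exists
    exact (em (v ∈ C)).imp (fun k => ⟨v, k, hv⟩) fun k => ⟨v, k, hv⟩
  · refine eq_empty_of_forall_notMem ?_
    rintro _ ⟨⟨t, ht, rfl⟩, a, b⟩
    exact h5 t ht a b

end Pw0H

open Pw0H in
theorem pw0_of (hR : Rs.RES) (hW : HW) : PW0 := by
  intro p a n D hD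
  obtain ⟨-, -, -, -, h1, h2⟩ := hW p a D hD
  have := hD.conn
  obtain ⟨P⟩ := exists_pw1 (M := D.toFb) hR rfl hD.hol hD.kahX hD.kahY hD.thin h2 n _ rfl
  obtain ⟨x₀, hx₀⟩ := h1.2.nonempty
  have hx : x₀ ∈ D.Nx := not_not.1 hx₀
  obtain ⟨v₀, hv₀⟩ := (P.bij (dg n x₀) (fun _ => rfl) hx.1).exists
  obtain ⟨V, i, hV, hi⟩ := comp_emb P.V v₀
  have hC : IsClopen (connectedComponent v₀) := isClopen_connectedComponent
  have hr : range (fun v => P.γ (i v)) = P.γ '' connectedComponent v₀ := by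
    rw [← hi.rng, ← range_comp]
    rfl
  have hb := P.hol.comp hi.hol
  have hx' := fun j => (P.holx j).comp hi.hol
  refine ⟨⟨V, fun v => P.γ (i v), fun v => ⟨hb.at v, fun j => (hx' j).at v,
    .of_forall fun s => P.fp _⟩, hV, hi.kah P.kah, ?_, fun v v' k1 k2 =>
      hi.inj ((P.bij _ (P.fp _) k2).unique k1 rfl), fun k T _ _ _ _ _ g t k1 k2 k3 => ?_,
    fun x k => ?_, fun T _ g s k1 k2 k3 k4 => ?_⟩⟩
  · obtain ⟨v, hv⟩ : v₀ ∈ range i := hi.rng ▸ mem_connectedComponent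
    refine An.thin ?_ fun c => (c.ge (mem_univ v)) ?_
    · rw [show {v | P.γ (i v) ∉ D.Nq n} = (fun v => (P.γ (i v)).1) ⁻¹' D.Q ∪
          ⋃ j, (fun v => (P.γ (i v)).2 j) ⁻¹' (off D.G)ᶜ from Set.ext fun v => by
        simp only [Su.Nq, mem_union, mem_preimage, mem_iUnion, mem_compl_iff, mem_ofPred_eq,
          not_and_or, not_not, not_forall]]
      exact (hD.thin.1.pre hb).union (.iUnion fun j => (snc_thin_off hD.snc).1.pre (hx' j))
    · simp only [hv, hv₀]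
      exact ⟨hx.1, fun _ => hx.2⟩
  · obtain ⟨l, a1, a2⟩ := P.lift k T g t k1 k2
    obtain ⟨v, hv⟩ := k3
    have a3 : l t ∈ connectedComponent v₀ := by
      rw [(P.bij _ k1.fp.self_of_nhds k2).unique a2.self_of_nhds hv, ← hi.rng]
      exact mem_range_self v
    have a4 : ∀ᶠ s in 𝓝 t, ∃ v', l s = i v' :=
      (a1.cont.eventually (hC.2.mem_nhds a3)).mono fun s hs => (hi.ex hs).imp fun _ => Eq.symm
    obtain ⟨l', a5⟩ := a4.choice
    exact ⟨l', hi.lift_at (a1.cng a5), (a2.and a5).mono fun s c => c.2 ▸ c.1⟩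
  · rw [hr]
    exact P.prop hC (g := dg n) ((hD.thin.pre_surj hD.hol hD.surj).preconn)
      (hD.hol.cont.prodMk (continuous_pi fun _ => continuous_id)).continuousOn
      (fun x k => ⟨fun _ => rfl, k⟩) ⟨x₀, hx.1, v₀, mem_connectedComponent, hv₀⟩ x k
  · rw [hr] at k4 ⊢
    exact P.prop hC k1 k2 k3 k4

end Vale.Agent.P281Z.U1
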