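import Vale.Agent.P281Z.U1.Defs
import Vale.Agent.P281Z.En.Kap2
import Vale.Agent.P281Z.Md.Ext
import Vale.Agent.P284.H335.Rem

/-!
# P281Z, block U1: removable singularities
-/

open scoped Manifold ContDiff Topology ENNReal
open Set Filter MeasureTheory Metric
open Vale.Agent.P272.K
open Vale.Agent.P277Z (Hol Nz at_chart hol_const hol_comp)
open Vale.Agent.P277Z.GH.Pur (CopF thin_cop)
open Vale.Agent.P277.H762 (Cv hartogs_bdd exists_div)
open Vale.Agent.P284.H10 (Cov cov_zero)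
open Vale.Agent.P281Z.Md (Bnd bnd_cont)

noncomputable section

namespace Vale.Agent.P281Z.U1

namespace Rm

theorem cov_near {k : ℕ} {h : Cm (k + 1) → ℂ} {t : Cm (k + 1)} (ha : AnalyticAt ℂ h t)
    (h0 : ¬ ∀ᶠ s in 𝓝 t, h s = 0) : ∃ V ∈ 𝓝 t, Cov k {x ∈ V | h x = 0} := by
  obtain ⟨ρ, hρ, hB⟩ := Metric.eventually_nhds_iff_ball.1 ha.eventually_analyticAt
  refine ⟨_, ball_mem_nhds t hρ, cov_zero (by simp) isOpen_ball
    (fun x hx => (hB x hx).differentiableAt.differentiableWithinAt) fun x hx k => h0 ?_⟩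
  exact eventually_of_mem (ball_mem_nhds t hρ)
    (AnalyticOnNhd.eqOn_zero_of_preconnected_of_eventuallyEq_zero hB
      (convex_ball _ ρ).isPreconnected hx k)

variable {n : ℕ} {V : Mf n} {ι : Type} {h : ι → V.X → ℂ} {x : V.X}

theorem cop_nz (hc : CopF n h x) : ∃ᶠ y in 𝓝 x, ∃ i, h i y ≠ 0 := fun k => by
  obtain ⟨c, -, e⟩ := hc (fun _ => 0) (fun _ => 1) (hol_const _ _) (hol_const _ _) fun i =>
    ⟨fun _ => 0, hol_const _ _, k.mono fun y hy => by simpa using not_exists.1 hy i⟩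
  simpa using e.self_of_nhds

theorem cop_small (hn : n ≤ 1) (hh : ∀ i, Hol n (h i) x) (hc : CopF n h x) : ∃ i, h i x ≠ 0 := by
  have he := at_chart (n := n) x
  generalize chartAt (Cm n) x = e at he
  obtain rfl | rfl : n = 0 ∨ n = 1 := by omega
  · obtain ⟨y, h1, h2⟩ := ((cop_nz hc).and_eventually (P277Z.At.left he)).exists
    rwa [← h2, Subsingleton.elim (e y) (e x), e.left_inv he.2] at h1
  by_contra! k
  let L : Cm 1 →L[ℂ] ℂ := ContinuousLinearMap.proj 0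
  have h1 : HasFDerivAt (fun w => L w - L (e x)) L (e x) := L.hasFDerivAt.sub_const _
  have h2 : AnalyticAt ℂ (fun w => L w - L (e x)) (e x) := (L.analyticAt _).sub analyticAt_const
  obtain ⟨c, -, hc⟩ := hc (fun y => L (e y) - L (e x)) (fun _ => 1) (hol_comp he h2)
    (hol_const _ _) fun i => by
      obtain ⟨u, c1, c2⟩ := exists_div (n := 0) (by simp) h2 (by
        rw [h1.fderiv]
        intro k
        simpa [L] using congrArg (fun T : Cm 1 →L[ℂ] ℂ => T fun _ => 1) k) (sub_self _)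
        (hh i e he) (.of_forall fun z hz => by
          have : z = e x := funext fun a => Subsingleton.elim 0 a ▸ sub_eq_zero.1 hz
          rw [this, e.left_inv he.2, k i])
      refine ⟨fun y => u (e y), hol_comp he c1, ?_⟩
      filter_upwards [(e.continuousAt he.2).eventually c2, P277Z.At.left he] with y d1 d2
      rw [one_mul, mul_comm, ← d1, d2]
  simpa using hc.self_of_nhds

theorem cv_chart {X : Type} [TopologicalSpace X] [ChartedSpace (Cm n) X] {k : ℕ} {S : Set X}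
    (hS : P277.T3.ThinM n k S) {e : Chart n X} (he : e ∈ atlas (Cm n) X) :
    Cv k (e.target ∩ e.symm ⁻¹' S) := by
  obtain ⟨Ω, g, h1, h2, h3⟩ := hS
  refine ⟨fun l => {p | p ∈ Ω l ∧ g l p ∈ e.source}, fun l p => e (g l p), fun l => ?_,
    fun l p hp => (h2 l p hp.1).2 e ⟨he, hp.2⟩, fun z hz => ?_⟩
  · refine isOpen_iff_mem_nhds.2 fun p hp => ?_
    filter_upwards [(h1 l).mem_nhds hp.1, (h2 l p hp.1).1.eventually
      (e.open_source.mem_nhds hp.2)] with q a b using ⟨a, b⟩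
  · obtain ⟨l, p, hp, k⟩ := mem_iUnion.1 (h3 hz.2)
    exact mem_iUnion.2 ⟨l, p, ⟨hp, k ▸ e.map_target hz.1⟩, by
      show e (g l p) = z
      rw [k, e.right_inv hz.1]⟩

end Rm

open Rm

theorem l2x : L2X := by
  intro K F H N t₀ r hr hH h0 hP hL
  obtain _ | k := K
  · exact ⟨‖F t₀‖, .of_forall fun y _ => by rw [Subsingleton.elim y t₀]⟩
  obtain ⟨W, hW, c1⟩ := cov_near hH h0
  obtain ⟨U, h1, hU, h2⟩ := _root_.eventually_nhds_iff.1
    (((hP.and hH.eventually_analyticAt).and hW).and (ball_mem_nhds t₀ hr))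
  have e : U \ (U ∩ {t | H t ≠ 0 ∧ t ∉ N}ᶜ) = U ∩ {t | H t ≠ 0 ∧ t ∉ N} := by
    rw [sdiff_self_inter, sdiff_compl]
  have c2 : Cov k (id '' (U ∩ {t | H t ≠ 0 ∧ t ∈ N})) := Cov.locally fun t ht => by
    obtain ⟨g, g1, g2, g3⟩ := ((h1 t ht.1).1.1.1 ht.2.1).2
    obtain ⟨W', hW', c⟩ := cov_near g1 g2
    exact ⟨_, inter_mem hW' g3, c.mono fun _ ⟨s, a, b⟩ => b ▸ ⟨a.2.1, a.2.2 a.1.2.2⟩⟩
  obtain ⟨F', k1, k2⟩ := P284.H335.removable_cov (S := U ∩ {t | H t ≠ 0 ∧ t ∉ N}ᶜ) (f := F)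
    ((c1.union c2).mono fun t ht => (em (H t = 0)).imp (fun a => ⟨(h1 t ht.1).1.2, a⟩) fun a =>
      ⟨t, ⟨ht.1, a, by_contra fun b => ht.2 ⟨a, b⟩⟩, rfl⟩) hU
    (e ▸ isOpen_iff_mem_nhds.2 fun t ht => by
      filter_upwards [hU.mem_nhds ht.1, (h1 t ht.1).1.1.2.continuousAt.eventually_ne ht.2.1,
        (((h1 t ht.1).1.1.1 ht.2.1).1 ht.2.2).2] with s a b c using ⟨a, b, c⟩)
    (e ▸ fun t ht =>
      (((h1 t ht.1).1.1.1 ht.2.1).1 ht.2.2).1.differentiableAt.differentiableWithinAt)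
    fun t ht => by
      obtain ⟨ρ, hρ, hB⟩ := Metric.isOpen_iff.1 hU t ht
      refine ⟨ρ, hρ, ((lintegral_mono_set fun s hs => ?_).trans_lt hL).ne⟩
      exact ⟨(h1 s (hB hs.1)).2, by_contra fun a => hs.2 ⟨hB hs.1, a⟩⟩
  refine (bnd_cont (S := univ) (k1.continuousOn.continuousAt (hU.mem_nhds h2)).norm).mono ?_
  filter_upwards [hU.mem_nhds h2] with t a b using ⟨trivial, (congrArg _ (k2 (e ▸ ⟨a, b⟩))).ge⟩

theorem hart : HART := by
  intro n V ι _ h T u x hT hP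
  by_cases hn : n ≤ 1
  · exact hP.self_of_nhds.2.2.2 (cop_small hn hP.self_of_nhds.1 hP.self_of_nhds.2.1)
  obtain ⟨k, rfl⟩ : ∃ k, n = k + 2 := ⟨n - 2, by omega⟩
  obtain ⟨N, hN, c⟩ := thin_cop (hP.mono fun y a => ⟨a.1, a.2.1⟩)
  obtain ⟨O, h1, hO, h2⟩ := _root_.eventually_nhds_iff.1 (hP.and hN)
  have hO' : IsOpen (O \ {y | ∀ i, h i y = 0}) := isOpen_iff_mem_nhds.2 fun y hy => by
    obtain ⟨i, hi⟩ := not_forall.1 hy.2
    filter_upwards [hO.mem_nhds hy.1, ((h1 y hy.1).1.1 i).ne_near hi] with z a b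
      using ⟨a, fun c => b (c i)⟩
  obtain ⟨ψ, k1, k2⟩ := En.riem _ V T _ u hT hO' (fun y hy => (h1 y hy.1).1.2.2.1)
    fun y hy => (h1 y hy.1).1.2.2.2 (not_forall.1 hy.2)
  have he := at_chart (n := k + 2) x
  generalize chartAt (Cm (k + 2)) x = e at he
  obtain ⟨C, hC⟩ := hartogs_bdd (Ω := e.target ∩ e.symm ⁻¹' O)
    (E := e.symm ⁻¹' {y | ∀ i, h i y = 0}) (f := fun z => ψ (e.symm z)) (z0 := e x)
    (e.isOpen_inter_preimage_symm hO)
    (by simpa only [preimage_sdiff, inter_sdiff_assoc] using e.isOpen_inter_preimage_symm hO')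
    ((cv_chart c he.1).mono fun z hz => ⟨hz.1.1, (h1 _ hz.1.2).2, hz.2⟩)
    (fun z hz => by
      have := k1 _ ⟨hz.1.2, hz.2⟩ e ⟨he.1, e.map_target hz.1.1⟩
      rwa [e.right_inv hz.1.1] at this)
    ⟨e.map_source he.2, by rwa [mem_preimage, e.left_inv he.2]⟩
  have h3 : ∀ᶠ y in 𝓝 x, (¬ ∀ i, h i y = 0) → ‖ψ y‖ ≤ C :=
    (P277Z.At.ev he (p := fun y => (¬ ∀ i, h i y = 0) → ‖ψ y‖ ≤ C)).1 hC
  refine ⟨C, ?_⟩
  filter_upwards [hO.mem_nhds h2, h3.eventually_nhds] with y a b d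
  refine le_of_tendsto_of_frequently ((h1 y a).1.2.2.1 d).cont.norm
    (((cop_nz (h1 y a).1.2.1).and_eventually ((b.and (hO.mem_nhds a)).and
      (hT.closed.isOpen_compl.mem_nhds d))).mono fun z hz => ?_)
  have h4 : ¬ ∀ i, h i z = 0 := not_forall.2 hz.1
  rw [← k2 z ⟨hz.2.1.2, h4⟩ hz.2.2]
  exact hz.2.1.1 h4

end Vale.Agent.P281Z.U1
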