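import Vale.Agent.P281Z.U1.Defs
import Vale.Agent.P281Z.En.Kap2
import Vale.Agent.P281Z.Sc.Sy
import Vale.Agent.P281Z.Pb.Api

/-!
# P281Z, block U1: the rows RHO and OFPF
-/

open scoped Manifold ContDiff Topology
open Set Filter
open Vale.Agent.P272.K Vale.Agent.P285.H281.FD
open Vale.Agent.P277Z (Hol at_chart)
open Vale.Agent.P277Z.Slc (lin Ind LEq isLB_can)
open Vale.Agent.P277.HD (pull)
open Vale.Agent.P281Z.En.K2 (ext_sec bdP_dense)

noncomputable section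

namespace Vale.Agent.P281Z.U1

variable {p a : ℕ} {D : Su p a}

namespace Rho

theorem kap0 (hW : HW) (h : D.Ok) : En.Kap0 p D.B p := by
  obtain ⟨hψ, -, -, h4, -⟩ := hW p a D h
  obtain ⟨z₀, hz₀⟩ := h.imm
  obtain ⟨z, hQ, hz⟩ := ((h.thin.freq z₀).and_eventually (hz₀.near (hψ.at z₀))).exists
  obtain ⟨j, hj⟩ := h.lb.cover z
  obtain ⟨c, hc⟩ := D.S.lb.cover (D.ψ z)
  have h0 : D.α j z 0 ≠ 0 := mt (h4 j z hj).2.1 hQ
  have h1 : D.S.x c (D.ψ z) 0 ≠ 0 := by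
    rw [h.eq j z hj] at hc ⊢
    exact (D.S.x_ne_iff (h.nz j z hj) hc 0).2 h0
  refine ⟨fun l b y => D.α b y l, h.sec, z, trivial, j, hj, h0,
    ind_congr ((imm_iff_sbm.1 hz).ind (hψ.at z) (D.S.ind hc h1)) fun l => ?_⟩
  filter_upwards [lb_near h.lb hj, hψ.cont.continuousAt.eventually (lb_near D.S.lb hc)]
    with y k1 k2
  rw [h.eq j y k1] at k2 ⊢
  exact D.S.ratio (h.nz j y k1) k2 _ _

end Rho

theorem rho_of (hK : En.KOD) (hW : HW) : RHO := by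
  intro p a D h
  obtain ⟨-, -, h3, h4, h5, -⟩ := hW p a D h
  have := h.conn
  have lb2 : IsLB p (zp (Bd.can p D.Y.X) (-D.m)) := lb_zp isLB_can _
  obtain ⟨b, s, hs, z₀, -, ⟨j₀, e₀⟩, k₀, k₁, -⟩ := hK p D.Y D.B _
    (h.surj.connectedSpace h.hol.cont) h.lb lb2 (Rho.kap0 hW h)
  have lb3 := lb_mul (lb_pow h.lb b) lb2
  choose J hJ using h.lb.cover
  have chg : ∀ j j' e e' z, z ∈ D.B.U j → z ∈ D.B.U j' → At e z → At e' z →
      s 0 (j, e) z / D.α j z 0 ^ b * (jacM e e' z).det ^ D.m = s 0 (j', e') z / D.α j' z 0 ^ b :=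
    fun j j' e e' z k1 k2 k3 k4 => by
      have k5 : (jacM e e' z).det ≠ 0 := (isLB_can (n := p)).ne_zero e e' z k3 k4
      have k6 : s 0 (j, e) z = D.B.g j j' z ^ b * (jacM e e' z).det ^ (-(D.m : ℤ)) *
        s 0 (j', e') z := (hs 0).change (j, e) (j', e') z ⟨k1, k3⟩ ⟨k2, k4⟩
      rw [k6, (h.sec 0).change j j' z k1 k2, mul_pow, mul_assoc, mul_div_mul_left _ _
        (pow_ne_zero b (h.lb.ne_zero j j' z k1 k2)), zpow_neg, zpow_natCast]
      field_simp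
  have loc : ∀ x e, At e (D.f x) → ∀ᶠ y in 𝓝 x, s 0 (J (D.f y), e) (D.f y) /
      D.α (J (D.f y)) (D.f y) 0 ^ b = s 0 (J (D.f x), e) (D.f y) / D.α (J (D.f x)) (D.f y) 0 ^ b :=
    fun x e he => by
      filter_upwards [h.hol.cont.continuousAt.eventually ((lb_near h.lb (hJ _)).and (at_near he))]
        with y k
      have k1 : (jacM e e (D.f y)).det = 1 := lb_self (isLB_can (n := p)) k.2
      rw [← chg _ _ e e _ (hJ _) k.1 k.2 k.2, k1, one_pow, mul_one]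
  refine ⟨b, fun _ e x => s 0 (J (D.f x), e) (D.f x) / D.α (J (D.f x)) (D.f x) 0 ^ b,
    ⟨fun _ e x hx _ he => ?_, fun _ _ e e' x _ _ _ he he' => ?_, fun _ e x ζ _ he _ => ?_⟩, ?_⟩
  · refine Hol.congr (h.hol.hol (a := fun z => s 0 (J (D.f x), e) z / D.α (J (D.f x)) z 0 ^ b)
      ((sec_hol (hs 0) (a := (J _, e)) ⟨hJ _, he⟩).div ((sec_hol (h.sec 0) (hJ _)).pow b)
        (pow_ne_zero b (mt (h4 _ _ (hJ _)).2.1 hx.1)))) ((loc x e he).mono fun _ => Eq.symm)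
  · rw [pow_zero, one_mul]
    exact chg _ _ e e' _ (hJ _) (hJ _) he he'
  · obtain ⟨C, -, hC⟩ := (h4 _ _ (hJ (D.f x))).1
    obtain ⟨C', -, hC'⟩ := bdd_near
      (h.hol.hol (sec_hol (hs 0) (a := (J (D.f x), e)) ⟨hJ _, he⟩)).cont.norm
    refine ⟨C' * C ^ b, ?_⟩
    filter_upwards [loc x e he, hC', h.hol.cont.continuousAt.eventually
      (hC.and (lb_near h.lb (hJ _)))] with y k1 k2 k3 k4
    have k5 : 0 < ‖D.α (J (D.f x)) (D.f y) 0‖ := norm_pos_iff.2 (mt (h4 _ _ k3.2).2.1 k4.1)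
    rw [k1, pow_zero, one_mul, norm_div, norm_pow, div_mul_eq_mul_div, mul_div_assoc, ← div_pow]
    exact mul_le_mul k2 (pow_le_pow_left₀ (div_nonneg (h3 _).1 k5.le)
      ((div_le_iff₀ k5).2 k3.1.1) b) (pow_nonneg (div_nonneg (h3 _).1 k5.le) b)
      ((norm_nonneg _).trans k2)
  · obtain ⟨x₀, rfl⟩ := h.surj z₀
    obtain ⟨x, hx, k2, k3⟩ := ((h5.freq x₀).and_eventually (h.hol.cont.continuousAt.eventually
      ((lb_near lb3 k₀).and ((sec_hol (hs 0) k₀).ne_near k₁)))).exists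
    have hx' : x ∈ D.Nx := not_not.1 hx
    exact ⟨x, hx', div_ne_zero ((nz_iff lb3 (fun c c' => (hs 0).change c c' _) k2).2 k3
      (J _, chartAt _ _) ⟨hJ _, at_chart _⟩) (pow_ne_zero b (mt (h4 _ _ (hJ _)).2.1 hx'.1))⟩

theorem ofpf_of (hW : HW) : OFPF := by
  classical
  rintro p a D k u b σ h hσ ⟨x₀, hx₀, h₀⟩
  obtain ⟨-, -, h3, h4, h5, -⟩ := hW p a D h
  have l1 : IsLB (p + a) (Bd.can (p + a) D.X.X) := isLB_can
  have l2 : IsLB (p + a) (pull D.f (Bd.can p D.Y.X)) := h.hol.lb isLB_can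
  have l3 : IsLB (p + a) (pull D.f D.B) := h.hol.lb h.lb
  have lb := lb_mul (lb_pow l1 k) (lb_mul (lb_zp l2 (-k)) (lb_pow l3 b))
  have hG : En.Gd (p + a) (p + a) id D.G := ⟨holM_id, h.snc, snc_dense_off h.snc⟩
  have key : ∀ e e' j x, At e x → At e' (D.f x) → D.f x ∈ D.B.U j →
      BdP (p + a) id D.G (fun l => u * D.c l)
        (fun y => if y ∈ D.Nx then σ e e' y * D.α j (D.f y) 0 ^ b else 0) x :=
    fun e e' j x he he' hj ζ hζ => by
      obtain ⟨C, hC⟩ := hσ.bd e e' x ζ he he' hζ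
      obtain ⟨C', h0, hC'⟩ := (h4 j _ hj).1
      refine ⟨C' ^ b * |C|, ?_⟩
      filter_upwards [hC, h.hol.cont.continuousAt.eventually hC'] with y k1 k2 _
      split_ifs with k4
      · have k5 := (k1 k4).trans (le_abs_self C)
        have k6 := pow_le_pow_left₀ (norm_nonneg _) k2.2 b
        rw [En.K2.wt_pow, norm_mul, norm_pow]
        simp only [id, Real.rpow_natCast]
        refine le_trans ?_ (mul_le_mul_of_nonneg_left k5 (by positivity))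
        rw [mul_pow] at k6
        calc _ ≤ ‖σ e e' y‖ * (C' ^ b * D.tz (D.f y) ^ b) * (∏ l, ‖ζ l y‖ ^ D.c l) ^ u := by gcongr
          _ = _ := by ring
      · rw [norm_zero, zero_mul]
        positivity
  obtain ⟨t, t1, t2, t3⟩ := ext_sec (s := fun c x => σ c.1 c.2.1 x * D.α c.2.2 (D.f x) 0 ^ b)
    lb h5 (snc_open_off h.snc)
    (fun c x _ hc hx => (hσ.hol _ _ x (not_not.1 hx) hc.1 hc.2.1).mul
      ((h.hol.hol (sec_hol (h.sec 0) hc.2.2)).pow b))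
    (fun c c' x _ hc hc' hx => by
      have k5 : (jacM c.2.1 c'.2.1 (D.f x)).det ≠ 0 := l2.ne_zero _ _ x hc.2.1 hc'.2.1
      have k6 := hσ.chg _ _ _ _ x (not_not.1 hx) hc.1 hc'.1 hc.2.1 hc'.2.1
      change _ = (jacM c.1 c'.1 x).det ^ k * ((jacM c.2.1 c'.2.1 (D.f x)).det ^ (-(k : ℤ)) *
        D.B.g c.2.2 c'.2.2 (D.f x) ^ b) * _
      rw [(h.sec 0).change _ _ _ hc.2.2 hc'.2.2, zpow_neg, zpow_natCast,
        (eq_mul_inv_iff_mul_eq₀ (pow_ne_zero k k5)).2 k6]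
      ring)
    (fun c x hx hc => by
      obtain ⟨C, hC⟩ := (key _ _ _ x hc.1 hc.2.1 hc.2.2).bdd (Hyp.of_snc h.snc) continuousAt_id
        fun l k => (hx l k).elim
      refine ⟨C, hC.mono fun y k1 k2 => ?_⟩
      have k3 : y ∈ D.Nx := not_not.1 k2
      simpa only [if_pos k3] using k1 k3.2)
  obtain ⟨j, hj⟩ := h.lb.cover (D.f x₀)
  have hs : SecP (p + a) (p + a) id univ _ D.G (fun l => u * D.c l) t :=
    ⟨fun c x _ hc k => t1 c x k hc, fun c c' x _ hc hc' k => t2 c c' x k hc hc', fun c x _ hc =>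
      bdP_dense hG ((compl_compl D.Nx) ▸ h5.dense) (key _ _ _ x hc.1 hc.2.1 hc.2.2)
        ((lb_near lb hc).mono fun y k1 k2 => ⟨(t1 c y k2 k1).cont, fun k =>
          (t3 c y k2 k1 (not_not.2 k)).trans (if_pos k).symm⟩)⟩
  have hc : x₀ ∈ (((Bd.can (p + a) D.X.X).pow k).mul ((zp (pull D.f (Bd.can p D.Y.X)) (-k)).mul
      ((pull D.f D.B).pow b))).U (chartAt _ x₀, chartAt _ (D.f x₀), j) :=
    ⟨at_chart _, at_chart _, hj⟩
  have l4 : ∀ i, IsLB (p + a)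
      (![Bd.can (p + a) D.X.X, pull D.f (Bd.can p D.Y.X), pull D.f D.B] i) := fun i => by
    fin_cases i
    exacts [l1, l2, l3]
  refine Sy.kapL (Hyp.of_snc h.snc) continuous_id (lb_lin l4 _) lb ((sy_zero lb).2
    ⟨t, hs, x₀, hx₀.2, (hs.nz_iff lb trivial hx₀.2 hc).2 ?_⟩) one_pos ?_ fun l => by simp
  · rw [t3 _ x₀ hx₀.2 hc (not_not.2 hx₀)]
    exact mul_ne_zero h₀ (pow_ne_zero b (mt (h4 j _ hj).2.1 hx₀.1))
  · rw [cls_mul (lb_pow l1 k) (lb_mul (lb_zp l2 (-k)) (lb_pow l3 b)),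
      cls_mul (lb_zp l2 (-k)) (lb_pow l3 b), cls_pow l1, cls_pow l3, cls_zp l2, cls_lin l4,
      Fin.sum_univ_three]
    simp [add_assoc]

end Vale.Agent.P281Z.U1
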