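import Vale.Agent.P281Z.U1.Defs
import Vale.Agent.P281Z.Mf.Fib

/-!
# P281Z, block U1: the start
-/

open scoped Manifold ContDiff Topology
open Set Filter
open Vale.Agent.P272.K Vale.Agent.P285.H281.FD
open Vale.Agent.P277Z.Slc (Snc isLB_can)
open Vale.Agent.P277.HD (pull)

noncomputable section

namespace Vale.Agent.P281Z.U1

namespace St

theorem liso_pow {n : ℕ} {X : Type} [TopologicalSpace X] [ChartedSpace (Cm n) X] {L L' : Bd X}
    (h : LIso n L L') (k : ℕ) : LIso n (L.pow k) (L'.pow k) :=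
  h.elim fun t h => ⟨fun a b x => t a b x ^ k, fun a b x ha hb => (h.hol a b x ha hb).pow k,
    fun a b x ha hb => pow_ne_zero k (h.ne a b x ha hb), fun a a' b b' x ha ha' hb hb' => by
      show _ ^ k * _ ^ k = _ ^ k * _ ^ k
      rw [← mul_pow, ← mul_pow, h.chg a a' b b' x ha ha' hb hb']⟩

theorem nat_mul {κ : Type} [Fintype κ] {δ : κ → ℚ} (h : ∀ l, 0 ≤ δ l) (m : ℕ) (l : κ) :
    ∃ c : ℕ, (c : ℚ) = (m * ∏ l, (δ l).den : ℕ) * δ l := by
  obtain ⟨e, he⟩ := Finset.dvd_prod_of_mem (fun l => (δ l).den) (Finset.mem_univ l)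
  obtain ⟨z, hz⟩ := Int.eq_ofNat_of_zero_le (Rat.num_nonneg.2 (h l))
  have h1 : ((δ l).den : ℚ) * δ l = z := by rw [Rat.den_mul_eq_num, hz, Int.cast_natCast]
  refine ⟨m * e * z, ?_⟩
  rw [he]
  push_cast
  rw [← h1]
  ring

end St

theorem st_of (hS : START) (hG : GEN) : ST := by
  intro w r W Z γ A κ _ G δ hW _ hγ hs hA hP hG' hδ ⟨d, hd⟩
  have hZ : ConnectedSpace Z.X := hs.connectedSpace hγ.cont
  obtain ⟨Q, hQ, hR⟩ := hG w r W Z γ κ G hγ hG'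
  choose S hS1 hS2 using fun m : ℕ => hS w r W Z γ A ((Bd.can w W.X).pow m) κ G
    (fun l => m * δ l) hZ hγ hA hP (lb_pow isLB_can m) hG'
  obtain ⟨y, hy, F, i, hi, m₀, hm₀, s, h1, x, hx, a, ha, h2, -⟩ :=
    hd.ex (hQ.neg.union (Neg.iUnion hS1))
  have hy1 : y ∉ Q := fun c => hy (.inl c)
  refine ⟨⟨d, (hR y hy1).dim hγ hG' hi x⟩, fun k hk => ?_⟩
  obtain ⟨N, hN⟩ : ∃ N, N = 2 * ∏ l, (δ l).den := ⟨_, rfl⟩
  obtain ⟨m, hm⟩ : ∃ m, m = m₀ * N := ⟨_, rfl⟩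
  have hm2 : 2 ≤ m := by
    have h0 : 0 < ∏ l, (δ l).den := Finset.prod_pos fun l _ => (δ l).den_pos
    rw [hm, hN]
    nlinarith
  choose c hc using St.nat_mul (fun l => (hδ l).1) (m₀ * 2)
  simp only [mul_assoc m₀, ← hN, ← hm] at hc
  have hc' : (fun l => (c l : ℝ)) = fun l => m * (δ l : ℝ) := funext fun l => by
    exact_mod_cast hc l
  have h3 := (h1 0).pow hi.hol.cont N
  have h4 : SecP d w i univ ((Bd.can d F.X).pow m) G (fun l => m * δ l)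
      fun a x => s 0 a x ^ N := by
    have e : (fun l => (m : ℝ) * δ l) = fun l => N * (m₀ * (δ l : ℝ)) := funext fun l => by
      rw [hm]
      push_cast
      ring
    rw [e]
    refine ⟨h3.hol, fun a b x h5 h6 h7 h8 => (h3.chg a b x h5 h6 h7 h8).trans ?_, h3.bd⟩
    show (_ ^ m₀) ^ N * _ = _ ^ m * _
    rw [hm, pow_mul]
  have hO : IsOpen (i ⁻¹' off G) := (Hyp.of_snc hG').isOpen.preimage hi.hol.cont
  obtain ⟨t, ht⟩ := St.liso_pow
    (adj_iso hi hγ fun z hz => (hR y hy1).sbm hγ hG' hz).symm m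
  have hF : IsLB d ((Bd.can d F.X).pow m) := lb_pow isLB_can m
  have h5 := ht.secP (lb_pow (hi.hol.lb isLB_can) m) hF isOpen_univ hO h4
  have h6 := ht.nz hF ((h4.nz_iff hF (mem_univ x) hx ha).2 (pow_ne_zero N h2))
  obtain ⟨a₀, h7⟩ := hS2 m y (fun c => hy (.inr (mem_iUnion.2 ⟨m, c⟩))) d F i hi _ h5
  obtain ⟨b, hb⟩ := hA.cover y
  obtain ⟨σ, h8, h9⟩ := h7 (k * a₀) (Nat.le_mul_of_pos_left _ hk) b hb
  obtain ⟨j, hj⟩ := (isLB_can (n := w) (W := W.X)).cover (i x)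
  have h10 : SecP w w id univ (((Bd.can w W.X).pow m).mul (pull γ ((A.pow k).pow a₀))) G
      (fun l => c l) σ := by
    rw [hc']
    refine ⟨h8.hol, fun a b x k1 k2 k3 k4 => (h8.chg a b x k1 k2 k3 k4).trans ?_, h8.bd⟩
    show _ * _ ^ (k * a₀) * _ = _ * (_ ^ k) ^ a₀ * _
    rw [pow_mul]
  refine ⟨m, a₀, c, σ, hm2, hc, h10, i x, hx, ?_⟩
  refine (h10.nz_iff (lb_mul (lb_pow isLB_can m) (hγ.lb (lb_pow (lb_pow hA k) a₀))) (mem_univ _)
    hx (a := (j, b)) ⟨hj, ?_⟩).2 ?_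
  · show γ (i x) ∈ A.U b
    rw [hi.fib x]
    exact hb
  · exact (h9 x j hx hj).trans_ne (h6 j hj)

end Vale.Agent.P281Z.U1
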