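import Vale.Agent.P281Z.U1.Main
import Vale.Agent.P281Z.U1.Brl
import Vale.Agent.P281Z.U1.Crit
import Vale.Agent.P281Z.U1.Cv
import Vale.Agent.P281Z.U1.Detp
import Vale.Agent.P281Z.U1.Dett
import Vale.Agent.P281Z.U1.Detx
import Vale.Agent.P281Z.U1.Frob
import Vale.Agent.P281Z.U1.Lc
import Vale.Agent.P281Z.U1.Pf
import Vale.Agent.P281Z.U1.Pw0
import Vale.Agent.P281Z.U1.Rem
import Vale.Agent.P281Z.U1.Rho
import Vale.Agent.P281Z.U1.St
import Vale.Agent.P281Z.U1.Xi0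
import Vale.Agent.P281Z.U1.Diag
import Vale.Agent.P281Z.U1.Est
import Vale.Agent.P281Z.U1.Nrm
import Vale.Agent.P281Z.U1.Prjq
import Vale.Agent.P281Z.En.All
import Vale.Agent.P281Z.Gl.Loc
import Vale.Agent.P281Z.Gl.Cov
import Vale.Agent.P281Z.Gl.Sieg
import Vale.Agent.P281Z.St.Prj
import Vale.Agent.P281Z.Pb.Kode
import Vale.Agent.P277Z.Pos.Kah

/-!
# P281Z, block U1: all the rows
-/

namespace Vale.Agent.P281Z.U1

theorem rows (hR : Rs.RES) (hG : GEN) (hS : START) : Rows where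
  prjq := prjq_of (St.prj_of Pb.kode Pb.psex) (Gt.cov_of hR hG) (Gt.dom_of (Rs.res' hR))
  pw0 := pw0_of hR hw
  rho := rho_of (En.kod hR hS hG) hw
  topf := topf_of hw
  ofpf := ofpf_of hw
  pfm := pfm_of hw
  xi0 := xi0_of detx (dett_of detx hw) detp hw (nul_of detx hw) (pfm_of hw)
  lc := lc_of detx detp hw invv lib ints
  opn := opn_of hw
  est := est_of hw pbc invv cv lib l2x
  nrm := nrm_of hw pbc invv
  diag := diag_of detx (dett_of detx hw) detp hw pbc (frob_of hw) hart (brl_of hw)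
  st := st_of hS hG

theorem u1_all (hR : Rs.RES) (hG : GEN) (hS : START) (hE : Gt.EXT1) : U1 :=
  u1_of (rows hR hG hS) hE Gt.zero hG Pb.psex P277Z.Pos.kah En.cal

end Vale.Agent.P281Z.U1
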