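import Vale.Agent.P281Z.U1.Defs
import Vale.Agent.P281Z.Pb.Api

/-!
# P281Z, block U1: basic facts
-/

open scoped Manifold ContDiff Topology ENNReal
open Set Filter
open Vale.Agent.P272.K Vale.Agent.P285.H281.FD
open Vale.Agent.P277Z (Hol at_chart)
open Vale.Agent.P281Z.Gt
open Vale.Agent.P281Z.Md (Bnd)

noncomputable section

namespace Vale.Agent.P281Z.U1

variable {p a n K : ℕ} {D : Su p a}

namespace Su.Ok

variable (h : D.Ok) {b : D.B.ι} {z : D.Y.X}
include h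

theorem near (hz : z ∈ D.B.U b) : ∀ᶠ y in 𝓝 z, y ∈ D.B.U b := (h.lb.isOpen b).mem_nhds hz

theorem holα (hz : z ∈ D.B.U b) (l : Fin (p + 1)) : Hol p (fun y => D.α b y l) z :=
  fun e he => ((h.sec l).holo b e z he hz).analyticAt

theorem hx_eq (hz : z ∈ D.B.U b) : ∃ c : ℂ, c ≠ 0 ∧ D.S.hx (D.ψ z) = c • D.α b z := by
  have k := (D.S.lb.cover (D.ψ z)).choose_spec
  rw [PS.hx]
  generalize (D.S.lb.cover (D.ψ z)).choose = i at k
  rw [h.eq b z hz] at k ⊢
  exact D.S.x_pt' (h.nz b z hz) k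

theorem tz_eq (hz : z ∈ D.B.U b) : D.tz z = ‖D.α b z 0‖ / ‖D.α b z‖ := by
  obtain ⟨c, h1, h2⟩ := h.hx_eq hz
  rw [Su.tz, PS.hw, h2, Pi.smul_apply, norm_smul, norm_smul,
    mul_div_mul_left _ _ (norm_ne_zero_iff.2 h1)]

theorem mem_Q (hz : z ∈ D.B.U b) : D.α b z 0 = 0 ↔ z ∈ D.Q := by
  obtain ⟨c, h1, h2⟩ := h.hx_eq hz
  rw [show z ∈ D.Q ↔ D.S.hx (D.ψ z) 0 = 0 from Iff.rfl, h2, Pi.smul_apply, smul_eq_mul, mul_eq_zero, or_iff_right h1]

theorem aff_eq (hz : z ∈ D.B.U b) :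
    D.S.aff (D.ψ z) = fun j => D.α b z j.succ / D.α b z 0 := funext fun j => by
  obtain ⟨c, h1, h2⟩ := h.hx_eq hz
  rw [PS.aff, h2, smul_ratio h1]

theorem holψ : HolM p p D.ψ := fun z =>
  let ⟨b, hz⟩ := h.lb.cover z
  (D.S.holA (h.holα hz) (h.nz b z hz)).cng ((h.near hz).mono fun y k => (h.eq b y k).symm)

theorem contα (hz : z ∈ D.B.U b) : ContinuousAt (fun y => ‖D.α b y‖) z :=
  (AnV.pi (h.holα hz)).cont.norm

theorem cont_tz : Continuous D.tz := continuous_iff_continuousAt.2 fun z =>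
  let ⟨b, hz⟩ := h.lb.cover z
  ((h.holα hz 0).cont.norm.div (h.contα hz) (norm_ne_zero_iff.2 (h.nz b z hz))).congr
    ((h.near hz).mono fun _ k => (h.tz_eq k).symm)

theorem tz_nonneg (z : D.Y.X) : 0 ≤ D.tz z := by
  obtain ⟨b, hz⟩ := h.lb.cover z
  rw [h.tz_eq hz]
  positivity

theorem tz_le (z : D.Y.X) : D.tz z ≤ 1 := by
  obtain ⟨b, hz⟩ := h.lb.cover z
  rw [h.tz_eq hz]
  exact div_le_one_of_le₀ (norm_le_pi_norm _ _) (norm_nonneg _)

theorem tz_zero (z : D.Y.X) : D.tz z = 0 ↔ z ∈ D.Q := by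
  obtain ⟨b, hz⟩ := h.lb.cover z
  rw [h.tz_eq hz, div_eq_zero_iff, or_iff_left (norm_ne_zero_iff.2 (h.nz b z hz)), norm_eq_zero,
    h.mem_Q hz]

theorem tz_pos (hz : z ∉ D.Q) : 0 < D.tz z :=
  (h.tz_nonneg z).lt_of_ne' (mt (h.tz_zero z).1 hz)

theorem cpb (hz : z ∈ D.B.U b) : P277Z.Hir.Cpb (𝓝 z) D.tz fun y => ‖D.α b y 0‖ := by
  have h0 : 0 < ‖D.α b z‖ := norm_pos_iff.2 (h.nz b z hz)
  refine ⟨2 / ‖D.α b z‖ + 2 * ‖D.α b z‖, by positivity, ?_⟩
  filter_upwards [h.near hz, (h.contα hz).eventually (lt_mem_nhds (half_lt_self h0)),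
    (h.contα hz).eventually (gt_mem_nhds (lt_two_mul_self h0))] with y k k1 k2
  have k3 : 0 < ‖D.α b y‖ := (half_pos h0).trans k1
  have k4 : 1 / ‖D.α b y‖ ≤ 2 / ‖D.α b z‖ := by
    rw [div_le_div_iff₀ k3 h0]
    linarith
  rw [h.tz_eq k]
  constructor
  · rw [div_eq_mul_one_div, mul_comm]
    exact mul_le_mul_of_nonneg_right (k4.trans (le_add_of_nonneg_right (by positivity)))
      (norm_nonneg _)
  · rw [mul_div_assoc', le_div_iff₀ k3, mul_comm]
    exact mul_le_mul_of_nonneg_right (k2.le.trans (le_add_of_nonneg_left (by positivity)))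
      (norm_nonneg _)

theorem thinNx : Thin (p + a) D.Nxᶜ := by
  have := h.conn
  have k := (h.thin.pre_surj h.hol h.surj).union (snc_thin_off h.snc)
  rwa [show D.f ⁻¹' D.Q ∪ (off D.G)ᶜ = D.Nxᶜ from Set.ext fun x =>
    ((not_and_or (a := D.f x ∉ D.Q)).trans (or_congr_left not_not)).symm] at k

theorem openNx : IsOpen D.Nx := isClosed_compl_iff.1 h.thinNx.closed

theorem sbm {x : D.X.X} (hx : D.f x ∉ D.Q) : Sbm (p + a) p D.f x :=
  (h.reg _ hx).sbm h.hol h.snc rfl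

end Su.Ok

theorem hw : HW := fun _ _ _ h => ⟨h.holψ, h.cont_tz,
  fun z => ⟨h.tz_nonneg z, h.tz_le z, h.tz_zero z⟩, fun _ _ hz => ⟨h.cpb hz, h.mem_Q hz⟩,
  h.thinNx, fun _ => h.sbm⟩

namespace Su.Pw0

variable (P : D.Pw0 n K)

theorem cont : Continuous P.γ := continuous_iff_continuousAt.2 fun v =>
  (P.tm v).b.cont.prodMk (continuousAt_pi.2 fun j => ((P.tm v).x j).cont)

theorem fp (v : P.V.X) : Fp (P.γ v) := (P.tm v).fp.self_of_nhds

theorem holb : HolM K p fun v => (P.γ v).1 := fun v => (P.tm v).b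

theorem holx (j : Fin n) : HolM K (p + a) fun v => (P.γ v).2 j := fun v => (P.tm v).x j

theorem thinA : Thin K P.A := P.thin

theorem closedA : IsClosed P.A := P.thin.closed

theorem holφ (h : D.Ok) : HolM K p P.φ := h.holψ.comp P.holb

end Su.Pw0

section chart

variable {V : Mf K} {E : Chart K V.X} {t : Cm K}

theorem at_refl (t : Cm K) : At (.refl (Cm K)) t := at_chart t

theorem at_symm (hE : E ∈ atlas (Cm K) V.X) (ht : t ∈ E.target) : At E (E.symm t) :=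
  ⟨hE, E.map_target ht⟩

theorem holA_inv (hE : E ∈ atlas (Cm K) V.X) (ht : t ∈ E.target) : HolA K K E.symm t :=
  holA_symm (F := fun s : Cm K => s) (hol_chart (at_chart t)) hE ht

theorem dfM_inv (ht : t ∈ E.target) : dfM E.symm (.refl _) E t = 1 := by
  have k : (fun s => E (E.symm s)) =ᶠ[𝓝 t] id :=
    (E.open_target.eventually_mem ht).mono fun s hs => E.right_inv hs
  rw [dfM, show df E.symm (.refl _) E t = .id ℂ _ from k.fderiv_eq.trans fderiv_id]
  exact LinearMap.toMatrix'_id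

theorem imm_inv (hE : E ∈ atlas (Cm K) V.X) (ht : t ∈ E.target) : Imm K K E.symm t :=
  (imm_iff_det (holA_inv hE ht) (at_refl t) (at_symm hE ht)).2 (by
    rw [dfM_inv ht, Matrix.det_one]
    exact one_ne_zero)

end chart

theorem pb_eq {m : ℕ} {V : Mf K} {A : Set V.X} {ξ : Chart K V.X → V.X → ℂ}
    (h : MS K A ((Bd.can K V.X).pow m) ξ) {l : Cm K → V.X} {t : Cm K} (hl : HolA K K l t)
    (ht : l t ∉ A) {E : Chart K V.X} (hE : At E (l t)) :
    pb m ξ l t = ξ E (l t) * (dfM l (.refl _) E t).det ^ m := by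
  rw [pb, dfM_chg' hl (at_refl t) hE (at_chart _), h.chg E _ _ hE (at_chart _) ht, Matrix.det_mul,
    mul_pow, ← mul_assoc, mul_comm (ξ _ _)]
  rfl

theorem pbc : PBC := fun K m V A ξ hA h => ⟨fun l t hl ht => ⟨by
  have k : Hol K (fun s => ξ (chartAt _ (l t)) (l s) * (dfM l (.refl _) (chartAt _ (l t)) s).det ^ m)
      t := (hl.hol (h.hol _ _ (at_chart _) ht)).mul
    ((hol_det fun i j => hol_dfM hl (at_chart t) (at_chart _) i j).pow m)
  refine AnalyticAt.congr (k _ (at_chart t)) ?_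
  filter_upwards [hl.near, hl.cont.eventually (hA.isOpen_compl.mem_nhds ht),
    hl.cont.eventually (at_near (at_chart (n := K) (l t)))] with s k1 k2 k3
  exact (pb_eq h k1 k2 k3).symm, fun E hE => pb_eq h hl ht hE⟩, fun E v hE hv => by
  have k := E.map_source hE.2
  rw [pb_eq h (holA_inv hE.1 k) (by rwa [E.left_inv hE.2]) (at_symm hE.1 k), dfM_inv k,
    E.left_inv hE.2, Matrix.det_one, one_pow, mul_one]⟩

theorem br_chart (P : D.Pw0 n K) {v : P.V.X} {E : Chart K P.V.X} (hE : At E v) :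
    P.Br (fun t => P.γ (E.symm t)) E.symm (E v) := by
  have k := E.map_source hE.2
  have k1 := holA_inv hE.1 k
  refine ⟨⟨(P.holb.at _).cmp k1, fun j => ((P.holx j).at _).cmp k1, .of_forall fun _ => P.fp _⟩,
    fun c => P.thin.freq v (((P277Z.At.ev hE).1 c).mono fun y hy => not_not.2 hy),
    ⟨_, E.open_target.mem_nhds k, E.symm.injOn.mono inter_subset_left⟩, ?_⟩
  filter_upwards [E.open_target.mem_nhds k] with t ht _
  exact ⟨rfl, holA_inv hE.1 ht, imm_inv hE.1 ht⟩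

theorem invv : INVV := fun p a n K b D P _ => ⟨fun _ _ => br_chart P, fun ξ h v E hE ζ hζ => by
  obtain ⟨C, hC⟩ := h.inv _ _ _ (br_chart P hE) ζ (by rwa [E.left_inv hE.2])
  refine ⟨C, ?_⟩
  filter_upwards [(E.continuousAt hE.2).eventually hC, at_near hE] with y k1 k2 k3
  rw [← (pbc K D.m P.V P.A ξ P.closedA h.ms).2 E y k2 k3]
  simpa only [E.left_inv k2.2] using k1 ⟨by
    simpa only [E.left_inv k2.2] using not_not.1 k3, notMem_empty _⟩⟩

end Vale.Agent.P281Z.U1
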