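import Vale.Agent.P281Z.Gt.SkT
import Vale.Agent.P281Z.Mf.Adj
import Vale.Agent.P281Z.Md.Defs
import Vale.Agent.P281Z.En.Sk
import Vale.Agent.P281Z.St.Defs
import Vale.Agent.P281Z.Sc.L2
import Vale.Agent.P277Z.GH.PurA

/-!
# P281Z, block U1: definitions and statements
-/

open scoped Manifold ContDiff Topology ENNReal
open Set Filter MeasureTheory
open Vale.Agent.P272.K Vale.Agent.P285.H281.FD
open Vale.Agent.P277Z (Hol Mer Nz jd)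
open Vale.Agent.P277Z.Slc (lin Ind LEq Snc ForW)
open Vale.Agent.P277Z.Hir (Cpb)
open Vale.Agent.P277Z.GH.Pur (CopF)
open Vale.Agent.P277.HD (pull)
open Vale.Agent.P281Z.Gt
open Vale.Agent.P281Z.Md (Bnd)

noncomputable section

namespace Vale.Agent.P281Z.U1

/-- a fibration, with a map `ψ` of the base to the projective space -/
structure Su (p a : ℕ) : Type 1 extends Fb (p + a) p where
  S : PS p
  B : Bd Y.X
  α : B.ι → Y.X → Cm (p + 1)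
  ψ : Y.X → S.P.X
  m : ℕ
  c : κ → ℕ

variable {p a n : ℕ}

namespace Su

variable (D : Su p a)

/-- the hyperplane section at infinity -/
def Q : Set D.Y.X := {z | D.S.hx (D.ψ z) 0 = 0}

/-- the distance to `Q` -/
def tz (z : D.Y.X) : ℝ := D.S.hw (D.ψ z)

/-- the nice points -/
def Nx : Set D.X.X := {x | D.f x ∉ D.Q ∧ x ∈ off D.G}

/-- the nice points of the fibre power -/
def Nq (n : ℕ) : Set (Pt D.toFb n) := {q | q.1 ∉ D.Q ∧ ∀ j, q.2 j ∈ off D.G}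

/-- the standing hypotheses -/
structure Ok : Prop where
  conn : ConnectedSpace D.X.X
  kahX : D.X.Kah
  kahY : D.Y.Kah
  hol : HolM (p + a) p D.f
  surj : Function.Surjective D.f
  snc : Snc (p + a) D.G
  lb : IsLB p D.B
  sec : ∀ l, IsSec p D.B fun b z => D.α b z l
  nz : ∀ b, ∀ z ∈ D.B.U b, D.α b z ≠ 0
  eq : ∀ b, ∀ z ∈ D.B.U b, D.ψ z = D.S.pt (D.α b z)
  imm : ∃ z, Imm p p D.ψ z
  thin : Thin p D.Q
  reg : ∀ z ∉ D.Q, RegAt (p + a) p D.f D.G z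
  two : 2 ≤ D.m
  le : ∀ l, D.c l ≤ D.m

/-- a section of `k K_X - i f^* K_Y` with poles at most `u ∑ c l • G l + b Q` -/
structure PF (k i u b : ℕ) (σ : Chart (p + a) D.X.X → Chart p D.Y.X → D.X.X → ℂ) : Prop where
  hol : ∀ e e', ∀ x ∈ D.Nx, At e x → At e' (D.f x) → Hol (p + a) (σ e e') x
  chg : ∀ e e₁ e' e₁', ∀ x ∈ D.Nx, At e x → At e₁ x → At e' (D.f x) → At e₁' (D.f x) →
    σ e e' x * (jacM e' e₁' (D.f x)).det ^ i = (jacM e e₁ x).det ^ k * σ e₁ e₁' x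
  bd : ∀ e e' x (ζ : D.κ → D.X.X → ℂ), At e x → At e' (D.f x) →
    (∀ l, LEq (p + a) (D.G l) x (ζ l)) → Bnd D.Nx
      (fun y => ‖σ e e' y‖ * ((∏ l, ‖ζ l y‖ ^ D.c l) ^ u * D.tz (D.f y) ^ b)) x

/-- `σ` does not vanish at `x` -/
def Nv (σ : Chart (p + a) D.X.X → Chart p D.Y.X → D.X.X → ℂ) (x : D.X.X) : Prop :=
  σ (chartAt _ x) (chartAt _ (D.f x)) x ≠ 0

/-- the functions `w` are coordinates on the fibres near `x` -/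
def Fc (w : Fin a → D.X.X → ℂ) (x : D.X.X) : Prop :=
  (∀ i, Hol (p + a) (w i) x) ∧ ∀ e e', At e x → At e' (D.f x) → jdw (M := D.toFb) w e e' x ≠ 0

open Classical in
/-- a choice of coordinates on the fibres -/
def wc (x : D.X.X) : Fin a → D.X.X → ℂ := if h : ∃ w, D.Fc w x then h.choose else 0

/-- near `x` the map `f` is a function of the first coordinates -/
def Lp (x : D.X.X) : Prop :=
  ∃ (Θ : OpenPartialHomeomorph D.X.X (Cm p × Cm a)) (g : Cm p → D.Y.X), Co (p + a) Θ ∧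
    x ∈ Θ.source ∧ HolA p p g (Θ x).1 ∧ ∀ᶠ y in 𝓝 x, D.f y = g (Θ y).1

variable {D}

/-- coordinates on the fibre power -/
def cow (e' : Chart p D.Y.X) (w : Fin n → Fin a → D.X.X → ℂ) (q : Pt D.toFb n) : Cm (p + n * a) :=
  Fin.append (e' q.1) fun k =>
    w (finProdFinEquiv.symm k).1 (finProdFinEquiv.symm k).2 (q.2 (finProdFinEquiv.symm k).1)

/-- the Jacobian determinant of the coordinates along `γ` -/
def jnw {T : Type} [TopologicalSpace T] (e' : Chart p D.Y.X) (w : Fin n → Fin a → D.X.X → ℂ)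
    (γ : T → Pt D.toFb n) (E : Chart (p + n * a) T) (t : T) : ℂ :=
  jd (fun i s => cow e' w (γ s) i) E t

/-- the comparison of `K_T` with `∑ K_X - (n - 1) K_Y` -/
def cmp {T : Type} [TopologicalSpace T] (γ : T → Pt D.toFb n) (E : Chart (p + n * a) T)
    (e' : Chart p D.Y.X) (e : Fin n → Chart (p + a) D.X.X) (t : T) : ℂ :=
  jnw e' (fun j => D.wc ((γ t).2 j)) γ E t /
    ∏ j, jdw (M := D.toFb) (D.wc ((γ t).2 j)) (e j) e' ((γ t).2 j)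

/-- the monomial in the local equations -/
def mo (ζ : Fin n → D.κ → D.X.X → ℂ) (q : Pt D.toFb n) : ℂ := ∏ j, ∏ l, ζ j l (q.2 j) ^ D.c l

/-- local equations at the points of `q` -/
def Le (ζ : Fin n → D.κ → D.X.X → ℂ) (q : Pt D.toFb n) : Prop :=
  ∀ j l, LEq (p + a) (D.G l) (q.2 j) (ζ j l)

variable (D) in
/-- a connected model of the component of the fibre power which contains the diagonal -/
structure Pw0 (n K : ℕ) : Type 1 where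
  V : Mf K
  γ : V.X → Pt D.toFb n
  tm : ∀ v, Tm K γ v
  conn : ConnectedSpace V.X
  kah : V.Kah
  thin : Thin K {v | γ v ∉ D.Nq n}
  inj : ∀ v v', γ v' = γ v → (γ v).1 ∉ D.Q → v' = v
  lift : ForW fun k T _ _ => ∀ (g : T → Pt D.toFb n) (t : T), Tm k g t → (g t).1 ∉ D.Q →
    g t ∈ range γ → ∃ l : T → V.X, HolA k K l t ∧ ∀ᶠ s in 𝓝 t, γ (l s) = g s
  diag : ∀ x, D.f x ∉ D.Q → dg n x ∈ range γ
  prop : ∀ (T : Type) [TopologicalSpace T] (g : T → Pt D.toFb n) (s : Set T), IsPreconnected s →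
    ContinuousOn g s → (∀ t ∈ s, Fp (g t) ∧ (g t).1 ∉ D.Q) → (∃ t ∈ s, g t ∈ range γ) →
    ∀ t ∈ s, g t ∈ range γ

end Su

/-- the pull back of an `m`-canonical form -/
def pb {K : ℕ} {V : Mf K} (m : ℕ) (ξ : Chart K V.X → V.X → ℂ) (l : Cm K → V.X) (t : Cm K) : ℂ :=
  ξ (chartAt _ (l t)) (l t) * (dfM l (.refl _) (chartAt (Cm K) (l t)) t).det ^ m

namespace Su.Pw0

variable {D : Su p a} {K : ℕ} (P : D.Pw0 n K)

/-- the points which are not nice -/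
def A : Set P.V.X := {v | P.γ v ∉ D.Nq n}

/-- a branch of the fibre power -/
structure Br (β : Cm K → Pt D.toFb n) (l : Cm K → P.V.X) (t₀ : Cm K) : Prop where
  tm : Tm K β t₀
  nz : ∃ᶠ t in 𝓝 t₀, β t ∈ D.Nq n
  inj : ∃ U ∈ 𝓝 t₀, InjOn l (U ∩ {t | (β t).1 ∉ D.Q})
  lift : ∀ᶠ t in 𝓝 t₀, (β t).1 ∉ D.Q → P.γ (l t) = β t ∧ HolA K K l t ∧ Imm K K l t

/-- the poles of `ξ` on the branches, off `A'` -/
def Inv (A' : Set P.V.X) (ξ : Chart K P.V.X → P.V.X → ℂ) (b : ℕ) : Prop :=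
  ∀ β l t₀, P.Br β l t₀ → ∀ ζ, Le ζ (β t₀) → Bnd {t | β t ∈ D.Nq n ∧ l t ∉ A'}
    (fun t => ‖pb D.m ξ l t‖ * (‖mo ζ (β t)‖ * D.tz (β t).1 ^ b)) t₀

/-- the poles of `ξ` on the model -/
def InvV (ξ : Chart K P.V.X → P.V.X → ℂ) (b : ℕ) : Prop :=
  ∀ v E, At E v → ∀ ζ, Le ζ (P.γ v) → Bnd P.Aᶜ
    (fun y => ‖ξ E y‖ * (‖mo ζ (P.γ y)‖ * D.tz (P.γ y).1 ^ b)) v

/-- the invariant of the iteration -/
structure Good (ξ : Chart K P.V.X → P.V.X → ℂ) (b : ℕ) : Prop where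
  ms : MS K P.A ((Bd.can K P.V.X).pow D.m) ξ
  inv : P.Inv ∅ ξ b
  nv : ∃ v ∉ P.A, ∃ x, P.γ v = dg n x ∧ ξ (chartAt _ v) v ≠ 0

/-- the map to the projective space -/
def φ (v : P.V.X) : D.S.P.X := D.ψ (P.γ v).1

end Su.Pw0

open Su

/-! ### determinants -/

/-- the Jacobian determinants `jdw` -/
structure DetX (D : Su p a) : Prop where
  ex : ∀ x, Sbm (p + a) p D.f x → D.Fc (D.wc x) x
  sbm : ∀ w x, D.Fc w x → Sbm (p + a) p D.f x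
  fc : ∀ w x e e', (∀ i, Hol (p + a) (w i) x) → At e x → At e' (D.f x) →
    jdw (M := D.toFb) w e e' x ≠ 0 → ∀ᶠ y in 𝓝 x, D.Fc w y
  hol : ∀ w x e e', (∀ i, Hol (p + a) (w i) x) → At e x → At e' (D.f x) →
    Hol (p + a) (jdw (M := D.toFb) w e e') x
  chg : ∀ w x e e₁ e' e₁', (∀ i, Hol (p + a) (w i) x) → At e x → At e₁ x → At e' (D.f x) →
    At e₁' (D.f x) → jdw (M := D.toFb) w e e' x * (jacM e' e₁' (D.f x)).det =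
      (jacM e e₁ x).det * jdw (M := D.toFb) w e₁ e₁' x
  ind : ∀ (ι : Type) [Fintype ι] (ζ : ι → D.X.X → ℂ) x (e' : Chart p D.Y.X), At e' (D.f x) →
    Ind (p + a) (Sum.elim ζ fun (i : Fin p) z => e' (D.f z) i) x →
    ∃ (w : Fin a → D.X.X → ℂ) (τ : ι → Fin a), D.Fc w x ∧ Function.Injective τ ∧ ∀ i, w (τ i) = ζ i

/-- charts at the points of `q` -/
def Ats {D : Su p a} (e' : Chart p D.Y.X) (e : Fin n → Chart (p + a) D.X.X) (q : Pt D.toFb n) :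
    Prop := At e' q.1 ∧ ∀ j, At (e j) (q.2 j)

/-- the Jacobian determinants `jnw`, `cmp` along a test map -/
structure DetT (D : Su p a) (s : ℕ) (T : Type) [TopologicalSpace T]
    [ChartedSpace (Cm (p + (s + 1) * a)) T] (γ : T → Pt D.toFb (s + 1)) (t : T) : Prop where
  hol : ∀ E e' w, At E t → At e' (γ t).1 → (∀ j i, Hol (p + a) (w j i) ((γ t).2 j)) →
    Hol (p + (s + 1) * a) (jnw e' w γ E) t
  eq : ∀ E e' e w, At E t → Ats e' e (γ t) → (γ t).1 ∉ D.Q →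
    (∀ j i, Hol (p + a) (w j i) ((γ t).2 j)) →
    cmp γ E e' e t * ∏ j, jdw (M := D.toFb) (w j) (e j) e' ((γ t).2 j) = jnw e' w γ E t
  holc : ∀ E e' e, At E t → Ats e' e (γ t) → (γ t).1 ∉ D.Q →
    Hol (p + (s + 1) * a) (cmp γ E e' e) t
  chg : ∀ E E₁ e' e₁' e e₁, At E t → At E₁ t → Ats e' e (γ t) → Ats e₁' e₁ (γ t) →
    (γ t).1 ∉ D.Q → cmp γ E e' e t * ∏ j, (jacM (e j) (e₁ j) ((γ t).2 j)).det =
      (jacM E E₁ t).det * (jacM e' e₁' (γ t).1).det ^ s * cmp γ E₁ e₁' e₁ t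

/-- **DETX** -/
def DETX : Prop := ∀ (p a : ℕ) (D : Su p a), D.Ok → DetX D

/-- **DETT** -/
def DETT : Prop := ∀ (p a s : ℕ) (D : Su p a), D.Ok → ∀ (T : Type) [TopologicalSpace T]
  [ChartedSpace (Cm (p + (s + 1) * a)) T] [IsManifold 𝓘(ℂ, Cm (p + (s + 1) * a)) ω T]
  (γ : T → Pt D.toFb (s + 1)) (t : T), Tm (p + (s + 1) * a) γ t → DetT D s T γ t

/-- **DETP**: the chain rule, and the coordinates of the model -/
def DETP : Prop := ∀ (p a n : ℕ) (D : Su p a) (P : D.Pw0 n (p + n * a)), D.Ok →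
  (∀ β l t E e' w, HolA (p + n * a) (p + n * a) l t → (∀ᶠ s in 𝓝 t, P.γ (l s) = β s) →
    At E (l t) → At e' (β t).1 → (∀ j i, Hol (p + a) (w j i) ((β t).2 j)) →
    jnw e' w β (.refl _) t = jnw e' w P.γ E (l t) * (dfM l (.refl _) E t).det) ∧
  ∀ v E e' w, At E v → At e' (P.γ v).1 → (P.γ v).1 ∉ D.Q → (∀ j, D.Fc (w j) ((P.γ v).2 j)) →
    jnw e' w P.γ E v ≠ 0 ∧ Ind (p + n * a) (fun i y => cow e' w (P.γ y) i) v

/-! ### tools -/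

/-- **HW**: the distance to the hyperplane at infinity -/
def HW : Prop := ∀ (p a : ℕ) (D : Su p a), D.Ok → HolM p p D.ψ ∧ Continuous D.tz ∧
  (∀ z, 0 ≤ D.tz z ∧ D.tz z ≤ 1 ∧ (D.tz z = 0 ↔ z ∈ D.Q)) ∧
  (∀ b, ∀ z ∈ D.B.U b, Cpb (𝓝 z) D.tz (fun y => ‖D.α b y 0‖) ∧ (D.α b z 0 = 0 ↔ z ∈ D.Q)) ∧
  Thin (p + a) D.Nxᶜ ∧ ∀ x, D.f x ∉ D.Q → Sbm (p + a) p D.f x

/-- **PB**: pull backs of pluricanonical forms -/
def PBC : Prop := ∀ (K m : ℕ) (V : Mf K) (A : Set V.X) (ξ : Chart K V.X → V.X → ℂ), IsClosed A →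
  MS K A ((Bd.can K V.X).pow m) ξ →
  (∀ (l : Cm K → V.X) t, HolA K K l t → l t ∉ A → AnalyticAt ℂ (pb m ξ l) t ∧
    ∀ E, At E (l t) → pb m ξ l t = ξ E (l t) * (dfM l (.refl _) E t).det ^ m) ∧
  ∀ E v, At E v → v ∉ A → pb m ξ E.symm (E v) = ξ E v

/-- **CV**: the change of variables -/
def CV : Prop := ∀ (K : ℕ) (V : Mf K) (A F : Set V.X) (u : Chart K V.X → V.X → ℝ≥0∞)
  (l : Cm K → V.X) (U : Set (Cm K)) (t₀ : Cm K), IsClosed F → (∀ v ∈ F, LI K u v) →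
  (∀ v ∉ A, ∀ E E₁, At E v → At E₁ v → u E v = u E₁ v * ‖(jacM E E₁ v).det‖ₑ ^ 2) → IsOpen U →
  (∀ t ∈ U, HolA K K l t ∧ l t ∉ A) → InjOn l U →
  (∀ O, IsOpen O → F ⊆ O → ∀ᶠ t in 𝓝 t₀, t ∈ U → l t ∈ O) →
  ∃ r > 0, ∫⁻ t in Metric.ball t₀ r ∩ U, u (chartAt _ (l t)) (l t) *
    ‖(dfM l (.refl _) (chartAt (Cm K) (l t)) t).det‖ₑ ^ 2 < ⊤

/-- **LIB**: densities which are bounded by an integrable function -/
def LIB : Prop := ∀ (K : ℕ) (V : Mf K) (A : Set V.X) (u : Chart K V.X → V.X → ℝ≥0∞)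
  (g : V.X → ℝ≥0∞) (v : V.X) (E₀ : Chart K V.X) (C : ℝ≥0∞), Thin K A → At E₀ v → C ≠ ⊤ →
  (∀ y ∉ A, ∀ E E₁, At E y → At E₁ y → u E y = u E₁ y * ‖(jacM E E₁ y).det‖ₑ ^ 2) →
  Li K g v → (∀ᶠ y in 𝓝 v, y ∉ A → u E₀ y ≤ C * g y) → LI K u v

/-- **INTS**: monomials with exponents larger than `-2` are integrable -/
def INTS : Prop := ∀ (K : ℕ) (V : Mf K) (ι : Type) [Fintype ι] (ζ : ι → V.X → ℂ) (θ : ι → ℝ)
  (v : V.X), Ind K ζ v → (∀ i, -2 < θ i) →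
  Li K (fun y => ENNReal.ofReal (∏ i, ‖ζ i y‖ ^ θ i)) v

/-- **L2X**: square integrable holomorphic functions are bounded -/
def L2X : Prop := ∀ (K : ℕ) (F H : Cm K → ℂ) (N : Set (Cm K)) (t₀ : Cm K) (r : ℝ), 0 < r →
  AnalyticAt ℂ H t₀ → (¬ ∀ᶠ t in 𝓝 t₀, H t = 0) →
  (∀ᶠ t in 𝓝 t₀, H t ≠ 0 → (t ∉ N → AnalyticAt ℂ F t ∧ ∀ᶠ s in 𝓝 t, s ∉ N) ∧
    ∃ h : Cm K → ℂ, AnalyticAt ℂ h t ∧ (¬ ∀ᶠ s in 𝓝 t, h s = 0) ∧ ∀ᶠ s in 𝓝 t, s ∈ N → h s = 0) →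
  ∫⁻ t in Metric.ball t₀ r ∩ {t | H t ≠ 0 ∧ t ∉ N}, ‖F t‖ₑ ^ (2 : ℕ) < ⊤ →
  Bnd {t | H t ≠ 0 ∧ t ∉ N} (fun t => ‖F t‖) t₀

/-- **NUL**: the critical locus of `f` is over `Q` -/
def NUL : Prop := ∀ (p a : ℕ) (D : Su p a), D.Ok → ∃ K₀ : ℕ, ∀ x₀, ∃ (k : ℕ)
  (w : Fin k → Fin a → D.X.X → ℂ), (∀ i j, Hol (p + a) (w i j) x₀) ∧ ∀ e e', At e x₀ →
    At e' (D.f x₀) → ∃ C : ℝ, ∀ᶠ x in 𝓝 x₀, ∃ i,
      D.tz (D.f x) ^ K₀ ≤ C * ‖jdw (M := D.toFb) (w i) e e' x‖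

/-- **FROB**: leaf coordinates exist off a set of codimension two -/
def FROB : Prop := ∀ (p a : ℕ) (D : Su p a), D.Ok → ∀ x₀, ∃ (ι : Type) (_ : Fintype ι)
  (h : ι → D.X.X → ℂ), ∀ᶠ y in 𝓝 x₀, (∀ i, Hol (p + a) (h i) y) ∧ CopF (p + a) h y ∧
    ((∃ i, h i y ≠ 0) → D.Lp y)

/-- **HART**: the theorem of Hartogs -/
def HART : Prop := ∀ (n : ℕ) (V : Mf n) (ι : Type) [Fintype ι] (h : ι → V.X → ℂ) (T : Set V.X)
  (u : V.X → ℂ) (x : V.X), Thin n T → (∀ᶠ y in 𝓝 x, (∀ i, Hol n (h i) y) ∧ CopF n h y ∧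
    (y ∉ T → Hol n u y) ∧ ((∃ i, h i y ≠ 0) → Bnd Tᶜ (fun z => ‖u z‖) y)) →
  Bnd Tᶜ (fun z => ‖u z‖) x

/-- **PRJQ**: a projection with `Q` in the hyperplane at infinity -/
def PRJQ : Prop := ∀ (r : ℕ) (Z : Mf r) (A : Bd Z.X) (Q : Set Z.X) (S : PS r),
  ConnectedSpace Z.X → IsLB r A → Pos r A → Thin r Q →
  ∃ (k : ℕ) (α : A.ι → Z.X → Cm (r + 1)) (ψ : Z.X → S.P.X), 1 ≤ k ∧
    (∀ l, IsSec r (A.pow k) fun b z => α b z l) ∧ (∀ b, ∀ z ∈ A.U b, α b z ≠ 0) ∧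
    (∀ b, ∀ z ∈ A.U b, ψ z = S.pt (α b z)) ∧ (∃ z, Imm r r ψ z) ∧
    Thin r {z | S.hx (ψ z) 0 = 0} ∧ ∀ z ∈ Q, S.hx (ψ z) 0 = 0

/-- **PW0** -/
def PW0 : Prop := ∀ (p a n : ℕ) (D : Su p a), D.Ok → Nonempty (D.Pw0 n (p + n * a))

/-! ### the steps -/

/-- **RHO**: a section of `- m f^* K_Y` -/
def RHO : Prop := ∀ (p a : ℕ) (D : Su p a), D.Ok →
  ∃ b ρ, D.PF 0 D.m 0 b ρ ∧ ∃ x ∈ D.Nx, D.Nv ρ x

/-- **TOPF**: from sections to forms with poles -/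
def TOPF : Prop := ∀ (p a : ℕ) (D : Su p a) (b : ℕ)
  (σ : (((Bd.can (p + a) D.X.X).pow D.m).mul (pull D.f (D.B.pow b))).ι → D.X.X → ℂ), D.Ok →
  SecP (p + a) (p + a) id univ _ D.G (fun l => D.c l) σ → (∃ x ∈ off D.G, NZ _ σ x) →
  ∃ ω', D.PF D.m 0 1 b ω' ∧ ∃ x ∈ D.Nx, D.Nv ω' x

/-- **OFPF**: from forms with poles to sections -/
def OFPF : Prop := ∀ (p a : ℕ) (D : Su p a) (k u b : ℕ) σ, D.Ok → D.PF k k u b σ →
  (∃ x ∈ D.Nx, D.Nv σ x) → KapL (p + a) (p + a) id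
    (lin ![Bd.can (p + a) D.X.X, pull D.f (Bd.can p D.Y.X), pull D.f D.B] ![k, -k, b]) D.G
    (fun l => u * D.c l) 0

/-- **PFM**: products -/
def PFM : Prop := ∀ (p a : ℕ) (D : Su p a) (k i u b k' i' u' b' : ℕ) σ σ', D.Ok →
  D.PF k i u b σ → D.PF k' i' u' b' σ' →
  D.PF (k + k') (i + i') (u + u') (b + b') (fun e e' x => σ e e' x * σ' e e' x) ∧
    ((∃ x ∈ D.Nx, D.Nv σ x) → (∃ x ∈ D.Nx, D.Nv σ' x) → ∃ x ∈ D.Nx, D.Nv σ x ∧ D.Nv σ' x) ∧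
    ∀ x e e' (ζ : D.κ → D.X.X → ℂ) j, At e x → At e' (D.f x) → D.f x ∈ D.B.U j →
      (∀ l, LEq (p + a) (D.G l) x (ζ l)) → ∃ g, Hol (p + a) g x ∧ ∀ᶠ y in 𝓝 x, y ∈ D.Nx →
        σ e e' y * ((∏ l, ζ l y ^ D.c l) ^ u * D.α j (D.f y) 0 ^ b) = g y

/-- **XI0**: the start of the iteration -/
def XI0 : Prop := ∀ (p a s b b' : ℕ) (D : Su p a) (P : D.Pw0 (s + 1) (p + (s + 1) * a)) ω' ρ,
  D.Ok → D.PF D.m 0 1 b ω' → D.PF 0 D.m 0 b' ρ → (∃ x ∈ D.Nx, D.Nv ω' x ∧ D.Nv ρ x) →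
  ∃ ξ b₀, P.Good ξ b₀

/-- **INVV**: the charts of the model are branches -/
def INVV : Prop := ∀ (p a n K b : ℕ) (D : Su p a) (P : D.Pw0 n K), D.Ok →
  (∀ v E, At E v → P.Br (fun t => P.γ (E.symm t)) E.symm (E v)) ∧
  ∀ ξ, P.Good ξ b → P.InvV ξ b

/-- **LC** -/
def LC : Prop := ∀ (p a n b : ℕ) (D : Su p a) (P : D.Pw0 n (p + n * a)) ξ, D.Ok → P.Good ξ b →
  ∀ v, (P.γ v).1 ∉ D.Q → Lc (p + n * a) (dens ξ ξ ((D.m - 1 : ℚ) / D.m : ℚ)) v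

/-- **OPN**: the general fibres meet the diagonal at a point where `ξ` does not vanish -/
def OPN : Prop := ∀ (p a n K b : ℕ) (D : Su p a) (P : D.Pw0 n K) ξ, D.Ok → P.Good ξ b →
  ∃ᵐ c ∂(volume : Measure (Cm p)), ∃ v ∉ P.A, ∃ x, P.γ v = dg n x ∧ ξ (chartAt _ v) v ≠ 0 ∧ D.S.aff (P.φ v) = c

/-- **EST**: the estimate -/
def EST : Prop := ∀ (p a n K b b' : ℕ) (D : Su p a) (P : D.Pw0 n K) ξ ξ' (A' : Set P.V.X), D.Ok →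
  P.Good ξ b → P.A ⊆ A' → Thin K A' → MS K A' ((Bd.can K P.V.X).pow D.m) ξ' →
  (∀ E v, At E v → v ∉ A' → ξ E v ≠ 0) →
  Keep K (dens ξ ξ ((D.m - 1 : ℚ) / D.m : ℚ)) (fun E y => dens ξ' ξ ((D.m - 1 : ℚ) / D.m : ℚ) E y *
    ENNReal.ofReal (D.S.hw (P.φ y)) ^ (2 * (p + 1) : ℕ)) →
  b * (D.m - 1) + D.m * (p + 1) + 1 ≤ b' * D.m → P.Inv A' ξ' b'

/-- **NRM**: the extension across `A'` -/
def NRM : Prop := ∀ (p a n K b : ℕ) (D : Su p a) (P : D.Pw0 n K) ξ' (A' : Set P.V.X), D.Ok →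
  P.A ⊆ A' → Thin K A' → MS K A' ((Bd.can K P.V.X).pow D.m) ξ' → P.Inv A' ξ' b →
  ∃ ξ, MS K P.A ((Bd.can K P.V.X).pow D.m) ξ ∧ P.Inv ∅ ξ b ∧
    ∀ E v, At E v → v ∉ A' → ξ E v = ξ' E v

/-- **BRL**: the branch which is given by leaf coordinates -/
def BRL : Prop := ∀ (p a s : ℕ) (D : Su p a) (P : D.Pw0 (s + 1) (p + (s + 1) * a)) x₀, D.Ok →
  D.Lp x₀ → ∃ (β : Cm (p + (s + 1) * a) → Pt D.toFb (s + 1)) (l : _ → P.V.X)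
    (τ : D.X.X → Cm (p + (s + 1) * a)) (w : Fin a → D.X.X → ℂ), P.Br β l (τ x₀) ∧
    ContinuousAt τ x₀ ∧ (∀ i, Hol (p + a) (w i) x₀) ∧ (∀ᶠ x in 𝓝 x₀, β (τ x) = dg (s + 1) x) ∧
    ∀ e e', At e x₀ → At e' (D.f x₀) → ∃ C : ℝ, ∀ᶠ x in 𝓝 x₀, D.f x ∉ D.Q →
      jdw (M := D.toFb) w e e' x ≠ 0 ∧
      ‖jdw (M := D.toFb) w e e' x‖ ≤ C * ‖jnw e' (fun _ => w) β (.refl _) (τ x)‖

/-- **DIAG**: the restriction to the diagonal -/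
def DIAG : Prop := ∀ (p a s b : ℕ) (D : Su p a) (P : D.Pw0 (s + 1) (p + (s + 1) * a)) ξ, D.Ok →
  P.Good ξ b → ∃ σ, D.PF ((s + 1) * D.m) (s * D.m) (s + 1) b σ ∧ ∃ x ∈ D.Nx, D.Nv σ x

/-- **ST**: the start -/
def ST : Prop :=
  ∀ (w r : ℕ) (W : Mf w) (Z : Mf r) (γ : W.X → Z.X) (A : Bd Z.X) (κ : Type) [Fintype κ]
    (G : κ → Set W.X) (δ : κ → ℚ), ConnectedSpace W.X → W.Kah → HolM w r γ →
    Function.Surjective γ → IsLB r A → Pos r A → Snc w G → (∀ l, 0 ≤ δ l ∧ δ l ≤ 1) →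
    (∃ d, Oft w r γ d fun F i => KapL d w i (Bd.can d F.X) G (fun l => δ l) 0) →
    (∃ a, w = r + a) ∧ ∀ k, 1 ≤ k → ∃ (m b : ℕ) (c : κ → ℕ)
      (σ : (((Bd.can w W.X).pow m).mul (pull γ ((A.pow k).pow b))).ι → W.X → ℂ), 2 ≤ m ∧
      (∀ l, (c l : ℚ) = m * δ l) ∧ SecP w w id univ _ G (fun l => c l) σ ∧
      ∃ x ∈ off G, NZ _ σ x

end Vale.Agent.P281Z.U1
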