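import Vale.Agent.P281Z.U1.Basic
import Vale.Agent.P281Z.En.Kp

/-!
# P281Z, block U1: the assembly
-/

open scoped Manifold ContDiff Topology ENNReal
open Set Filter
open Vale.Agent.P272.K Vale.Agent.P285.H281.FD
open Vale.Agent.P277Z (Hol at_chart)
open Vale.Agent.P277Z.Slc (lin isLB_can)
open Vale.Agent.P277.HD (pull)
open Vale.Agent.P281Z.Gt Vale.Agent.P281Z.En

noncomputable section

namespace Vale.Agent.P281Z.U1

variable {p a n : ℕ} {D : Su p a}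

theorem ms_mono {K : ℕ} {V : Mf K} {A A' : Set V.X} {L : Bd V.X} {s : L.ι → V.X → ℂ}
    (h : MS K A L s) (k : A ⊆ A') : MS K A' L s :=
  ⟨fun a x h1 h2 => h.hol a x h1 (mt (@k x) h2), fun a b x h1 h2 h3 => h.chg a b x h1 h2 (mt (@k x) h3),
    h.mer⟩

theorem ms_zero {K m : ℕ} {V : Mf K} {A : Set V.X} {ξ : Chart K V.X → V.X → ℂ}
    (h : MS K A ((Bd.can K V.X).pow m) ξ) {E : Chart K V.X} {v : V.X} (hE : At E v) (hv : v ∉ A) :
    ξ (chartAt _ v) v = 0 ↔ ξ E v = 0 := by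
  rw [h.chg _ E v (at_chart v) hE hv, mul_eq_zero,
    or_iff_right ((lb_pow isLB_can m).ne_zero _ _ _ (at_chart v) hE)]

/-- one step of the iteration -/
theorem step (hE : EXT1) (hZ : ZERO) (hL : LC) (hO : OPN) (hS : EST) (hN : NRM) (h : D.Ok)
    (P : D.Pw0 n (p + n * a)) {ξ : _} {b b' : ℕ} (g : P.Good ξ b)
    (hb : b * (D.m - 1) + D.m * (p + 1) + 1 ≤ b' * D.m) : ∃ ξ', P.Good ξ' b' := by
  obtain ⟨v₀, h1, -, -, h2⟩ := g.nv
  have t : Thin _ (P.A ∪ {v | ξ (chartAt _ v) v = 0}) := hZ _ P.V _ _ P.conn P.thinA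
    (fun x => ⟨ξ (chartAt _ x), g.ms.mer _ x (at_chart x), (at_near (at_chart x)).mono
      fun y k1 k2 => ⟨g.ms.hol _ y k1 k2, ms_zero g.ms k1 k2⟩⟩) ⟨v₀, h1, h2⟩
  have m2 : (2 : ℚ) ≤ D.m := by exact_mod_cast h.two
  have nz : ∀ E v, At E v → v ∉ P.A ∪ {v | ξ (chartAt _ v) v = 0} → ξ E v ≠ 0 :=
    fun E v k1 k2 => mt (ms_zero g.ms k1 fun c => k2 (.inl c)).2 fun c => k2 (.inr c)
  have ms := ms_mono g.ms (subset_union_left (t := {v | ξ (chartAt _ v) v = 0}))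
  obtain ⟨c, ⟨v, k1, x, k2, k3, k4⟩, k5⟩ := ((hO p a n _ b D P ξ h g).and_eventually
    (hE _ p D.m D.m P.V D.S P.φ ((D.m - 1) / D.m) _ ξ ξ univ P.conn P.kah (P.holφ h)
      ⟨v₀, (not_not.1 h1).1⟩ (one_le_two.trans h.two) (div_nonneg (by linarith) (by linarith))
      (div_mul_cancel₀ _ (by linarith)) t ms ms nz isOpen_univ
      fun v k _ => hL p a n b D P ξ h g v k)).exists
  obtain ⟨ξ', A', l1, l2, l3, l4, l5⟩ := k5 trivial
  have l6 : P.A ⊆ A' := subset_union_left.trans l1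
  obtain ⟨ξ₁, m1, m3, m4⟩ := hN p a n _ b' D P ξ' A' h l6 l2 l3 (hS p a n _ b b' D P ξ ξ' A' h g l6
    l2 l3 (fun E v k1 k2 => nz E v k1 (mt (@l1 v) k2)) l5 hb)
  have q : D.S.hx (P.φ v) 0 ≠ 0 := (not_not.1 k1).1
  refine ⟨ξ₁, m1, m3, v, k1, x, k2, fun c0 => k3 (c0 ▸ tendsto_nhds_unique_of_frequently_eq
    (g.ms.hol _ v (at_chart v) k1).cont (m1.hol _ v (at_chart v) k1).cont ?_)⟩
  refine ((mem_closure_iff_frequently.1 (l4 v q k4).1).and_eventually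
    (at_near (at_chart (n := p + n * a) v))).mono fun y ⟨⟨n1, n2⟩, n3⟩ => ?_
  rw [m4 _ y n3 n2, (l4 y (n1 ▸ q) (n1 ▸ k4)).2 n2 _ n3]

/-- the iteration -/
theorem iter (hE : EXT1) (hZ : ZERO) (hL : LC) (hO : OPN) (hS : EST) (hN : NRM) (h : D.Ok)
    (P : D.Pw0 n (p + n * a)) (b : ℕ) :
    (∃ ξ, P.Good ξ b) → ∃ ξ, P.Good ξ (D.m * (p + 2)) := by
  obtain ⟨m, hm⟩ : ∃ m, D.m = m + 1 := ⟨D.m - 1, by have := h.two; omega⟩
  have key : ∀ b ≤ D.m * (p + 2), (∃ ξ, P.Good ξ b) → ∃ ξ, P.Good ξ (D.m * (p + 2)) :=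
    fun b hb ⟨ξ, g⟩ => step hE hZ hL hO hS hN h P g (by
      rw [hm] at hb ⊢
      have := Nat.mul_le_mul_right m hb
      rw [Nat.add_sub_cancel]
      nlinarith)
  induction b with
  | zero => exact key 0 (Nat.zero_le _)
  | succ b ih =>
    rintro ⟨ξ, g⟩
    by_cases hb : b + 1 ≤ D.m * (p + 2)
    · exact key _ hb ⟨ξ, g⟩
    · refine ih (step hE hZ hL hO hS hN h P g ?_)
      rw [hm] at hb ⊢
      rw [Nat.add_sub_cancel]
      nlinarith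

theorem lb3 {K : ℕ} {V : Mf K} {L L' L'' : Bd V.X} (h : IsLB K L) (h' : IsLB K L')
    (h'' : IsLB K L'') (i : Fin 3) : IsLB K (![L, L', L''] i) := by
  fin_cases i
  exacts [h, h', h'']

theorem cls3 {K : ℕ} {V : Mf K} {L L' L'' : Bd V.X} (h : IsLB K L) (h' : IsLB K L')
    (h'' : IsLB K L'') (i j k : ℤ) : cls K (lin ![L, L', L''] ![i, j, k]) =
      i • cls K L + j • cls K L' + k • cls K L'' :=
  (cls_lin (lb3 h h' h'') _).trans (Fin.sum_univ_three _)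

/-- the rows of the block -/
structure Rows : Prop where
  prjq : PRJQ
  pw0 : PW0
  rho : RHO
  topf : TOPF
  ofpf : OFPF
  pfm : PFM
  xi0 : XI0
  lc : LC
  opn : OPN
  est : EST
  nrm : NRM
  diag : DIAG
  st : ST

theorem u1_of (R : Rows) (hE : EXT1) (hZ : ZERO) (hG : GEN) (hP : Pb.PSEX) (hK : P277Z.Pos.KAH)
    (C : Cal) : U1 := by
  intro w r W Z γ A κ _ G δ hc hk hγ hs hA hA' hG' hδ hF q hq
  obtain ⟨⟨a, rfl⟩, st⟩ := R.st w r W Z γ A κ G δ hc hk hγ hs hA hA' hG' hδ hF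
  obtain ⟨Q₀, t₀, reg⟩ := hG _ r W Z γ κ G hγ hG'
  obtain ⟨S⟩ := hP r
  obtain ⟨k, α, ψ, k1, k2, k3, k4, k5, k6, k7⟩ :=
    R.prjq r Z A Q₀ S (hs.connectedSpace hγ.cont) hA hA' t₀
  obtain ⟨m, b, c, σ, m2, hm, s1, s2⟩ := st k k1
  let D : Su r a := ⟨⟨W, Z, γ, κ, G, δ⟩, S, A.pow k, α, ψ, m, c⟩
  have h : D.Ok := ⟨hc, hk, Pos.kah hA hA' hK, hγ, hs, hG', lb_pow hA k, k2, k3, k4, k5, k6,
    fun z hz => reg z fun c => hz (k7 z c), m2, fun l => by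
      have : (c l : ℚ) ≤ m := hm l ▸ mul_le_of_le_one_right (Nat.cast_nonneg m) (hδ l).2
      exact_mod_cast this⟩
  obtain ⟨ω', o1, o2⟩ := R.topf r a D b σ h s1 s2
  obtain ⟨b', ρ, r1, r2⟩ := R.rho r a D h
  obtain ⟨s, hs'⟩ : ∃ s, q * (k * (m * (r + 2) + b' + 1)) = s + 1 :=
    Nat.exists_eq_succ_of_ne_zero (by positivity)
  obtain ⟨P⟩ := R.pw0 r a (s + 1) D h
  obtain ⟨ξ₀, b₀, g₀⟩ := R.xi0 r a s b b' D P ω' ρ h o1 r1
    ((R.pfm r a D _ _ _ _ _ _ _ _ _ _ h o1 r1).2.1 o2 r2)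
  obtain ⟨ξ, g⟩ := iter hE hZ R.lc R.opn R.est R.nrm h P b₀ ⟨ξ₀, g₀⟩
  obtain ⟨σ', d1, d2⟩ := R.diag r a s _ D P ξ h g
  obtain ⟨p1, p2, -⟩ := R.pfm r a D _ _ _ _ _ _ _ _ _ _ h d1 r1
  obtain ⟨x, x1, x2, x3⟩ := p2 d2 r2
  rw [add_zero, add_zero, ← add_one_mul] at p1
  have l1 : IsLB (r + a) (Bd.can (r + a) W.X) := isLB_can
  have l2 : IsLB (r + a) (pull γ (Bd.can r Z.X)) := hγ.lb isLB_can
  have l3 := hγ.lb (lb_pow hA k)
  have gd : Gd (r + a) (r + a) id G := gd_id hG'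
  obtain ⟨r', hr'⟩ : ∃ r', m * (m * (r + 2) + b' + 1) = m * (r + 2) + b' + (r' + 1) :=
    ⟨m * (m * (r + 2) + b' + 1) - (m * (r + 2) + b' + 1), by
      have := Nat.le_mul_of_pos_left (m * (r + 2) + b' + 1) (two_pos.trans_le m2)
      omega⟩
  have u := (KP.of (lb_lin (lb3 l1 l2 l3) _) (R.ofpf r a D _ _ _ _ h p1
    ⟨x, x1, mul_ne_zero x2 x3⟩)).add C gd hc ((kp_sec C gd l3 (kap0_zero l3 (hγ.sec (k2 0)) (x := x)
      fun i hi => mt (h.mem_Q hi).1 x1.1)).pow C gd r'.succ_pos)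
  refine KP.root C gd (lb_lin (lb3 l1 l2 (hγ.lb hA)) _) (k := m * (k * (m * (r + 2) + b' + 1)))
    (by positivity) (u.cng gd ?_ fun l => le_of_eq ?_)
  · have e1 : cls (r + a) (pull γ (A.pow k)) = k • cls (r + a) (pull γ A) := cls_pow (hγ.lb hA) k
    have e2 : ((s : ℤ) + 1) = q * (k * (m * (r + 2) + b' + 1)) := by exact_mod_cast hs'.symm
    have e3 : ((r' : ℤ) + 1) = m * (m * (r + 2) + b' + 1) - (m * (r + 2) + b') := by
      rw [eq_sub_iff_add_eq']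
      exact_mod_cast hr'.symm
    refine (congrArg (· + _) (cls3 l1 l2 l3 _ _ _)).trans ?_
    rw [cls3 l1 l2 (hγ.lb hA), e1]
    simp only [← natCast_zsmul, smul_smul, smul_add]
    push_cast
    rw [e2, e3]
    module
  · have e1 : (c l : ℝ) = m * δ l := by exact_mod_cast hm l
    have e2 : ((s : ℝ) + 1) = q * (k * (m * (r + 2) + b' + 1)) := by exact_mod_cast hs'.symm
    change ((s + 1 : ℕ) : ℝ) * c l + _ * 0 = _
    push_cast
    rw [e1, e2]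
    ring

end Vale.Agent.P281Z.U1
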