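import Vale.Agent.P281Z.U1.Defs

/-!
# P281Z, block U1: the start of the iteration
-/

open scoped Manifold ContDiff Topology
open Set Filter
open Vale.Agent.P272.K Vale.Agent.P285.H281.FD
open Vale.Agent.P277Z (Hol Mer Nz gen at_chart hol_const nz_of_gen nz_of_ne gen_le_nhds)
open Vale.Agent.P277Z.Slc (LEq)
open Vale.Agent.P281Z.Gt
open Vale.Agent.P281Z.Md (Bnd)

noncomputable section

namespace Vale.Agent.P281Z.U1

open Su

namespace Xi

section mer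

variable {n : ℕ} {W : Type} [TopologicalSpace W] [ChartedSpace (Cm n) W]
  [IsManifold 𝓘(ℂ, Cm n) ω W] {f g : W → ℂ} {x : W}

theorem mmul (ha : Mer n f x) (hb : Mer n g x) : Mer n (fun y => f y * g y) x :=
  let ⟨_, _, h1, h2, h3, h4⟩ := ha
  let ⟨_, _, k1, k2, k3, k4⟩ := hb
  ⟨_, _, h1.mul k1, h2.mul k2, P277Z.Nz.mul h2 k2 h3 k3, (h4.and k4).mono fun y e => by
    rw [← e.1, ← e.2, mul_mul_mul_comm]⟩

theorem mprod {ι : Type} (s : Finset ι) {f : ι → W → ℂ} (h : ∀ i, Mer n (f i) x) :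
    Mer n (fun y => ∏ i ∈ s, f i y) x := by
  induction s using Finset.cons_induction with
  | empty => exact ⟨_, _, hol_const 1 x, hol_const 1 x, nz_of_ne one_ne_zero,
      .of_forall fun _ => mul_one _⟩
  | cons i s hi ih => simpa only [Finset.prod_cons] using mmul (h i) ih

theorem mpow (h : Mer n f x) (k : ℕ) : Mer n (fun y => f y ^ k) x := by
  simpa only [Finset.prod_const, Finset.card_range] using mprod (Finset.range k) fun _ => h

theorem jself {e : Chart n W} (he : At e x) : (jacM e e x).det = 1 := by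
  rw [← dfM_id he he, dfM_id_self he, Matrix.det_one]

end mer

section bnd

variable {W : Type} [TopologicalSpace W] {S : Set W} {F F' : W → ℝ} {x : W}

theorem bmul (h : Bnd S F x) (h' : Bnd S F' x) (k : ∀ y, 0 ≤ F y) (k' : ∀ y, 0 ≤ F' y) :
    Bnd S (fun y => F y * F' y) x :=
  let ⟨C, a⟩ := h
  let ⟨C', a'⟩ := h'
  ⟨C * C', (a.and a').mono fun y b c => mul_le_mul (b.1 c) (b.2 c) (k' y) ((k y).trans (b.1 c))⟩

theorem bprod {ι : Type} [Fintype ι] {F : ι → W → ℝ} (h : ∀ i, Bnd S (F i) x)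
    (k : ∀ i y, 0 ≤ F i y) : Bnd S (fun y => ∏ i, F i y) x := by
  choose C hC using h
  exact ⟨∏ i, C i, (eventually_all.2 hC).mono fun y a b =>
    Finset.prod_le_prod (fun i _ => k i y) fun i _ => a i b⟩

theorem bpow (h : Bnd S F x) (k : ∀ y, 0 ≤ F y) (m : ℕ) : Bnd S (fun y => F y ^ m) x :=
  let ⟨C, a⟩ := h
  ⟨C ^ m, a.mono fun y b c => pow_le_pow_left₀ (k y) (b c) m⟩

end bnd

variable {p a s : ℕ} {D : Su p a}

theorem nx {q : Pt D.toFb (s + 1)} (h : Fp q) (k : q ∈ D.Nq (s + 1)) (j : Fin (s + 1)) :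
    q.2 j ∈ D.Nx := ⟨(h j).symm ▸ k.1, k.2 j⟩

theorem atf {q : Pt D.toFb (s + 1)} (h : Fp q) {e' e} (k : Ats e' e q) (j : Fin (s + 1)) :
    At e' (D.f (q.2 j)) := (h j).symm ▸ k.1

theorem ats {K : ℕ} {T : Type} [TopologicalSpace T] [ChartedSpace (Cm K) T]
    {γ : T → Pt D.toFb (s + 1)} {t : T} (h : Tm K γ t) {e' e} (k : Ats e' e (γ t)) :
    ∀ᶠ y in 𝓝 t, Ats e' e (γ y) :=
  (h.b.cont.eventually (at_near k.1)).and
    (eventually_all.2 fun j => (h.x j).cont.eventually (at_near (k.2 j)))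

theorem ats0 (q : Pt D.toFb (s + 1)) : Ats (chartAt _ q.1) (fun j => chartAt _ (q.2 j)) q :=
  ⟨at_chart _, fun _ => at_chart _⟩

variable (P : D.Pw0 (s + 1) (p + (s + 1) * a))
  (ω' ρ : Chart (p + a) D.X.X → Chart p D.Y.X → D.X.X → ℂ)

/-- the form, in given charts -/
def xi (E : Chart (p + (s + 1) * a) P.V.X) (e' : Chart p D.Y.X)
    (e : Fin (s + 1) → Chart (p + a) D.X.X) (v : P.V.X) : ℂ :=
  cmp P.γ E e' e v ^ D.m * (∏ j, ω' (e j) e' ((P.γ v).2 j)) * ρ (e 0) e' ((P.γ v).2 0) ^ s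

/-- the form -/
def xi0 (E : Chart (p + (s + 1) * a) P.V.X) (v : P.V.X) : ℂ :=
  xi P ω' ρ E (chartAt _ (P.γ v).1) (fun j => chartAt _ ((P.γ v).2 j)) v

variable {P ω' ρ} {b b' : ℕ} {v : P.V.X} {E E₁ : Chart (p + (s + 1) * a) P.V.X}
  {e' e₁' : Chart p D.Y.X} {e e₁ : Fin (s + 1) → Chart (p + a) D.X.X}

theorem fp (v : P.V.X) : Fp (P.γ v) := (P.tm v).fp.self_of_nhds

theorem chg (hT : DETT) (ok : D.Ok) (h1 : D.PF D.m 0 1 b ω') (h2 : D.PF 0 D.m 0 b' ρ)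
    (hv : v ∉ P.A) (k : At E v) (k₁ : At E₁ v) (c : Ats e' e (P.γ v)) (c₁ : Ats e₁' e₁ (P.γ v)) :
    xi P ω' ρ E e' e v = (jacM E E₁ v).det ^ D.m * xi P ω' ρ E₁ e₁' e₁ v := by
  have hq := not_not.1 hv
  have l1 := (hT p a s D ok _ _ v (P.tm v)).chg E E₁ e' e₁' e e₁ k k₁ c c₁ hq.1
  have l2 := fun j => h1.chg (e j) (e₁ j) e' e₁' _ (nx (fp v) hq j) (c.2 j) (c₁.2 j)
    (atf (fp v) c j) (atf (fp v) c₁ j)
  have l3 := h2.chg (e 0) (e₁ 0) e' e₁' _ (nx (fp v) hq 0) (c.2 0) (c₁.2 0)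
    (atf (fp v) c 0) (atf (fp v) c₁ 0)
  simp only [pow_zero, mul_one, one_mul, fp v 0] at l2 l3
  simp only [xi, l2, ← l3, Finset.prod_mul_distrib, Finset.prod_pow]
  rw [← mul_assoc, ← mul_pow, l1]
  ring

theorem eq0 (hT : DETT) (ok : D.Ok) (h1 : D.PF D.m 0 1 b ω') (h2 : D.PF 0 D.m 0 b' ρ)
    (hv : v ∉ P.A) (k : At E v) (c : Ats e' e (P.γ v)) : xi0 P ω' ρ E v = xi P ω' ρ E e' e v := by
  rw [xi0, chg hT ok h1 h2 hv k k (ats0 _) c, jself k, one_pow, one_mul]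

theorem eqn (hT : DETT) (ok : D.Ok) (h1 : D.PF D.m 0 1 b ω') (h2 : D.PF 0 D.m 0 b' ρ)
    (k : At E v) (c : Ats e' e (P.γ v)) :
    ∀ᶠ y in 𝓝 v, y ∉ P.A → xi P ω' ρ E e' e y = xi0 P ω' ρ E y := by
  filter_upwards [at_near k, ats (P.tm v) c] with y l1 l2 l3 using (eq0 hT ok h1 h2 l3 l1 l2).symm

theorem hol (hT : DETT) (ok : D.Ok) (h1 : D.PF D.m 0 1 b ω') (h2 : D.PF 0 D.m 0 b' ρ)
    (hv : v ∉ P.A) (k : At E v) : Hol (p + (s + 1) * a) (xi0 P ω' ρ E) v := by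
  have hq := not_not.1 hv
  have c := ats0 (P.γ v)
  refine P277Z.Hol.congr (((((hT p a s D ok _ _ v (P.tm v)).holc E _ _ k c hq.1).pow D.m).mul
    (P277Z.Hol.prod Finset.univ fun j _ => ((P.tm v).x j).hol
      (h1.hol _ _ _ (nx (fp v) hq j) (c.2 j) (atf (fp v) c j)))).mul
    ((((P.tm v).x 0).hol (h2.hol _ _ _ (nx (fp v) hq 0) (c.2 0) (atf (fp v) c 0))).pow s)) ?_
  filter_upwards [eqn hT ok h1 h2 k c, P.thin.closed.isOpen_compl.mem_nhds hv] with y l1 l2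
    using l1 l2

theorem mer1 (hW : HW) (hM : PFM) (ok : D.Ok) {k i u b : ℕ} {σ} (h : D.PF k i u b σ)
    (c : Ats e' e (P.γ v)) (j : Fin (s + 1)) :
    Mer (p + (s + 1) * a) (fun y => σ (e j) e' ((P.γ y).2 j)) v := by
  obtain ⟨ζ, l1, -⟩ := ok.snc ((P.γ v).2 j)
  obtain ⟨β, l2⟩ := ok.lb.cover (D.f ((P.γ v).2 j))
  obtain ⟨g, l3, l4⟩ := (hM p a D k i u b k i u b σ σ ok h h).2.2 _ (e j) e' ζ β (c.2 j)
    (atf (fp v) c j) l2 l1
  have hx := (P.tm v).x j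
  refine ⟨_, _, hx.hol l3, hx.hol (((P277Z.Hol.prod Finset.univ fun l _ => (l1 l).hol.pow (D.c l)).pow u).mul
    ((ok.hol.hol (a := fun z => D.α β z 0) fun e₀ k₀ =>
      ((ok.sec 0).holo β e₀ _ k₀ l2).analyticAt).pow b)), nz_of_gen ?_, ?_⟩
  · filter_upwards [P.thin.gen v, gen_le_nhds v (hx.cont.eventually
      ((eventually_all.2 fun l => (l1 l).1).and
        (ok.hol.cont.continuousAt.eventually_mem ((ok.lb.isOpen β).mem_nhds l2))))] with y m1 m2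
    have m3 := nx (fp y) (not_not.1 m1) j
    exact mul_ne_zero (pow_ne_zero _ (Finset.prod_ne_zero_iff.2 fun l _ => pow_ne_zero _
      (mt (m2.1 l).1 (m3.2 l)))) (pow_ne_zero _ (mt ((hW p a D ok).2.2.2.1 β _ m2.2).2.1 m3.1))
  · filter_upwards [P.thin.gen v, gen_le_nhds v (hx.cont.eventually l4)] with y m1 m2
    exact m2 (nx (fp y) (not_not.1 m1) j)

theorem mer2 (hX : DETX) (hT : DETT) (hW : HW) (hN : NUL) (ok : D.Ok) (k : At E v)
    (c : Ats e' e (P.γ v)) : Mer (p + (s + 1) * a) (cmp P.γ E e' e) v := by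
  obtain ⟨K₀, hK⟩ := hN p a D ok
  have l1 : ∀ j, ∃ w : Fin a → D.X.X → ℂ, (∀ i, Hol (p + a) (w i) ((P.γ v).2 j)) ∧
      Nz (fun y => jdw (M := D.toFb) w (e j) e' ((P.γ y).2 j)) v := fun j => by
    obtain ⟨k, w, m1, m2⟩ := hK ((P.γ v).2 j)
    obtain ⟨C, m3⟩ := m2 (e j) e' (c.2 j) (atf (fp v) c j)
    by_contra! m4
    obtain ⟨y, n1, ⟨i, n2⟩, n3⟩ := ((P.thin.freq v).and_eventually
      ((((P.tm v).x j).cont.eventually m3).and
        (eventually_all.2 fun i => not_not.1 (m4 (w i) (m1 i))))).exists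
    have n4 := (hW p a D ok).2.2.1 (D.f ((P.γ y).2 j))
    rw [show jdw _ _ _ _ = 0 from n3 i, norm_zero, mul_zero] at n2
    exact (pow_pos (n4.1.lt_of_ne' (mt n4.2.2.1 (nx (fp y) (not_not.1 n1) j).1)) K₀).not_ge n2
  choose w l1 l2 using l1
  have l3 := fun j => ((P.tm v).x j).hol
    ((hX p a D ok).hol (w j) _ (e j) e' (l1 j) (c.2 j) (atf (fp v) c j))
  refine ⟨_, _, (hT p a s D ok _ _ v (P.tm v)).hol E e' w k c.1 l1, P277Z.Hol.prod Finset.univ fun j _ => l3 j,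
    nz_of_gen ((eventually_all.2 fun j => (l2 j).gen (l3 j)).mono fun y m =>
      Finset.prod_ne_zero_iff.2 fun j _ => m j), ?_⟩
  filter_upwards [P.thin.gen v, gen_le_nhds v ((at_near k).and ((ats (P.tm v) c).and
    (eventually_all.2 fun j => ((P.tm v).x j).cont.eventually
      (eventually_all.2 fun i => (l1 j i).near))))] with y m1 m2
  exact (hT p a s D ok _ _ y (P.tm y)).eq E e' e w m2.1 m2.2.1 (not_not.1 m1).1 m2.2.2

theorem mer (hX : DETX) (hT : DETT) (hW : HW) (hN : NUL) (hM : PFM) (ok : D.Ok)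
    (h1 : D.PF D.m 0 1 b ω') (h2 : D.PF 0 D.m 0 b' ρ) (k : At E v) :
    Mer (p + (s + 1) * a) (xi0 P ω' ρ E) v := by
  have c := ats0 (P.γ v)
  obtain ⟨u, w, l1, l2, l3, l4⟩ := mmul (mmul (mpow (mer2 hX hT hW hN ok k c) D.m)
    (mprod Finset.univ (mer1 hW hM ok h1 c))) (mpow (mer1 hW hM ok h2 c 0) s)
  refine ⟨u, w, l1, l2, l3, ?_⟩
  filter_upwards [l4, P.thin.gen v, gen_le_nhds v (eqn hT ok h1 h2 k c)] with y m1 m2 m3
  rw [← m3 m2]
  exact m1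

theorem inv (hT : DETT) (hP : DETP) (hW : HW) (hN : NUL) (ok : D.Ok) (h1 : D.PF D.m 0 1 b ω')
    (h2 : D.PF 0 D.m 0 b' ρ) : ∃ b₀, P.Inv ∅ (xi0 P ω' ρ) b₀ := by
  obtain ⟨K₀, hK⟩ := hN p a D ok
  refine ⟨K₀ * (s + 1) * D.m + b * (s + 1) + b' * s, fun β l t₀ hb ζ hζ => ?_⟩
  have c := ats0 (β t₀)
  have f0 := hb.tm.fp.self_of_nhds
  have tz := (hW p a D ok).2.2.1
  set e' := chartAt (Cm p) (β t₀).1
  set e := fun j => chartAt (Cm (p + a)) ((β t₀).2 j)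
  set S := {t | β t ∈ D.Nq (s + 1) ∧ l t ∉ (∅ : Set P.V.X)}
  choose k w l1 l2 using fun j => hK ((β t₀).2 j)
  choose C l2 using fun j => l2 j (e j) e' (c.2 j) (atf f0 c j)
  have l3 : ∀ᶠ t in 𝓝 t₀, t ∈ S → l t ∉ P.A ∧ P.γ (l t) = β t ∧
      HolA (p + (s + 1) * a) (p + (s + 1) * a) l t ∧ ∀ᶠ r in 𝓝 t, P.γ (l r) = β r := by
    filter_upwards [hb.lift.eventually_nhds, hb.tm.b.near] with t m1 m2 m3
    have m4 := m1.self_of_nhds m3.1.1
    refine ⟨fun m => m (m4.1.symm ▸ m3.1), m4.1, m4.2.1, ?_⟩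
    filter_upwards [m1, m2.cont.eventually_mem (ok.thin.closed.isOpen_compl.mem_nhds m3.1.1)]
      with r n1 n2 using (n1 n2).1
  have l4 : ContinuousAt (fun t => |∏ j, C j| * ∑ i : ∀ j, Fin (k j),
      ‖jnw e' (fun j => w j (i j)) β (.refl _) t‖) t₀ :=
    continuousAt_const.mul (tendsto_finsetSum _ fun i _ => ((hT p a s D ok _ β t₀ hb.tm).hol _ e' _
      ⟨chart_mem_atlas _ t₀, trivial⟩ c.1 fun j => l1 j (i j)).cont.norm)
  have b1 : Bnd S (fun t => ‖cmp P.γ (chartAt _ (l t)) e' e (l t) *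
      (dfM l (.refl _) (chartAt (Cm (p + (s + 1) * a)) (l t)) t).det‖ *
        D.tz (β t).1 ^ (K₀ * (s + 1))) t₀ := by
    refine ⟨|∏ j, C j| * ∑ i : ∀ j, Fin (k j),
      ‖jnw e' (fun j => w j (i j)) β (.refl _) t₀‖ + 1, ?_⟩
    filter_upwards [l3, l4.eventually_lt continuousAt_const (lt_add_one _), ats hb.tm c, hb.tm.fp,
      eventually_all.2 fun j => (hb.tm.x j).cont.eventually ((l2 j).and (eventually_all.2
        fun i => eventually_all.2 fun i' => (l1 j i i').near))] with t m1 m2 m3 m4 m5 m6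
    obtain ⟨n1, n2, n3, n4⟩ := m1 m6
    choose i hi using fun j => (m5 j).1
    have n5 := (hP p a _ D P ok).1 β l t _ e' (fun j => w j (i j)) n3 n4 (at_chart _) m3.1
      fun j => (m5 j).2 (i j)
    have n6 := (hT p a s D ok _ _ _ (P.tm (l t))).eq _ e' e (fun j => w j (i j)) (at_chart _)
      (n2.symm ▸ m3) (n2.symm ▸ m6.1.1) (n2.symm ▸ fun j => (m5 j).2 (i j))
    have n7 : D.tz (β t).1 ^ (K₀ * (s + 1)) ≤
        (∏ j, C j) * ‖∏ j, jdw (M := D.toFb) (w j (i j)) (e j) e' ((β t).2 j)‖ := by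
      rw [norm_prod, ← Finset.prod_mul_distrib, pow_mul, ← Fin.prod_const]
      exact Finset.prod_le_prod (fun j _ => pow_nonneg (tz _).1 _) fun j _ => m4 j ▸ hi j
    refine ((mul_le_mul_of_nonneg_left n7 (norm_nonneg _)).trans ?_).trans m2.le
    rw [mul_left_comm, ← norm_mul, mul_right_comm, ← n2, n6, ← n5]
    exact mul_le_mul (le_abs_self _) (Finset.single_le_sum (f := fun i : ∀ j, Fin (k j) =>
      ‖jnw e' (fun j => w j (i j)) β (.refl _) t‖) (fun _ _ => norm_nonneg _) (Finset.mem_univ i))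
      (norm_nonneg _) (abs_nonneg _)
  have b2 : ∀ {k i u b σ}, D.PF k i u b σ → ∀ j, Bnd S (fun t => ‖σ (e j) e' ((β t).2 j)‖ *
      ((∏ l, ‖ζ j l ((β t).2 j)‖ ^ D.c l) ^ u * D.tz (β t).1 ^ b)) t₀ := fun h j => by
    obtain ⟨C, m⟩ := h.bd (e j) e' _ (ζ j) (c.2 j) (atf f0 c j) (hζ j)
    refine ⟨C, ?_⟩
    filter_upwards [(hb.tm.x j).cont.eventually m, hb.tm.fp] with t m1 m2 m3
    exact m2 j ▸ m1 (nx m2 m3.1 j)
  have p0 := fun t => (tz (β t).1).1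
  obtain ⟨B, hB⟩ := bmul (bmul (bpow b1 (fun t => by have := p0 t; positivity) D.m)
    (bprod (b2 h1) fun j t => by have := p0 t; positivity) (fun t => by have := p0 t; positivity)
    fun t => Finset.prod_nonneg fun j _ => by have := p0 t; positivity)
    (bpow (b2 h2 0) (fun t => by have := p0 t; positivity) s)
    (fun t => by have := p0 t; positivity) fun t => by have := p0 t; positivity
  refine ⟨B, ?_⟩
  filter_upwards [hB, l3, ats hb.tm c] with t m1 m2 m3 m4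
  obtain ⟨n1, n2, -⟩ := m2 m4
  refine le_of_eq_of_le ?_ (m1 m4)
  rw [pb, eq0 hT ok h1 h2 n1 (at_chart _) (n2.symm ▸ m3), xi, n2, mo]
  simp only [norm_mul, norm_pow, norm_prod, Finset.prod_mul_distrib, Fin.prod_const, pow_zero,
    pow_one, one_mul, mul_pow, pow_add, pow_mul]
  ring

end Xi

open Xi in
/-- **XI0** -/
theorem xi0_of (hX : DETX) (hT : DETT) (hP : DETP) (hW : HW) (hN : NUL) (hM : PFM) : XI0 := by
  intro p a s b b' D P ω' ρ ok h1 h2 ⟨x, hx, h3, h4⟩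
  obtain ⟨b₀, hb⟩ := inv (P := P) hT hP hW hN ok h1 h2
  obtain ⟨v, hv⟩ := P.diag x hx.1
  have h5 : P.γ v ∈ D.Nq (s + 1) := hv ▸ ⟨hx.1, fun _ => hx.2⟩
  refine ⟨_, b₀, ⟨fun E v k l => hol hT ok h1 h2 l k, fun E E₁ v k k₁ l =>
    chg hT ok h1 h2 l k k₁ (ats0 _) (ats0 _), fun E v k => mer hX hT hW hN hM ok h1 h2 k⟩, hb,
    v, not_not.2 h5, x, hv, ?_⟩
  have h6 : ∀ j, D.Fc (D.wc x) ((P.γ v).2 j) := fun j =>
    hv ▸ (hX p a D ok).ex x ((hW p a D ok).2.2.2.2.2 x hx.1)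
  have h7 := ((hP p a _ D P ok).2 v _ _ _ (at_chart v) (at_chart _) h5.1 h6).1
  rw [← (hT p a s D ok _ _ v (P.tm v)).eq _ _ _ _ (at_chart v) (ats0 _) h5.1 fun j => (h6 j).1] at h7
  refine mul_ne_zero (mul_ne_zero (pow_ne_zero _ (left_ne_zero_of_mul h7))
    (Finset.prod_ne_zero_iff.2 fun j _ => ?_)) (pow_ne_zero _ ?_)
  · rw [hv]
    exact h3
  · rw [hv]
    exact h4

end Vale.Agent.P281Z.U1
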